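import Vale.Agent.P088.H4.Spec

/-!
# P088, higher order: boundary determination of all orders, part 1
-/

open MeasureTheory Set Filter Topology
open scoped ContDiff

noncomputable section

namespace Vale.Agent.P088.EYM.H

open Vale.Agent.P088.EYM

set_option linter.all false

variable {n : ℕ} [NeZero n] {N : ℕ}
variable {F : Type*} [NormedAddCommGroup F] [NormedSpace ℝ F]
variable {D : Set (E n)}

/-! ### powers of `x_0` -/

theorem xk_smooth (k : ℕ) : ContDiffOn ℝ ∞ (fun x : E n => (x 0) ^ k) D :=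
  (dc_smooth_coord 0).pow k

theorem xk_pd (hD : RelOpen D) (k : ℕ) {x : E n} (hx : x ∈ D) :
    pd 0 (fun y : E n => (y 0) ^ (k + 1)) x = (k + 1 : ℝ) * (x 0) ^ k := by
  induction k with
  | zero =>
    simp only [zero_add, pow_one, Nat.cast_zero, pow_zero, mul_one]
    rw [dc_pd_coord (hD.subset hx), if_pos rfl]
  | succ k ih =>
    have e : (fun y : E n => (y 0) ^ (k + 1 + 1)) = fun y : E n => (y 0) ^ (k + 1) * y 0 := by
      funext y; ring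
    rw [e, hD.pd_mul (xk_smooth (k + 1)) (dc_smooth_coord 0) hx, ih,
      dc_pd_coord (hD.subset hx), if_pos rfl]
    push_cast
    ring

theorem xk_top (hD : RelOpen D) (k : ℕ) :
    Van D k (fun x : E n => (x 0) ^ k) ∧
      ∀ x ∈ D, (pd (0 : Fin n))^[k] (fun x : E n => (x 0) ^ k) x = (k.factorial : ℝ) := by
  induction k with
  | zero => exact ⟨van_zero _, fun x _ => by simp⟩
  | succ k ih =>
    have hs : ContDiffOn ℝ ∞ (fun x : E n => (x 0) ^ k) D := xk_smooth k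
    have he : EqOn (fun x : E n => ((k + 1 : ℝ) • ContinuousLinearMap.id ℝ ℝ) ((x 0) ^ k))
        (pd 0 (fun y : E n => (y 0) ^ (k + 1))) D := fun x hx => by
      rw [xk_pd hD k hx]; simp
    refine ⟨van_succ.2 ⟨fun x _ h0 => by simp [h0], ?_⟩, fun x hx => ?_⟩
    · exact (Van.clm hD _ hs ih.1).congr hD he
    · rw [Function.iterate_succ_apply, ← dv_iter_congr hD he k hx, dv_iter_clm hD _ hs k hx,
        ih.2 x hx, Nat.factorial_succ]
      simp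

/-- `x_0^k f` vanishes to order `k`, with leading derivative `k! f` -/
theorem xk_smul (hD : RelOpen D) (k : ℕ) {f : E n → F} (hf : ContDiffOn ℝ ∞ f D) :
    ContDiffOn ℝ ∞ (fun x : E n => (x 0) ^ k • f x) D ∧ Van D k (fun x : E n => (x 0) ^ k • f x) ∧
      ∀ x ∈ D, x 0 = 0 → (pd (0 : Fin n))^[k] (fun x : E n => (x 0) ^ k • f x) x =
        (k.factorial : ℝ) • f x := by
  obtain ⟨h1, h2⟩ := xk_top (n := n) hD k
  refine ⟨dc_smooth_bil dc_bil_smul (xk_smooth k) hf, ?_, fun x hx hx0 => ?_⟩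
  · have := Van.bil hD dc_bil_smul (xk_smooth k) hf h1 (van_zero f)
    rwa [add_zero] at this
  · rw [dv_top_left hD dc_bil_smul (xk_smooth k) hf h1 hx hx0]
    show (pd (0 : Fin n))^[k] (fun x : E n => (x 0) ^ k) x • f x = _
    rw [h2 x hx]

theorem van_snoc {k : ℕ} {f : E n → F} (h : Van D k f)
    (h' : ∀ x ∈ D, x 0 = 0 → (pd (0 : Fin n))^[k] f x = 0) : Van D (k + 1) f := by
  intro i hi x hx hx0
  rcases Nat.lt_succ_iff_lt_or_eq.1 hi with h1 | h1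
  · exact h i h1 x hx hx0
  · rw [h1]; exact h' x hx hx0

/-! ### structure -/

variable {G₁ G₂ : E n → Matrix (Fin n) (Fin n) ℝ} {B₁ B₂ : Fin n → E n → EndF N}
  {h₁ h₂ : E n → EndF N}

/-- the Hermitian forms agree to one order more than the connection matrices -/
theorem st_h_van (hD : RelOpen D) (c₁ : CoefD D G₁ B₁ h₁) (c₂ : CoefD D G₂ B₂ h₂) {m : ℕ}
    (hB : ∀ j, Van D m (fun x => B₁ j x - B₂ j x)) :
    Van D (m + 1) (fun x => h₁ x - h₂ x) := by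
  have h1 : ∀ x ∈ D, x 0 = 0 → h₁ x - h₂ x = 0 := fun x hx hx0 => by
    rw [c₁.h1 x hx hx0, c₂.h1 x hx hx0, sub_self]
  have sdh : ContDiffOn ℝ ∞ (fun y => h₁ y - h₂ y) D := c₁.smh.sub c₂.smh
  have sdB : ContDiffOn ℝ ∞ (fun y => B₁ 0 y - B₂ 0 y) D := (c₁.smB 0).sub (c₂.smB 0)
  have sadB : ContDiffOn ℝ ∞ (fun y => ContinuousLinearMap.adjoint (B₁ 0 y - B₂ 0 y)) D :=
    smooth_adj sdB
  have saB : ContDiffOn ℝ ∞ (fun y => ContinuousLinearMap.adjoint (B₂ 0 y)) D :=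
    smooth_adj (c₂.smB 0)
  have key : ∀ k ≤ m, Van D (k + 1) (fun x => h₁ x - h₂ x) := by
    intro k
    induction k with
    | zero => intro _; exact van_one.2 h1
    | succ k ih =>
      intro hk
      have hh := ih (by omega)
      refine van_succ.2 ⟨h1, ?_⟩
      have hBk : Van D (k + 1) (fun y => B₁ 0 y - B₂ 0 y) := (hB 0).mono hk
      have haBk : Van D (k + 1) (fun y => ContinuousLinearMap.adjoint (B₁ 0 y - B₂ 0 y)) :=
        Van.clm hD adjRE sdB hBk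
      have t1 := Van.bil hD (dc_bil_mul (N := N)) sadB c₁.smh haBk (van_zero _)
      have t2 := Van.bil hD (dc_bil_mul (N := N)) saB sdh (van_zero _) hh
      have t3 := Van.bil hD (dc_bil_mul (N := N)) sdh (c₁.smB 0) hh (van_zero _)
      have t4 := Van.bil hD (dc_bil_mul (N := N)) c₂.smh sdB (van_zero _) hBk
      rw [add_zero] at t1 t3
      rw [zero_add] at t2 t4
      have s1 := smooth_mul sadB c₁.smh
      have s2 := smooth_mul saB sdh
      have s3 := smooth_mul sdh (c₁.smB 0)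
      have s4 := smooth_mul c₂.smh sdB
      exact (Van.add hD (s1.add s2) (s3.add s4) (Van.add hD s1 s2 t1 t2)
        (Van.add hD s3 s4 t3 t4)).congr hD fun y hy => (dst_dh hD c₁ c₂ 0 hy).symm
  exact key m le_rfl

/-- the normal component of the fluxes of the frames agree to order `m + 1` -/
theorem st_flux_van (hD : RelOpen D) (c₁ : CoefD D G₁ B₁ h₁) (c₂ : CoefD D G₂ B₂ h₂)
    (hfluxB : ∀ x ∈ D, x 0 = 0 → ∑ k, G₁ x 0 k • B₁ k x = ∑ k, G₂ x 0 k • B₂ k x)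
    {m : ℕ} (hG : ∀ j l, Van D (m + 1) (fun x => G₁ x j l - G₂ x j l))
    (hB : ∀ j, Van D m (fun x => B₁ j x - B₂ j x)) :
    Van D (m + 1) (fun y => (∑ k, G₁ y 0 k • B₁ k y) - ∑ k, G₂ y 0 k • B₂ k y) := by
  have sf1 : ∀ j k, ContDiffOn ℝ ∞ (fun y => G₁ y j k • B₁ k y) D :=
    fun j k => (c₁.smG j k).smul (c₁.smB k)
  have sf2 : ∀ j k, ContDiffOn ℝ ∞ (fun y => G₂ y j k • B₂ k y) D :=
    fun j k => (c₂.smG j k).smul (c₂.smB k)
  have sF1 : ∀ j, ContDiffOn ℝ ∞ (fun y => ∑ k, G₁ y j k • B₁ k y) D :=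
    fun j => dc_smooth_sum _ fun k _ => sf1 j k
  have sF2 : ∀ j, ContDiffOn ℝ ∞ (fun y => ∑ k, G₂ y j k • B₂ k y) D :=
    fun j => dc_smooth_sum _ fun k _ => sf2 j k
  have hG' : ∀ j l, Van D m (fun x => G₁ x j l - G₂ x j l) := fun j l => (hG j l).mono (by omega)
  have vF : ∀ j, Van D m (fun y => (∑ k, G₁ y j k • B₁ k y) - ∑ k, G₂ y j k • B₂ k y) := by
    intro j
    refine (Van.sum hD Finset.univ (fun k _ => (sf1 j k).sub (sf2 j k)) fun k _ =>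
      dco_van_diff hD (dc_bil_smul (F := EndF N)) (c₁.smG j k) (c₂.smG j k) (c₁.smB k) (c₂.smB k)
        (hG' j k) (hB k)).congr hD fun y _ => ?_
    exact Finset.sum_sub_distrib _ _
  have sq1 : ContDiffOn ℝ ∞ (fun y => ∑ j, ∑ k, G₁ y j k • (B₁ j y * B₁ k y)) D :=
    dc_smooth_sum _ fun j _ => dc_smooth_sum _ fun k _ =>
      (c₁.smG j k).smul (smooth_mul (c₁.smB j) (c₁.smB k))
  have sq2 : ContDiffOn ℝ ∞ (fun y => ∑ j, ∑ k, G₂ y j k • (B₂ j y * B₂ k y)) D :=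
    dc_smooth_sum _ fun j _ => dc_smooth_sum _ fun k _ =>
      (c₂.smG j k).smul (smooth_mul (c₂.smB j) (c₂.smB k))
  have vq : Van D m (fun y => (∑ j, ∑ k, G₁ y j k • (B₁ j y * B₁ k y)) -
      ∑ j, ∑ k, G₂ y j k • (B₂ j y * B₂ k y)) := by
    have st : ∀ j k, ContDiffOn ℝ ∞ (fun y => G₁ y j k • (B₁ j y * B₁ k y) -
        G₂ y j k • (B₂ j y * B₂ k y)) D := fun j k =>
      ((c₁.smG j k).smul (smooth_mul (c₁.smB j) (c₁.smB k))).sub
        ((c₂.smG j k).smul (smooth_mul (c₂.smB j) (c₂.smB k)))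
    refine (Van.sum hD Finset.univ (fun j _ => dc_smooth_sum Finset.univ fun k _ => st j k)
      fun j _ => Van.sum hD Finset.univ (fun k _ => st j k) fun k _ =>
        dco_van_diff hD (dc_bil_smul (F := EndF N)) (c₁.smG j k) (c₂.smG j k)
          (smooth_mul (c₁.smB j) (c₁.smB k)) (smooth_mul (c₂.smB j) (c₂.smB k)) (hG' j k)
          (dco_van_diff hD (dc_bil_mul (N := N)) (c₁.smB j) (c₂.smB j) (c₁.smB k) (c₂.smB k)
            (hB j) (hB k))).congr hD fun y _ => ?_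
    simp only [Finset.sum_sub_distrib]
  have sR : ContDiffOn ℝ ∞ (fun x => ∑ j ∈ Finset.univ.erase (0 : Fin n),
      pd j (fun y => (∑ k, G₁ y j k • B₁ k y) - ∑ k, G₂ y j k • B₂ k y) x) D :=
    dc_smooth_sum _ fun j _ => hD.pd_smooth ((sF1 j).sub (sF2 j)) j
  have vR : Van D m (fun x => ∑ j ∈ Finset.univ.erase (0 : Fin n),
      pd j (fun y => (∑ k, G₁ y j k • B₁ k y) - ∑ k, G₂ y j k • B₂ k y) x) :=
    Van.sum hD _ (fun j _ => hD.pd_smooth ((sF1 j).sub (sF2 j)) j) fun j hj =>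
      Van.pd_tan hD ((sF1 j).sub (sF2 j)) (vF j) (Finset.ne_of_mem_erase hj)
  refine van_succ.2 ⟨fun x hx hx0 => sub_eq_zero.2 (hfluxB x hx hx0), ?_⟩
  refine (Van.clm hD (-ContinuousLinearMap.id ℝ (EndF N)) (sR.add (sq1.sub sq2))
    (Van.add hD sR (sq1.sub sq2) vR vq)).congr hD fun x hx => ?_
  have f1 := c₁.frame x hx
  have f2 := c₂.frame x hx
  have f3 : ∑ j, pd j (fun y => (∑ k, G₁ y j k • B₁ k y) - ∑ k, G₂ y j k • B₂ k y) x =
      (∑ j, pd j (fun y => ∑ k, G₁ y j k • B₁ k y) x) -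
        ∑ j, pd j (fun y => ∑ k, G₂ y j k • B₂ k y) x := by
    rw [← Finset.sum_sub_distrib]
    exact Finset.sum_congr rfl fun j _ => hD.pd_sub (sF1 j) (sF2 j) hx j
  rw [← Finset.add_sum_erase _ _ (Finset.mem_univ (0 : Fin n)),
    eq_neg_of_add_eq_zero_left f1, eq_neg_of_add_eq_zero_left f2] at f3
  have hn : ∀ v : EndF N, (-ContinuousLinearMap.id ℝ (EndF N)) v = -v := fun v => rfl
  refine (hn _).trans ?_
  rw [eq_sub_of_add_eq f3]
  abel

theorem st_step (hD : RelOpen D) (c₁ : CoefD D G₁ B₁ h₁) (c₂ : CoefD D G₂ B₂ h₂)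
    (hfluxB : ∀ x ∈ D, x 0 = 0 → ∑ k, G₁ x 0 k • B₁ k x = ∑ k, G₂ x 0 k • B₂ k x)
    {m : ℕ} (hG : ∀ j l, Van D (m + 1) (fun x => G₁ x j l - G₂ x j l))
    (hB : ∀ j, Van D m (fun x => B₁ j x - B₂ j x)) :
    Van D (m + 2) (fun x => h₁ x - h₂ x) ∧
    (∀ x ∈ D, x 0 = 0 → ∀ j, ContinuousLinearMap.adjoint
      ((pd (0 : Fin n))^[m] (fun y => B₁ j y - B₂ j y) x) =
        -((pd (0 : Fin n))^[m] (fun y => B₁ j y - B₂ j y) x)) ∧
    (∀ x ∈ D, x 0 = 0 → ∑ l, G₂ x 0 l •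
      (pd (0 : Fin n))^[m] (fun y => B₁ l y - B₂ l y) x = 0) := by
  have sdB : ∀ j, ContDiffOn ℝ ∞ (fun y => B₁ j y - B₂ j y) D :=
    fun j => (c₁.smB j).sub (c₂.smB j)
  have sG : ∀ j k, ContDiffOn ℝ ∞ (fun y => G₁ y j k - G₂ y j k) D :=
    fun j k => (c₁.smG j k).sub (c₂.smG j k)
  have hF := st_flux_van hD c₁ c₂ hfluxB hG hB
  have p1 : ∀ k, ContDiffOn ℝ ∞ (fun y => (G₁ y 0 k - G₂ y 0 k) • B₁ k y) D :=
    fun k => (sG 0 k).smul (c₁.smB k)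
  have p2 : ∀ k, ContDiffOn ℝ ∞ (fun y => G₂ y 0 k • (B₁ k y - B₂ k y)) D :=
    fun k => (c₂.smG 0 k).smul (sdB k)
  have e : EqOn (fun y => (∑ k, G₁ y 0 k • B₁ k y) - ∑ k, G₂ y 0 k • B₂ k y)
      (fun y => ∑ k, ((G₁ y 0 k - G₂ y 0 k) • B₁ k y + G₂ y 0 k • (B₁ k y - B₂ k y))) D := by
    intro y _
    simp only
    rw [← Finset.sum_sub_distrib]
    exact Finset.sum_congr rfl fun k _ => dst_sub_smul _ _ _ _
  have hrow : ∀ x ∈ D, x 0 = 0 → ∑ l, G₂ x 0 l •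
      (pd (0 : Fin n))^[m] (fun y => B₁ l y - B₂ l y) x = 0 := by
    intro x hx hx0
    have h := hF m (Nat.lt_succ_self m) x hx hx0
    rw [dv_iter_congr hD e m hx, dv_iter_sum hD _ (fun k _ => (p1 k).add (p2 k)) m hx] at h
    rw [← h]
    refine Finset.sum_congr rfl fun k _ => ?_
    rw [dv_iter_add hD (p1 k) (p2 k) m hx]
    have h1 : (pd (0 : Fin n))^[m] (fun y => (G₁ y 0 k - G₂ y 0 k) • B₁ k y) x = 0 := by
      have := Van.bil hD (dc_bil_smul (F := EndF N)) (sG 0 k) (c₁.smB k) (hG 0 k) (van_zero _)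
      exact this m (by omega) x hx hx0
    have h2 := dv_top_right hD (dc_bil_smul (F := EndF N)) (c₂.smG 0 k) (sdB k) (hB k) hx hx0
    rw [h1, zero_add]
    exact h2.symm
  obtain ⟨h1, h2⟩ := dst_core hD c₁ c₂ hB (st_h_van hD c₁ c₂ hB) hrow
  exact ⟨h1, h2, hrow⟩

variable {c₁ c₂ : Fin n → E n → Fib N} {j0 : Fin N}

/-- the solutions agree to one order more -/
theorem st_coord (hD : RelOpen D) (g₁ : GOk D G₁) (g₂ : GOk D G₂)
    (hB₁ : ∀ j, ContDiffOn ℝ ∞ (B₁ j) D) (hB₂ : ∀ j, ContDiffOn ℝ ∞ (B₂ j) D)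
    (s₁ : SolD D G₁ B₁ c₁ j0) (s₂ : SolD D G₂ B₂ c₂ j0) {m : ℕ}
    (hG : ∀ j l, Van D (m + 2) (fun x => G₁ x j l - G₂ x j l))
    (hB : ∀ j, Van D (m + 1) (fun x => B₁ j x - B₂ j x))
    (hc : ∀ a, Van D (m + 2) (fun x => c₁ a x - c₂ a x)) (a : Fin n) :
    Van D (m + 3) (fun x => c₁ a x - c₂ a x) := by
  classical
  have sdc : ContDiffOn ℝ ∞ (fun x => c₁ a x - c₂ a x) D := (s₁.sm a).sub (s₂.sm a)
  have smd : ∀ j l, ContDiffOn ℝ ∞ (fun x => G₁ x j l - G₂ x j l) D := fun j l =>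
    (g₁.smG j l).sub (g₂.smG j l)
  have hG1 : ∀ j l, Van D (m + 1) (fun x => G₁ x j l - G₂ x j l) := fun j l =>
    (hG j l).mono (by omega)
  have hT := dco_T_van hD g₁ g₂ hB₁ hB₂ (s₁.sm a) (s₂.sm a) hG1 hB (hc a)
  have sT := (dco_smooth_T hD g₁ hB₁ (s₁.sm a)).sub (dco_smooth_T hD g₂ hB₂ (s₂.sm a))
  have hU := fun j => dco_U_van hD g₁ g₂ (s₁.sm a) (s₂.sm a) hG1 (hc a) j
  have sU := fun j => (dco_smooth_U hD g₁ (s₁.sm a) j).sub (dco_smooth_U hD g₂ (s₂.sm a) j)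
  have sR : ContDiffOn ℝ ∞ (fun x => ∑ j ∈ Finset.univ.erase (0 : Fin n),
      pd j (fun y => dcoU G₁ (c₁ a) j y - dcoU G₂ (c₂ a) j y) x) D :=
    dc_smooth_sum _ fun j _ => hD.pd_smooth (sU j) j
  have vR : Van D (m + 1) (fun x => ∑ j ∈ Finset.univ.erase (0 : Fin n),
      pd j (fun y => dcoU G₁ (c₁ a) j y - dcoU G₂ (c₂ a) j y) x) :=
    Van.sum hD _ (fun j _ => hD.pd_smooth (sU j) j) fun j hj =>
      Van.pd_tan hD (sU j) (hU j) (Finset.ne_of_mem_erase hj)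
  have s2T := dc_smooth_clm ((2 : ℝ) • ContinuousLinearMap.id ℝ (Fib N)) sT
  have v2T := Van.clm hD ((2 : ℝ) • ContinuousLinearMap.id ℝ (Fib N)) sT hT
  -- the normal component of the flux
  have hU0 : Van D (m + 2) (fun y => dcoU G₁ (c₁ a) 0 y - dcoU G₂ (c₂ a) 0 y) := by
    refine van_succ.2 ⟨fun x hx hx0 => (hU 0) 0 (Nat.succ_pos m) x hx hx0, ?_⟩
    refine (Van.clm hD (-ContinuousLinearMap.id ℝ (Fib N)) (sR.add s2T)
      (Van.add hD sR s2T vR v2T)).congr hD fun x hx => ?_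
    have e1 := s₁.eq a x hx
    have e2 := s₂.eq a x hx
    rw [dco_lop_eq] at e1 e2
    have e3 : ∑ j, pd j (fun y => dcoU G₁ (c₁ a) j y - dcoU G₂ (c₂ a) j y) x =
        ∑ j, pd j (dcoU G₁ (c₁ a) j) x - ∑ j, pd j (dcoU G₂ (c₂ a) j) x := by
      rw [← Finset.sum_sub_distrib]
      exact Finset.sum_congr rfl fun j _ =>
        hD.pd_sub (dco_smooth_U hD g₁ (s₁.sm a) j) (dco_smooth_U hD g₂ (s₂.sm a) j) hx j
    rw [← Finset.add_sum_erase _ _ (Finset.mem_univ (0 : Fin n)),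
      eq_neg_of_add_eq_zero_left e1, eq_neg_of_add_eq_zero_left e2] at e3
    have hn : ∀ v : Fib N, (-ContinuousLinearMap.id ℝ (Fib N)) v = -v := fun v => rfl
    have h2 : ∀ v : Fib N, ((2 : ℝ) • ContinuousLinearMap.id ℝ (Fib N)) v = (2 : ℝ) • v :=
      fun v => rfl
    refine (hn _).trans ?_
    rw [h2, eq_sub_of_add_eq e3, smul_sub]
    abel
  -- expansion of the flux
  have v1 : ∀ k, Van D (m + 2) (fun y => (G₁ y 0 k - G₂ y 0 k) • pd k (c₁ a) y) := fun k => by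
    have := Van.bil hD (dc_bil_smul (F := Fib N)) (smd 0 k) (hD.pd_smooth (s₁.sm a) k) (hG 0 k)
      (van_zero _)
    exact this
  have t1 : ∀ k, ContDiffOn ℝ ∞ (fun y => (G₁ y 0 k - G₂ y 0 k) • pd k (c₁ a) y) D := fun k =>
    dc_smooth_bil dc_bil_smul (smd 0 k) (hD.pd_smooth (s₁.sm a) k)
  have t2 : ∀ k, ContDiffOn ℝ ∞ (fun y => G₂ y 0 k • pd k (fun x => c₁ a x - c₂ a x) y) D :=
    fun k => dc_smooth_bil dc_bil_smul (g₂.smG 0 k) (hD.pd_smooth sdc k)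
  have v2 : ∀ k ∈ Finset.univ.erase (0 : Fin n),
      Van D (m + 2) (fun y => G₂ y 0 k • pd k (fun x => c₁ a x - c₂ a x) y) := fun k hk => by
    have := Van.bil hD (dc_bil_smul (F := Fib N)) (g₂.smG 0 k) (hD.pd_smooth sdc k) (van_zero _)
      (Van.pd_tan hD sdc (hc a) (Finset.ne_of_mem_erase hk))
    rwa [zero_add] at this
  have sS1 : ContDiffOn ℝ ∞ (fun y => ∑ k, (G₁ y 0 k - G₂ y 0 k) • pd k (c₁ a) y) D :=
    dc_smooth_sum _ fun k _ => t1 k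
  have vS1 : Van D (m + 2) (fun y => ∑ k, (G₁ y 0 k - G₂ y 0 k) • pd k (c₁ a) y) :=
    Van.sum hD _ (fun k _ => t1 k) fun k _ => v1 k
  have sS2 : ContDiffOn ℝ ∞ (fun y => ∑ k ∈ Finset.univ.erase (0 : Fin n),
      G₂ y 0 k • pd k (fun x => c₁ a x - c₂ a x) y) D := dc_smooth_sum _ fun k _ => t2 k
  have vS2 : Van D (m + 2) (fun y => ∑ k ∈ Finset.univ.erase (0 : Fin n),
      G₂ y 0 k • pd k (fun x => c₁ a x - c₂ a x) y) :=
    Van.sum hD _ (fun k _ => t2 k) fun k hk => v2 k hk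
  have v3 : Van D (m + 2) (fun y => G₂ y 0 0 • pd 0 (fun x => c₁ a x - c₂ a x) y) := by
    refine (Van.sub hD (sU 0) (sS1.add sS2) hU0 (Van.add hD sS1 sS2 vS1 vS2)).congr hD
      fun y hy => ?_
    have e : dcoU G₁ (c₁ a) 0 y - dcoU G₂ (c₂ a) 0 y =
        (∑ k, (G₁ y 0 k - G₂ y 0 k) • pd k (c₁ a) y) +
          ∑ k, G₂ y 0 k • pd k (fun x => c₁ a x - c₂ a x) y := by
      unfold dcoU
      rw [← Finset.sum_sub_distrib, ← Finset.sum_add_distrib]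
      refine Finset.sum_congr rfl fun k _ => ?_
      rw [hD.pd_sub (s₁.sm a) (s₂.sm a) hy k, sub_smul, smul_sub]
      abel
    show dcoU G₁ (c₁ a) 0 y - dcoU G₂ (c₂ a) 0 y - (_ + _) = _
    rw [e, ← Finset.add_sum_erase _ (fun k => G₂ y 0 k • pd k (fun x => c₁ a x - c₂ a x) y)
      (Finset.mem_univ (0 : Fin n))]
    abel
  have hinv : ContDiffOn ℝ ∞ (fun y => (G₂ y 0 0)⁻¹) D :=
    (g₂.smG 0 0).inv fun x hx => (g₂.pos x hx).diag_pos.ne'
  have v4 := Van.bil hD (dc_bil_smul (F := Fib N)) hinv (t2 0) (van_zero _) v3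
  rw [zero_add] at v4
  refine van_succ.2 ⟨fun x hx hx0 => (hc a) 0 (by omega) x hx hx0, v4.congr hD fun y hy => ?_⟩
  show (G₂ y 0 0)⁻¹ • G₂ y 0 0 • pd 0 (fun x => c₁ a x - c₂ a x) y = _
  rw [smul_smul, inv_mul_cancel₀ (g₂.pos y hy).diag_pos.ne', one_smul]

end Vale.Agent.P088.EYM.H

end
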