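import Vale.Agent.P088.H4.A1

/-!
# P088, higher order: boundary determination of all orders, part 2: phases and amplitudes
-/

open MeasureTheory Set Filter Topology
open scoped ContDiff

noncomputable section

namespace Vale.Agent.P088.EYM.H

open Vale.Agent.P088.EYM

set_option linter.all false

variable {n : ℕ} [NeZero n] {N : ℕ}
variable {F : Type*} [NormedAddCommGroup F] [NormedSpace ℝ F]
variable {D : Set (E n)}

theorem iter_supp {f : E n → F} {K : Set (E n)} (hK : IsClosed K)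
    (h : ∀ x ∈ Hs n, x ∉ K → f x = 0) (k : ℕ) :
    ∀ x ∈ Hs n, x ∉ K → (pd (0 : Fin n))^[k] f x = 0 := by
  induction k with
  | zero => simpa only [Function.iterate_zero, id_eq] using h
  | succ k ih =>
    rw [Function.iterate_succ']
    exact dc_pd_supp hK ih 0

/-- derivatives of `x_0^{k+1} f` -/
theorem xk_deriv (hD : RelOpen D) (k : ℕ) {f : E n → F} (hf : ContDiffOn ℝ ∞ f D) (j : Fin n) :
    ContDiffOn ℝ ∞ (pd j (fun x : E n => (x 0) ^ (k + 1) • f x)) D ∧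
    Van D k (pd j (fun x : E n => (x 0) ^ (k + 1) • f x)) ∧
      ∀ x ∈ D, x 0 = 0 → (pd (0 : Fin n))^[k] (pd j (fun x : E n => (x 0) ^ (k + 1) • f x)) x =
        if j = 0 then ((k + 1).factorial : ℝ) • f x else 0 := by
  obtain ⟨h1, h2, h3⟩ := xk_smul hD (k + 1) hf
  refine ⟨hD.pd_smooth h1 j, Van.pd_any hD h1 h2 j, fun x hx hx0 => ?_⟩
  by_cases hj : j = 0
  · subst hj
    rw [if_pos rfl, ← h3 x hx hx0, Function.iterate_succ_apply]
  · rw [if_neg hj]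
    exact Van.pd_tan hD h1 h2 hj k (Nat.lt_succ_self k) x hx hx0

/-! ### phases -/

theorem ph_step (hD : RelOpen D) {G : E n → Matrix (Fin n) (Fin n) ℝ} (hG : GOk D G)
    {ξ : Fin n → ℝ} (hξ0 : ξ 0 = 0) (hξ : ξ ≠ 0) {k : ℕ} {ψ : E n → ℂ} (hψ : IsPhase D G ξ ψ)
    (he : Van D (k + 2) (eik G ψ)) :
    ∃ ψ', IsPhase D G ξ ψ' ∧ Van D (k + 3) (eik G ψ') := by
  have hG0 : ∀ x ∈ D, 0 < G x 0 0 := fun x hx => (hG.pos x hx).diag_pos
  have hρ : ∀ x ∈ D, 0 < rho (G x) ξ := fun x hx => dp_rho_pos (hG.pos x hx) hξ0 hξ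
  have hpos : ∀ x ∈ D, 2 * (G x 0 0 * rho (G x) ξ) ≠ 0 := fun x hx =>
    (mul_pos two_pos (mul_pos (hG0 x hx) (hρ x hx))).ne'
  have hden : ContDiffOn ℝ ∞ (fun x => 2 * (G x 0 0 * rho (G x) ξ)) D :=
    contDiffOn_const.mul ((hG.smG 0 0).mul (dp_smooth_rho hD hG hξ0 hξ))
  have hcf : ContDiffOn ℝ ∞ (fun x => (2 * (G x 0 0 * rho (G x) ξ))⁻¹) D := hden.inv hpos
  have sE := dr_smooth_eik hD hG hψ.sm
  have sEi := dv_smooth_iter hD sE (k + 2)
  set c : ℝ := (((k + 3).factorial : ℕ) : ℝ) with hc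
  have hc0 : c ≠ 0 := by
    rw [hc]
    exact_mod_cast (Nat.factorial_ne_zero _)
  set φ : E n → ℂ := fun x => (c⁻¹ * (2 * (G x 0 0 * rho (G x) ξ))⁻¹) •
    (pd (0 : Fin n))^[k + 2] (eik G ψ) x with hφ
  have sφ : ContDiffOn ℝ ∞ φ D :=
    dc_smooth_bil dc_bil_smul (contDiffOn_const.mul hcf) sEi
  obtain ⟨sη, vη, -⟩ := xk_smul hD (k + 3) sφ
  set η : E n → ℂ := fun x => (x 0) ^ (k + 3) • φ x with hη
  have dη : ∀ j, ContDiffOn ℝ ∞ (pd j η) D ∧ Van D (k + 2) (pd j η) ∧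
      ∀ x ∈ D, x 0 = 0 → (pd (0 : Fin n))^[k + 2] (pd j η) x =
        if j = 0 then (((k + 2) + 1).factorial : ℝ) • φ x else 0 := fun j =>
    xk_deriv hD (k + 2) sφ j
  have pψ : ∀ j, ContDiffOn ℝ ∞ (pd j ψ) D := fun j => hD.pd_smooth hψ.sm j
  have hpd : ∀ x ∈ D, ∀ j, pd j (fun y => ψ y + η y) x = pd j ψ x + pd j η x := fun x hx j =>
    hD.pd_add hψ.sm sη hx j
  have sGC : ∀ j l, ContDiffOn ℝ ∞ (fun x => (G x j l : ℂ)) D := fun j l =>
    dk_smooth_C (hG.smG j l)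
  -- the linear term
  have sL : ∀ j l, ContDiffOn ℝ ∞ (fun x => ((G x j l : ℂ) * pd j ψ x) * pd l η x) D :=
    fun j l => ((sGC j l).mul (pψ j)).mul (dη l).1
  have vL : ∀ j l, Van D (k + 2) (fun x => ((G x j l : ℂ) * pd j ψ x) * pd l η x) := fun j l => by
    have := Van.bil hD dc_bil_mulC ((sGC j l).mul (pψ j)) (dη l).1 (van_zero _) (dη l).2.1
    rwa [zero_add] at this
  have tL : ∀ j l, ∀ x ∈ D, x 0 = 0 →
      (pd (0 : Fin n))^[k + 2] (fun x => ((G x j l : ℂ) * pd j ψ x) * pd l η x) x =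
        ((G x j l : ℂ) * pd j ψ x) * (if l = 0 then (((k + 2) + 1).factorial : ℝ) • φ x else 0) := by
    intro j l x hx hx0
    have := dv_top_right hD dc_bil_mulC ((sGC j l).mul (pψ j)) (dη l).1 (dη l).2.1 hx hx0
    rw [(dη l).2.2 x hx hx0] at this
    exact this
  set Lf : E n → ℂ := fun x => ∑ j, ∑ l, ((G x j l : ℂ) * pd j ψ x) * pd l η x with hLf
  have sLf : ContDiffOn ℝ ∞ Lf D := ContDiffOn.sum fun j _ => ContDiffOn.sum fun l _ => sL j l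
  have vLf : Van D (k + 2) Lf :=
    Van.sum hD _ (fun j _ => ContDiffOn.sum fun l _ => sL j l) fun j _ =>
      Van.sum hD _ (fun l _ => sL j l) fun l _ => vL j l
  have tLf : ∀ x ∈ D, x 0 = 0 → (pd (0 : Fin n))^[k + 2] Lf x =
      -((G x 0 0 * rho (G x) ξ : ℝ) : ℂ) * ((c : ℂ) * φ x) := by
    intro x hx hx0
    have e1 := dv_iter_sum hD Finset.univ (f := fun j x => ∑ l, ((G x j l : ℂ) * pd j ψ x) *
      pd l η x) (fun j _ => ContDiffOn.sum fun l _ => sL j l) (k + 2) hx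
    have e2 : ∀ j, (pd (0 : Fin n))^[k + 2] (fun x => ∑ l, ((G x j l : ℂ) * pd j ψ x) *
        pd l η x) x = ((G x j 0 : ℂ) * pd j ψ x) * ((c : ℂ) * φ x) := by
      intro j
      rw [dv_iter_sum hD Finset.univ (fun l _ => sL j l) (k + 2) hx,
        Finset.sum_congr rfl fun l _ => tL j l x hx hx0]
      simp only [mul_ite, mul_zero]
      rw [Finset.sum_ite_eq' Finset.univ (0 : Fin n), if_pos (Finset.mem_univ _),
        Complex.real_smul]
    rw [hLf, e1, Finset.sum_congr rfl fun j _ => e2 j, ← Finset.sum_mul]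
    congr 1
    rw [← dp_zz_row (hG.pos x hx) hξ0]
    refine Finset.sum_congr rfl fun j _ => ?_
    rw [hψ.grad x hx hx0 j, hG.symm x hx j 0]
  -- the quadratic term
  have sQ : ∀ j l, ContDiffOn ℝ ∞ (fun x => ((G x j l : ℂ) * pd j η x) * pd l η x) D :=
    fun j l => ((sGC j l).mul (dη j).1).mul (dη l).1
  have vQ : ∀ j l, Van D (k + 3) (fun x => ((G x j l : ℂ) * pd j η x) * pd l η x) := fun j l => by
    have v1 := Van.bil hD dc_bil_mulC (sGC j l) (dη j).1 (van_zero _) (dη j).2.1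
    have v2 := Van.bil hD dc_bil_mulC ((sGC j l).mul (dη j).1) (dη l).1 v1 (dη l).2.1
    exact v2.mono (by omega)
  set Qf : E n → ℂ := fun x => ∑ j, ∑ l, ((G x j l : ℂ) * pd j η x) * pd l η x with hQf
  have sQf : ContDiffOn ℝ ∞ Qf D := ContDiffOn.sum fun j _ => ContDiffOn.sum fun l _ => sQ j l
  have vQf : Van D (k + 3) Qf :=
    Van.sum hD _ (fun j _ => ContDiffOn.sum fun l _ => sQ j l) fun j _ =>
      Van.sum hD _ (fun l _ => sQ j l) fun l _ => vQ j l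
  have s2L : ContDiffOn ℝ ∞ (fun x => (2 : ℂ) * Lf x) D := contDiffOn_const.mul sLf
  have v2L : Van D (k + 2) (fun x => (2 : ℂ) * Lf x) := by
    have := Van.bil hD dc_bil_mulC (contDiffOn_const (c := (2 : ℂ))) sLf (van_zero _) vLf
    rwa [zero_add] at this
  have t2L : ∀ x ∈ D, x 0 = 0 → (pd (0 : Fin n))^[k + 2] (fun x => (2 : ℂ) * Lf x) x =
      (2 : ℂ) * (-((G x 0 0 * rho (G x) ξ : ℝ) : ℂ) * ((c : ℂ) * φ x)) := by
    intro x hx hx0
    have := dv_top_right hD dc_bil_mulC (contDiffOn_const (c := (2 : ℂ))) sLf vLf hx hx0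
    rw [tLf x hx hx0] at this
    exact this
  have v0 : Van D (k + 3) (fun x => eik G ψ x + (2 : ℂ) * Lf x) := by
    refine van_snoc (Van.add hD sE s2L he v2L) fun x hx hx0 => ?_
    rw [dv_iter_add hD sE s2L (k + 2) hx, t2L x hx hx0]
    simp only [hφ, Complex.real_smul]
    have h1 : ((2 * (G x 0 0 * rho (G x) ξ) : ℝ) : ℂ) ≠ 0 := by exact_mod_cast hpos x hx
    have h2 : (c : ℂ) ≠ 0 := by exact_mod_cast hc0
    have h3 : (G x 0 0 : ℂ) ≠ 0 := by exact_mod_cast (hG0 x hx).ne'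
    have h4 : (rho (G x) ξ : ℂ) ≠ 0 := by exact_mod_cast (hρ x hx).ne'
    push_cast
    field_simp
    ring
  have vE : Van D (k + 3) (eik G (fun y => ψ y + η y)) := by
    refine (Van.add hD (sE.add s2L) sQf v0 vQf).congr hD fun x hx => ?_
    have hsw : Lf x = ∑ j, ∑ l, ((G x j l : ℂ) * pd j η x) * pd l ψ x := by
      rw [hLf]
      show ∑ j, ∑ l, _ = _
      rw [Finset.sum_comm]
      refine Finset.sum_congr rfl fun j _ => Finset.sum_congr rfl fun l _ => ?_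
      rw [hG.symm x hx l j]
      ring
    have e : (2 : ℂ) * Lf x = Lf x + ∑ j, ∑ l, ((G x j l : ℂ) * pd j η x) * pd l ψ x := by
      rw [← hsw]; ring
    show eik G ψ x + (2 : ℂ) * Lf x + Qf x = _
    rw [e]
    simp only [eik, hLf, hQf, hpd x hx, ← Finset.sum_add_distrib]
    refine Finset.sum_congr rfl fun j _ => Finset.sum_congr rfl fun l _ => ?_
    ring
  have hη0 : ∀ x ∈ D, x 0 = 0 → η x = 0 := fun x hx hx0 => vη 0 (by omega) x hx hx0
  have hdη0 : ∀ x ∈ D, x 0 = 0 → ∀ j, pd j η x = 0 := fun x hx hx0 j =>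
    (dη j).2.1 0 (by omega) x hx hx0
  refine ⟨fun y => ψ y + η y, ⟨hψ.sm.add sη, fun x hx hx0 => ?_, fun x hx hx0 j => ?_,
    vE.mono (by omega)⟩, vE⟩
  · rw [hη0 x hx hx0, add_zero]
    exact hψ.re0 x hx hx0
  · rw [hpd x hx j, hdη0 x hx hx0 j, add_zero]
    exact hψ.grad x hx hx0 j

theorem ph_exists (hD : RelOpen D) {G : E n → Matrix (Fin n) (Fin n) ℝ} (hG : GOk D G)
    {ξ : Fin n → ℝ} (hξ0 : ξ 0 = 0) (hξ : ξ ≠ 0) (k : ℕ) :
    ∃ ψ, IsPhase D G ξ ψ ∧ Van D k (eik G ψ) := by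
  have key : ∃ ψ, IsPhase D G ξ ψ ∧ Van D (k + 2) (eik G ψ) := by
    induction k with
    | zero =>
      obtain ⟨ψ, hψ⟩ := dp_exists_phase hD hG hξ0 hξ
      exact ⟨ψ, hψ, hψ.eik2⟩
    | succ k ih =>
      obtain ⟨ψ, hψ, he⟩ := ih
      exact ph_step hD hG hξ0 hξ hψ he
  obtain ⟨ψ, hψ, he⟩ := key
  exact ⟨ψ, hψ, he.mono (by omega)⟩

/-! ### amplitudes -/

theorem am_step (hD : RelOpen D) {G : E n → Matrix (Fin n) (Fin n) ℝ} (hG : GOk D G)
    {B : Fin n → E n → EndF N} (hB : ∀ j, ContDiffOn ℝ ∞ (B j) D)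
    {ξ : Fin n → ℝ} (hξ0 : ξ 0 = 0) (hξ : ξ ≠ 0) {ψ : E n → ℂ} (hψ : IsPhase D G ξ ψ)
    {K : Set (E n)} (hK : IsClosed K) {R : E n → Fib N} (hR : ContDiffOn ℝ ∞ R D)
    (hRs : ∀ x ∈ Hs n, x ∉ K → R x = 0) {k : ℕ} {a : E n → Fib N} (ha : ContDiffOn ℝ ∞ a D)
    (has : ∀ x ∈ Hs n, x ∉ K → a x = 0) (hv : Van D k (fun x => Mop G B ψ a x + R x)) :
    ∃ a' : E n → Fib N, ContDiffOn ℝ ∞ a' D ∧ (∀ x ∈ Hs n, x ∉ K → a' x = 0) ∧
      (∀ x ∈ D, x 0 = 0 → a' x = a x) ∧ Van D (k + 1) (fun x => Mop G B ψ a' x + R x) := by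
  have hG0 : ∀ x ∈ D, 0 < G x 0 0 := fun x hx => (hG.pos x hx).diag_pos
  have hρ : ∀ x ∈ D, 0 < rho (G x) ξ := fun x hx => dp_rho_pos (hG.pos x hx) hξ0 hξ
  have hpos : ∀ x ∈ D, 2 * (G x 0 0 * rho (G x) ξ) ≠ 0 := fun x hx =>
    (mul_pos two_pos (mul_pos (hG0 x hx) (hρ x hx))).ne'
  have hden : ContDiffOn ℝ ∞ (fun x => 2 * (G x 0 0 * rho (G x) ξ)) D :=
    contDiffOn_const.mul ((hG.smG 0 0).mul (dp_smooth_rho hD hG hξ0 hξ))
  have hcf : ContDiffOn ℝ ∞ (fun x => (2 * (G x 0 0 * rho (G x) ξ))⁻¹) D := hden.inv hpos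
  have sM := da_smooth_Mop hD hG hB hψ.sm ha
  have sF : ContDiffOn ℝ ∞ (fun x => Mop G B ψ a x + R x) D := sM.add hR
  have sFi := dv_smooth_iter hD sF k
  set c : ℝ := (((k + 1).factorial : ℕ) : ℝ) with hc
  have hc0 : c ≠ 0 := by
    rw [hc]
    exact_mod_cast (Nat.factorial_ne_zero _)
  set b : E n → Fib N := fun x => (c⁻¹ * (2 * (G x 0 0 * rho (G x) ξ))⁻¹) •
    (pd (0 : Fin n))^[k] (fun x => Mop G B ψ a x + R x) x with hb
  have sb : ContDiffOn ℝ ∞ b D := dc_smooth_bil dc_bil_smul (contDiffOn_const.mul hcf) sFi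
  have bs : ∀ x ∈ Hs n, x ∉ K → b x = 0 := by
    intro x hx hxK
    have h1 := iter_supp hK (f := fun x => Mop G B ψ a x + R x) (fun y hy hyK => by
      rw [da_supp_Mop hK has y hy hyK, hRs y hy hyK, add_zero]) k x hx hxK
    rw [hb]
    show _ • _ = _
    rw [h1, smul_zero]
  obtain ⟨sη, vη, -⟩ := xk_smul hD (k + 1) sb
  set η : E n → Fib N := fun x => (x 0) ^ (k + 1) • b x with hη
  have dη : ∀ j, ContDiffOn ℝ ∞ (pd j η) D ∧ Van D k (pd j η) ∧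
      ∀ x ∈ D, x 0 = 0 → (pd (0 : Fin n))^[k] (pd j η) x =
        if j = 0 then ((k + 1).factorial : ℝ) • b x else 0 := fun j => xk_deriv hD k sb j
  have sGp : ∀ j l, ContDiffOn ℝ ∞ (fun x => (G x j l : ℂ) * pd l ψ x) D := fun j l =>
    da_smooth_coef hD hG hψ.sm j l
  -- the three terms of `M η`
  have sdiv : ContDiffOn ℝ ∞ (fun x => ∑ j, pd j (fun y => ∑ l, (G y j l : ℂ) * pd l ψ y) x) D :=
    dc_smooth_sum _ fun j _ => hD.pd_smooth (dc_smooth_sum _ fun l _ => sGp j l) j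
  have s1 : ContDiffOn ℝ ∞ (fun x => (∑ j, pd j (fun y => ∑ l, (G y j l : ℂ) * pd l ψ y) x) •
      η x) D := dc_smooth_bil dc_bil_smulC sdiv sη
  have v1 : Van D (k + 1) (fun x => (∑ j, pd j (fun y => ∑ l, (G y j l : ℂ) * pd l ψ y) x) •
      η x) := by
    have := Van.bil hD dc_bil_smulC sdiv sη (van_zero _) vη
    rwa [zero_add] at this
  have s2 : ∀ j l, ContDiffOn ℝ ∞ (fun x => ((G x j l : ℂ) * pd l ψ x) • pd j η x) D :=
    fun j l => dc_smooth_bil dc_bil_smulC (sGp j l) (dη j).1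
  have v2 : ∀ j l, Van D k (fun x => ((G x j l : ℂ) * pd l ψ x) • pd j η x) := fun j l => by
    have := Van.bil hD dc_bil_smulC (sGp j l) (dη j).1 (van_zero _) (dη j).2.1
    rwa [zero_add] at this
  have t2 : ∀ j l, ∀ x ∈ D, x 0 = 0 →
      (pd (0 : Fin n))^[k] (fun x => ((G x j l : ℂ) * pd l ψ x) • pd j η x) x =
        if j = 0 then ((G x j l : ℂ) * pd l ψ x) • (c • b x) else 0 := by
    intro j l x hx hx0
    have := dv_top_right hD dc_bil_smulC (sGp j l) (dη j).1 (dη j).2.1 hx hx0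
    rw [(dη j).2.2 x hx hx0] at this
    refine this.trans ?_
    split_ifs with h
    · rfl
    · exact smul_zero _
  set T : E n → Fib N := fun x => ∑ j, ∑ l, ((G x j l : ℂ) * pd l ψ x) • pd j η x with hT
  have sT : ContDiffOn ℝ ∞ T D := dc_smooth_sum _ fun j _ => dc_smooth_sum _ fun l _ => s2 j l
  have vT : Van D k T := Van.sum hD _ (fun j _ => dc_smooth_sum _ fun l _ => s2 j l) fun j _ =>
    Van.sum hD _ (fun l _ => s2 j l) fun l _ => v2 j l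
  have tT : ∀ x ∈ D, x 0 = 0 → (pd (0 : Fin n))^[k] T x =
      ((-(G x 0 0 * rho (G x) ξ) : ℝ) : ℂ) • (c • b x) := by
    intro x hx hx0
    have e1 := dv_iter_sum hD Finset.univ (f := fun j x => ∑ l, ((G x j l : ℂ) * pd l ψ x) •
      pd j η x) (fun j _ => dc_smooth_sum _ fun l _ => s2 j l) k hx
    have e2 : ∀ j, (pd (0 : Fin n))^[k] (fun x => ∑ l, ((G x j l : ℂ) * pd l ψ x) •
        pd j η x) x = if j = 0 then (∑ l, (G x 0 l : ℂ) * pd l ψ x) • (c • b x) else 0 := by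
      intro j
      rw [dv_iter_sum hD Finset.univ (fun l _ => s2 j l) k hx,
        Finset.sum_congr rfl fun l _ => t2 j l x hx hx0]
      split_ifs with h
      · rw [h, Finset.sum_smul]
      · exact Finset.sum_const_zero
    rw [hT, e1, Finset.sum_congr rfl fun j _ => e2 j, Finset.sum_ite_eq' Finset.univ (0 : Fin n),
      if_pos (Finset.mem_univ _)]
    congr 1
    rw [Complex.ofReal_neg, ← dp_zz_row (hG.pos x hx) hξ0]
    exact Finset.sum_congr rfl fun l _ => by rw [hψ.grad x hx hx0 l]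
  have s2T : ContDiffOn ℝ ∞ (fun x => (2 : ℂ) • T x) D :=
    dc_smooth_bil dc_bil_smulC contDiffOn_const sT
  have v2T : Van D k (fun x => (2 : ℂ) • T x) := by
    have := Van.bil hD dc_bil_smulC (contDiffOn_const (c := (2 : ℂ))) sT (van_zero _) vT
    rwa [zero_add] at this
  have t2T : ∀ x ∈ D, x 0 = 0 → (pd (0 : Fin n))^[k] (fun x => (2 : ℂ) • T x) x =
      (2 : ℂ) • (((-(G x 0 0 * rho (G x) ξ) : ℝ) : ℂ) • (c • b x)) := by
    intro x hx hx0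
    have := dv_top_right hD dc_bil_smulC (contDiffOn_const (c := (2 : ℂ))) sT vT hx hx0
    rw [tT x hx hx0] at this
    exact this
  have s3' : ∀ j l, ContDiffOn ℝ ∞ (fun x => ((G x j l : ℂ) * pd l ψ x) • B j x (η x)) D :=
    fun j l => dc_smooth_bil dc_bil_smulC (sGp j l) (dc_smooth_bil dc_bil_app (hB j) sη)
  have v3' : ∀ j l, Van D (k + 1) (fun x => ((G x j l : ℂ) * pd l ψ x) • B j x (η x)) :=
    fun j l => by
    have w1 := Van.bil hD dc_bil_app (hB j) sη (van_zero _) vη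
    have w2 := Van.bil hD dc_bil_smulC (sGp j l) (dc_smooth_bil dc_bil_app (hB j) sη) (van_zero _) w1
    rw [zero_add, zero_add] at w2
    exact w2
  have s3 : ContDiffOn ℝ ∞ (fun x => (2 : ℂ) • ∑ j, ∑ l, ((G x j l : ℂ) * pd l ψ x) •
      B j x (η x)) D := dc_smooth_bil dc_bil_smulC (contDiffOn_const (c := (2 : ℂ)))
    (dc_smooth_sum Finset.univ fun j _ => dc_smooth_sum Finset.univ fun l _ => s3' j l)
  have v3 : Van D (k + 1) (fun x => (2 : ℂ) • ∑ j, ∑ l, ((G x j l : ℂ) * pd l ψ x) •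
      B j x (η x)) := by
    have := Van.bil hD dc_bil_smulC (contDiffOn_const (c := (2 : ℂ)))
      (dc_smooth_sum Finset.univ fun j _ => dc_smooth_sum Finset.univ fun l _ => s3' j l)
      (van_zero _) (Van.sum hD _ (fun j _ => dc_smooth_sum _ fun l _ => s3' j l) fun j _ =>
        Van.sum hD _ (fun l _ => s3' j l) fun l _ => v3' j l)
    rwa [zero_add] at this
  have v0 : Van D (k + 1) (fun x => (Mop G B ψ a x + R x) + (2 : ℂ) • T x) := by
    refine van_snoc (Van.add hD sF s2T hv v2T) fun x hx hx0 => ?_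
    rw [dv_iter_add hD sF s2T k hx, t2T x hx hx0, smul_smul, Complex.ofReal_neg, mul_neg, neg_smul,
      ← sub_eq_add_neg, sub_eq_zero]
    have e1 : c • b x = (2 * (G x 0 0 * rho (G x) ξ))⁻¹ •
        (pd (0 : Fin n))^[k] (fun x => Mop G B ψ a x + R x) x := by
      rw [hb]
      show c • ((c⁻¹ * _) • _) = _
      rw [smul_smul, ← mul_assoc, mul_inv_cancel₀ hc0, one_mul]
    have e2 : (2 : ℂ) * ((G x 0 0 * rho (G x) ξ : ℝ) : ℂ) =
        ((2 * (G x 0 0 * rho (G x) ξ) : ℝ) : ℂ) := by push_cast; ring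
    rw [e1, e2, Complex.coe_smul, smul_smul, mul_inv_cancel₀ (hpos x hx), one_smul]
  have hη0 : ∀ x ∈ D, x 0 = 0 → η x = 0 := fun x hx hx0 => vη 0 (by omega) x hx hx0
  refine ⟨fun x => a x + η x, ha.add sη, fun x hx hxK => ?_, fun x hx hx0 => ?_, ?_⟩
  · show a x + η x = 0
    rw [has x hx hxK, hη]
    show 0 + (x 0) ^ (k + 1) • b x = 0
    rw [bs x hx hxK, smul_zero, add_zero]
  · show a x + η x = a x
    rw [hη0 x hx hx0, add_zero]
  · refine (Van.add hD (sF.add s2T) (s1.add s3) v0 (Van.add hD s1 s3 v1 v3)).congr hD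
      fun x hx => ?_
    have hpd : ∀ j, pd j (fun y => a y + η y) x = pd j a x + pd j η x := fun j =>
      hD.pd_add ha sη hx j
    show (Mop G B ψ a x + R x + (2 : ℂ) • T x) + (_ + _) = _
    simp only [Mop, hT, hpd, map_add, smul_add, Finset.sum_add_distrib]
    abel

theorem am_exists (hD : RelOpen D) {G : E n → Matrix (Fin n) (Fin n) ℝ} (hG : GOk D G)
    {B : Fin n → E n → EndF N} (hB : ∀ j, ContDiffOn ℝ ∞ (B j) D)
    {ξ : Fin n → ℝ} (hξ0 : ξ 0 = 0) (hξ : ξ ≠ 0) {ψ : E n → ℂ} (hψ : IsPhase D G ξ ψ)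
    {K : Set (E n)} (hK : IsClosed K) {R : E n → Fib N} (hR : ContDiffOn ℝ ∞ R D)
    (hRs : ∀ x ∈ Hs n, x ∉ K → R x = 0) {a₀ : E n → Fib N} (ha₀ : ContDiffOn ℝ ∞ a₀ D)
    (has : ∀ x ∈ Hs n, x ∉ K → a₀ x = 0) (k : ℕ) :
    ∃ a : E n → Fib N, ContDiffOn ℝ ∞ a D ∧ (∀ x ∈ Hs n, x ∉ K → a x = 0) ∧
      (∀ x ∈ D, x 0 = 0 → a x = a₀ x) ∧ Van D k (fun x => Mop G B ψ a x + R x) := by
  induction k with
  | zero => exact ⟨a₀, ha₀, has, fun _ _ _ => rfl, van_zero _⟩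
  | succ k ih =>
    obtain ⟨a, h1, h2, h3, h4⟩ := ih
    obtain ⟨a', h1', h2', h3', h4'⟩ := am_step hD hG hB hξ0 hξ hψ hK hR hRs h1 h2 h4
    exact ⟨a', h1', h2', fun x hx hx0 => (h3' x hx hx0).trans (h3 x hx hx0), h4'⟩

/-- the sequence of amplitudes: `M a_0 = O(x_0^m)`, `M a_{k+1} + L a_k = O(x_0^{m-k-1})` -/
theorem am_seq (hD : RelOpen D) {G : E n → Matrix (Fin n) (Fin n) ℝ} (hG : GOk D G)
    {B : Fin n → E n → EndF N} (hB : ∀ j, ContDiffOn ℝ ∞ (B j) D)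
    {ξ : Fin n → ℝ} (hξ0 : ξ 0 = 0) (hξ : ξ ≠ 0) {ψ : E n → ℂ} (hψ : IsPhase D G ξ ψ)
    {K : Set (E n)} (hK : IsClosed K) {a₀ : E n → Fib N} (ha₀ : ContDiffOn ℝ ∞ a₀ D)
    (has : ∀ x ∈ Hs n, x ∉ K → a₀ x = 0) (m : ℕ) :
    ∃ a : ℕ → E n → Fib N, (∀ k, ContDiffOn ℝ ∞ (a k) D) ∧
      (∀ k, ∀ x ∈ Hs n, x ∉ K → a k x = 0) ∧ (∀ x ∈ D, x 0 = 0 → a 0 x = a₀ x) ∧
      Van D m (Mop G B ψ (a 0)) ∧
      ∀ k, Van D m (fun x => Mop G B ψ (a (k + 1)) x + LopR G B (a k) x) := by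
  obtain ⟨b, h1, h2, h3, h4⟩ := am_exists hD hG hB hξ0 hξ hψ hK (R := fun _ => 0)
    contDiffOn_const (fun _ _ _ => rfl) ha₀ has m
  have step : ∀ b : {b : E n → Fib N // ContDiffOn ℝ ∞ b D ∧ ∀ x ∈ Hs n, x ∉ K → b x = 0},
      ∃ b' : {b : E n → Fib N // ContDiffOn ℝ ∞ b D ∧ ∀ x ∈ Hs n, x ∉ K → b x = 0},
        Van D m (fun x => Mop G B ψ b'.1 x + LopR G B b.1 x) := by
    rintro ⟨b, hb, hbs⟩
    obtain ⟨b', w1, w2, -, w4⟩ := am_exists hD hG hB hξ0 hξ hψ hK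
      (dr_smooth_lop hD hG hB hb) (dr_lop_supp hK hbs) (a₀ := fun _ => 0) contDiffOn_const
      (fun _ _ _ => rfl) m
    exact ⟨⟨b', w1, w2⟩, w4⟩
  choose nx hnx using step
  let a : ℕ → {b : E n → Fib N // ContDiffOn ℝ ∞ b D ∧ ∀ x ∈ Hs n, x ∉ K → b x = 0} := fun k =>
    Nat.rec ⟨b, h1, h2⟩ (fun _ c => nx c) k
  refine ⟨fun k => (a k).1, fun k => (a k).2.1, fun k => (a k).2.2, h3,
    h4.congr hD fun x _ => add_zero _, fun k => hnx (a k)⟩

end Vale.Agent.P088.EYM.H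

end
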