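import Vale.Agent.P088.H820.G1

/-!
# P088, higher order classes: abstract classes of local data, and the fourth order class

`H` = higher order. The chain (models near the boundary, boundary determination, rigidity, Runge
gluing) is run for an arbitrary class `Q : Cls n N`.
-/

open MeasureTheory Set Filter Topology
open scoped ContDiff

noncomputable section

namespace Vale.Agent.P088.EYM.H

variable {n N : ℕ} [NeZero n]

/-- Models without equations: the constant sections and the `c_a` are solutions, the real part of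
the component `j0` of `c_a` is the coordinate `x_a`. -/
structure IsMod (j0 : Fin N) (W : Model n N) (D : Set (E n)) : Prop where
  ok : W.toLD.Ok D
  frame : ∀ v : Fib N, Sol W.toLD D (fun _ => v)
  sol : ∀ a, Sol W.toLD D (W.c a)
  re : ∀ a, ∀ x ∈ D, (W.c a x j0).re = x a

/-- All derivatives of two models agree at the points of `D` with `x_0 = 0`. -/
structure JetAll (W₁ W₂ : Model n N) (D : Set (E n)) : Prop where
  g : ∀ k i j, Van D k (fun x => W₁.g x i j - W₂.g x i j)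
  B : ∀ k i, Van D k (fun x => W₁.B i x - W₂.B i x)
  h : ∀ k, Van D k (fun x => W₁.h x - W₂.h x)
  c : ∀ k a, Van D k (fun x => W₁.c a x - W₂.c a x)

variable (n N) in
/-- A class of local data: invariant under changes of coordinates and frames, and rigid. -/
structure Cls where
  eq : LD n N → Set (E n) → Prop
  mono : ∀ {L : LD n N} {D D' : Set (E n)}, eq L D → D' ⊆ D → eq L D'
  push : ∀ {L L' : LD n N} {D D' : Set (E n)} {X Y : E n → E n} {S : E n → EndF N},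
    RelOpen D → RelOpen D' → L.Ok D → L'.Ok D' → IsPull L L' D D' X Y S → eq L D → eq L' D'
  rigInt : ∀ (j0 : Fin N) (W₁ W₂ : Model n N) (D : Set (E n)), 3 ≤ n → IsOpen D →
    D ⊆ {x | 0 < x 0} → IsPreconnected D → IsMod j0 W₁ D → IsMod j0 W₂ D → eq W₁.toLD D →
    eq W₂.toLD D → ∀ U : Set (E n), IsOpen U → U ⊆ D → U.Nonempty → EqOnM W₁ W₂ U →
    EqOnM W₁ W₂ D
  rigBd : ∀ (j0 : Fin N) (W₁ W₂ : Model n N) (z : E n) (r : ℝ), 3 ≤ n → 0 < r → z 0 = 0 →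
    IsMod j0 W₁ (HB z r) → IsMod j0 W₂ (HB z r) → eq W₁.toLD (HB z r) → eq W₂.toLD (HB z r) →
    JetAll W₁ W₂ (HB z r) → EqOnM W₁ W₂ (HB z r)

/-- `W` is a model of the class `Q` on `D`. -/
structure IsModel (Q : Cls n N) (j0 : Fin N) (W : Model n N) (D : Set (E n)) : Prop
    extends IsMod j0 W D where
  eqs : Q.eq W.toLD D

/-- Boundary determination of all derivatives, for arbitrary data (no equations). -/
def DAll_statement : Prop :=
  ∀ (n N : ℕ) [NeZero n] (j0 : Fin N) (W₁ W₂ : Model n N) (z : E n) (r C : ℝ),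
    3 ≤ n → 0 < r → z 0 = 0 → IsMod j0 W₁ (HB z r) → IsMod j0 W₂ (HB z r) →
    (∀ x ∈ HB z r, x 0 = 0 → W₁.h x = 1 ∧ W₂.h x = 1) →
    (∀ x ∈ HB z r, x 0 = 0 → ∀ a, W₁.c a x = W₂.c a x) →
    (∀ x ∈ HB z r, x 0 = 0 → ∀ v : Fib N,
      flux W₁.toLD 0 (fun _ => v) x = flux W₂.toLD 0 (fun _ => v) x) →
    (∀ x ∈ HB z r, x 0 = 0 → ∀ a, flux W₁.toLD 0 (W₁.c a) x = flux W₂.toLD 0 (W₂.c a) x) →
    ERel W₁.toLD W₂.toLD z r C → JetAll W₁ W₂ (HB z r)

/-! ### The fourth order class -/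

/-- `∇_a T_{jk}` -/
def nab2 (g : E n → Matrix (Fin n) (Fin n) ℝ) (T : Fin n → Fin n → E n → ℝ) (a j k : Fin n)
    (x : E n) : ℝ :=
  pd a (T j k) x - ∑ l, (chr g l a j x * T l k x + chr g l a k x * T j l x)

/-- `∇_a T_{ijk}` -/
def nab3 (g : E n → Matrix (Fin n) (Fin n) ℝ) (T : Fin n → Fin n → Fin n → E n → ℝ)
    (a i j k : Fin n) (x : E n) : ℝ :=
  pd a (T i j k) x - ∑ l, (chr g l a i x * T l j k x + chr g l a j x * T i l k x +
    chr g l a k x * T i j l x)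

/-- `∇_a R_{jk}` -/
def dric (g : E n → Matrix (Fin n) (Fin n) ℝ) (a j k : Fin n) (x : E n) : ℝ :=
  nab2 g (ric g) a j k x

/-- `g^{ab} ∇_a ∇_b R_{jk}` -/
def lapRic (g : E n → Matrix (Fin n) (Fin n) ℝ) (j k : Fin n) (x : E n) : ℝ :=
  ∑ a, ∑ b, (g x)⁻¹ a b * nab3 g (dric g) a b j k x

/-- The curvature tensor `R_{ijbc} = g_{bl} R_{ij}{}^l{}_c`. -/
def rm (g : E n → Matrix (Fin n) (Fin n) ℝ) (i j b c : Fin n) (x : E n) : ℝ :=
  ∑ l, g x b l * (pd i (chr g l j c) x - pd j (chr g l i c) x +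
    ∑ m, (chr g l i m x * chr g m j c x - chr g l j m x * chr g m i c x))

/-- `∇_a F_{ij}` -/
def nabF (L : LD n N) (a i j : Fin n) (x : E n) : EndF N :=
  pd a (cur L.B i j) x + (L.B a x * cur L.B i j x - cur L.B i j x * L.B a x) -
    ∑ l, (chr L.g l a i x • cur L.B l j x + chr L.g l a j x • cur L.B i l x)

/-- `∇_a F_{ij}` in the frame `S`. -/
def nabS (L : LD n N) (S : EndF N) (x : E n) (a i j : Fin n) : EndF N :=
  S * nabF L a i j x * Ring.inverse S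

variable (n N) in
/-- A natural right hand side `Φ_{jk}(g, Rm, ∇Ric, F, ∇F)` (abstract form): covariant under changes
of coordinates and locally Lipschitz. -/
structure Cpl4 where
  f : Matrix (Fin n) (Fin n) ℝ → (Fin n → Fin n → Fin n → Fin n → ℝ) →
    (Fin n → Fin n → Fin n → ℝ) → (Fin n → Fin n → EndF N) →
    (Fin n → Fin n → Fin n → EndF N) → Fin n → Fin n → ℝ
  nat : ∀ (G J : Matrix (Fin n) (Fin n) ℝ) (K : Fin n → Fin n → Fin n → Fin n → ℝ)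
    (R : Fin n → Fin n → Fin n → ℝ) (F : Fin n → Fin n → EndF N)
    (F' : Fin n → Fin n → Fin n → EndF N), G.PosDef → IsUnit J → ∀ j k,
    f (J.transpose * G * J)
      (fun i j b c => ∑ p, ∑ q, ∑ r, ∑ s, J p i * J q j * J r b * J s c * K p q r s)
      (fun a j k => ∑ p, ∑ q, ∑ r, J p a * J q j * J r k * R p q r)
      (fun i j => ∑ p, ∑ q, (J p i * J q j) • F p q)
      (fun a i j => ∑ p, ∑ q, ∑ r, (J p a * J q i * J r j) • F' p q r) j k =
      ∑ p, ∑ q, J p j * J q k * f G K R F F' p q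
  lip : ∀ (G : Matrix (Fin n) (Fin n) ℝ) (K : Fin n → Fin n → Fin n → Fin n → ℝ)
    (R : Fin n → Fin n → Fin n → ℝ) (F : Fin n → Fin n → EndF N)
    (F' : Fin n → Fin n → Fin n → EndF N), G.PosDef →
    ∃ C δ : ℝ, 0 < δ ∧ ∀ (G₁ G₂ : Matrix (Fin n) (Fin n) ℝ)
      (K₁ K₂ : Fin n → Fin n → Fin n → Fin n → ℝ) (R₁ R₂ : Fin n → Fin n → Fin n → ℝ)
      (F₁ F₂ : Fin n → Fin n → EndF N) (F'₁ F'₂ : Fin n → Fin n → Fin n → EndF N),
      G₁.PosDef → G₂.PosDef →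
      (∀ i j, |G₁ i j - G i j| < δ) → (∀ i j, |G₂ i j - G i j| < δ) →
      (∀ i j b c, |K₁ i j b c - K i j b c| < δ) → (∀ i j b c, |K₂ i j b c - K i j b c| < δ) →
      (∀ a j k, |R₁ a j k - R a j k| < δ) → (∀ a j k, |R₂ a j k - R a j k| < δ) →
      (∀ i j, ‖F₁ i j - F i j‖ < δ) → (∀ i j, ‖F₂ i j - F i j‖ < δ) →
      (∀ a i j, ‖F'₁ a i j - F' a i j‖ < δ) → (∀ a i j, ‖F'₂ a i j - F' a i j‖ < δ) →
      ∀ t : ℝ, (∀ i j, |G₁ i j - G₂ i j| ≤ t) → (∀ i j b c, |K₁ i j b c - K₂ i j b c| ≤ t) →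
      (∀ a j k, |R₁ a j k - R₂ a j k| ≤ t) → (∀ i j, ‖F₁ i j - F₂ i j‖ ≤ t) →
      (∀ a i j, ‖F'₁ a i j - F'₂ a i j‖ ≤ t) →
      ∀ i j, |f G₁ K₁ R₁ F₁ F'₁ i j - f G₂ K₂ R₂ F₂ F'₂ i j| ≤ C * t

/-- The equations `g^{ab} ∇_a ∇_b R_{jk} = Φ_{jk}(g, Rm, ∇Ric, F, ∇F)` (in every unitary frame
`S`) and `d_A^* F = 0` on `D`. -/
structure Eq4 (Φ : Cpl4 n N) (L : LD n N) (D : Set (E n)) : Prop where
  lap : ∀ x ∈ D, ∀ S : EndF N, IsUnit S → ContinuousLinearMap.adjoint S * S = L.h x → ∀ j k,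
    lapRic L.g j k x = Φ.f (L.g x) (fun i j b c => rm L.g i j b c x)
      (fun a j k => dric L.g a j k x) (G.curS L S x) (nabS L S x) j k
  ym : ∀ x ∈ D, ∀ k, ymE L k x = 0

/-! ### Statements of the blocks -/

/-- (C1) transport of the equations. -/
def Push4_statement : Prop :=
  ∀ (n N : ℕ) [NeZero n] (Φ : Cpl4 n N) (L L' : LD n N) (D D' : Set (E n)) (X Y : E n → E n)
    (S : E n → EndF N), RelOpen D → RelOpen D' → L.Ok D → L'.Ok D' → IsPull L L' D D' X Y S →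
    Eq4 Φ L D → Eq4 Φ L' D'

/-- (C2) interior rigidity. -/
def Rig4Int_statement : Prop :=
  ∀ (n N : ℕ) [NeZero n] (Φ : Cpl4 n N) (j0 : Fin N) (W₁ W₂ : Model n N) (D : Set (E n)),
    3 ≤ n → IsOpen D → D ⊆ {x | 0 < x 0} → IsPreconnected D → IsMod j0 W₁ D → IsMod j0 W₂ D →
    Eq4 Φ W₁.toLD D → Eq4 Φ W₂.toLD D → ∀ U : Set (E n), IsOpen U → U ⊆ D → U.Nonempty →
    EqOnM W₁ W₂ U → EqOnM W₁ W₂ D

/-- (C2) rigidity from the boundary. -/
def Rig4Bd_statement : Prop :=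
  ∀ (n N : ℕ) [NeZero n] (Φ : Cpl4 n N) (j0 : Fin N) (W₁ W₂ : Model n N) (z : E n) (r : ℝ),
    3 ≤ n → 0 < r → z 0 = 0 → IsMod j0 W₁ (HB z r) → IsMod j0 W₂ (HB z r) →
    Eq4 Φ W₁.toLD (HB z r) → Eq4 Φ W₂.toLD (HB z r) → JetAll W₁ W₂ (HB z r) →
    EqOnM W₁ W₂ (HB z r)

end Vale.Agent.P088.EYM.H

end
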