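import Vale.Agent.P088.H4.A1
import Vale.Agent.P088.H4.Spec

/-!
# P088, higher order: boundary determination of all orders, part 4: the induction
-/

open MeasureTheory Set Filter Topology
open scoped ContDiff

noncomputable section

namespace Vale.Agent.P088.EYM.H

open Vale.Agent.P088.EYM

set_option linter.all false

/-- `dalg_pointwise` for all orders. -/
def DAlgAll : Prop :=
  ∀ (n N : ℕ) [NeZero n] (D : Set (E n)) (G₁ G₂ : E n → Matrix (Fin n) (Fin n) ℝ)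
    (B₁ B₂ : Fin n → E n → EndF N) (h₁ h₂ : E n → EndF N), 0 < N → RelOpen D →
    CoefD D G₁ B₁ h₁ → CoefD D G₂ B₂ h₂ → ERelD D G₁ B₁ h₁ G₂ B₂ h₂ → ∀ m : ℕ,
    (∀ j l, Van D (m + 1) (fun x => G₁ x j l - G₂ x j l)) →
    (∀ j, Van D m (fun x => B₁ j x - B₂ j x)) →
    Van D (m + 2) (fun x => h₁ x - h₂ x) →
    (∀ x ∈ D, x 0 = 0 → ∀ j, ContinuousLinearMap.adjoint
      ((pd (0 : Fin n))^[m] (fun y => B₁ j y - B₂ j y) x) =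
        -((pd (0 : Fin n))^[m] (fun y => B₁ j y - B₂ j y) x)) →
    (∀ x ∈ D, x 0 = 0 → ∑ l, G₂ x 0 l •
      (pd (0 : Fin n))^[m] (fun y => B₁ l y - B₂ l y) x = 0) →
    ∀ ξ : Fin n → ℝ, ξ 0 = 0 → ∀ x ∈ D, x 0 = 0 →
    (∑ j, ∑ l, (G₂ x j l * ξ j) • (pd (0 : Fin n))^[m] (fun y => B₁ l y - B₂ l y) x = 0) ∧
      ∑ j, ∑ l, (((pd (0 : Fin n))^[m + 1] (fun y => G₁ y j l - G₂ y j l) x : ℝ) : ℂ) *
          ((starRingEnd ℂ) (zz (G₂ x) ξ j) * zz (G₂ x) ξ l) = 0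

variable {n : ℕ} [NeZero n] {N : ℕ} {D : Set (E n)}
variable {G₁ G₂ : E n → Matrix (Fin n) (Fin n) ℝ} {B₁ B₂ : Fin n → E n → EndF N}
  {h₁ h₂ : E n → EndF N} {c₁ c₂ : Fin n → E n → Fib N} {j0 : Fin N}

theorem level_step (hA : DAlgAll) (hD : RelOpen D) (k₁ : CoefD D G₁ B₁ h₁)
    (k₂ : CoefD D G₂ B₂ h₂) (hE : ERelD D G₁ B₁ h₁ G₂ B₂ h₂)
    (hfluxB : ∀ x ∈ D, x 0 = 0 → ∑ k, G₁ x 0 k • B₁ k x = ∑ k, G₂ x 0 k • B₂ k x)
    (s₁ : SolD D G₁ B₁ c₁ j0) (s₂ : SolD D G₂ B₂ c₂ j0) {m : ℕ}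
    (hG : ∀ j l, Van D (m + 1) (fun x => G₁ x j l - G₂ x j l))
    (hB : ∀ j, Van D m (fun x => B₁ j x - B₂ j x))
    (hc : ∀ a, Van D (m + 2) (fun x => c₁ a x - c₂ a x)) :
    (∀ j l, Van D (m + 2) (fun x => G₁ x j l - G₂ x j l)) ∧
      ∀ j, Van D (m + 1) (fun x => B₁ j x - B₂ j x) := by
  obtain ⟨hh, hskew, hrow⟩ := st_step hD k₁ k₂ hfluxB hG hB
  have hN : 0 < N := Fin.pos j0
  have hpw := fun (ξ : Fin n → ℝ) (hξ0 : ξ 0 = 0) (x : E n) (hx : x ∈ D) (hx0 : x 0 = 0) =>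
    hA n N D G₁ G₂ B₁ B₂ h₁ h₂ hN hD k₁ k₂ hE m hG hB hh hskew hrow ξ hξ0 x hx hx0
  have hB' : ∀ j, Van D (m + 1) (fun x => B₁ j x - B₂ j x) := by
    intro j
    refine df_van_snoc (hB j) fun x hx hx0 => ?_
    refine df_solve (k₂.pos x hx) (fun l => (pd (0 : Fin n))^[m] (fun y => B₁ l y - B₂ l y) x)
      (fun i => ?_) j
    by_cases hi : i = 0
    · rw [hi]; exact hrow x hx hx0
    · exact df_pick (G₂ x) (fun l => (pd (0 : Fin n))^[m] (fun y => B₁ l y - B₂ l y) x)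
        (hpw (Pi.single i 1) (by simp [Ne.symm hi]) x hx hx0).1
  refine ⟨?_, hB'⟩
  have hrow2 := dco_coord_row hD k₁.toGOk k₂.toGOk k₁.smB k₂.smB s₁ s₂ hG hB' hc
  intro j l
  refine df_van_snoc (hG j l) fun x hx hx0 => ?_
  have hsym : ∀ j l, (pd (0 : Fin n))^[m + 1] (fun y => G₁ y j l - G₂ y j l) x =
      (pd (0 : Fin n))^[m + 1] (fun y => G₁ y l j - G₂ y l j) x := by
    intro j l
    refine dv_iter_congr hD (fun y hy => ?_) (m + 1) hx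
    show G₁ y j l - G₂ y j l = G₁ y l j - G₂ y l j
    rw [k₁.symm y hy, k₂.symm y hy]
  have hz : ∀ a, (pd (0 : Fin n))^[m + 1] (fun y => G₁ y 0 a - G₂ y 0 a) x = 0 := fun a =>
    hrow2 a (m + 1) (by omega) x hx hx0
  refine df_polar (κ := fun j l => (pd (0 : Fin n))^[m + 1] (fun y => G₁ y j l - G₂ y j l) x)
    hsym hz (fun ξ hξ0 => ?_) j l
  have h1 := (hpw ξ hξ0 x hx hx0).2
  have h2 : ∀ j l, (((pd (0 : Fin n))^[m + 1] (fun y => G₁ y j l - G₂ y j l) x : ℝ) : ℂ) *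
      ((starRingEnd ℂ) (zz (G₂ x) ξ j) * zz (G₂ x) ξ l) =
      (((pd (0 : Fin n))^[m + 1] (fun y => G₁ y j l - G₂ y j l) x * (ξ j * ξ l) : ℝ) : ℂ) := by
    intro j l
    by_cases hj : j = 0
    · subst hj; rw [hz l]; simp
    by_cases hl : l = 0
    · subst hl; rw [hsym j 0, hz j]; simp
    have e1 : (starRingEnd ℂ) (zz (G₂ x) ξ j) * zz (G₂ x) ξ l = ((ξ j * ξ l : ℝ) : ℂ) := by
      unfold zz
      rw [if_neg hj, if_neg hl, sub_zero, sub_zero, map_mul, Complex.conj_I, Complex.conj_ofReal]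
      push_cast
      linear_combination (-(ξ j : ℂ) * ξ l) * Complex.I_mul_I
    rw [e1]
    push_cast
    ring
  simp only [h2] at h1
  exact_mod_cast h1

/-- all derivatives agree at the face -/
theorem boundary_all (hA : DAlgAll) (hD : RelOpen D) (k₁ : CoefD D G₁ B₁ h₁)
    (k₂ : CoefD D G₂ B₂ h₂) (hE : ERelD D G₁ B₁ h₁ G₂ B₂ h₂)
    (hfluxG : ∀ x ∈ D, x 0 = 0 → ∀ a, G₁ x 0 a = G₂ x 0 a)
    (hfluxB : ∀ x ∈ D, x 0 = 0 → ∑ k, G₁ x 0 k • B₁ k x = ∑ k, G₂ x 0 k • B₂ k x)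
    (s₁ : SolD D G₁ B₁ c₁ j0) (s₂ : SolD D G₂ B₂ c₂ j0)
    (hc0 : ∀ x ∈ D, x 0 = 0 → ∀ a, c₁ a x = c₂ a x)
    (hc1 : ∀ x ∈ D, x 0 = 0 → ∀ a, pd 0 (c₁ a) x = pd 0 (c₂ a) x) (m : ℕ) :
    (∀ j l, Van D (m + 1) (fun x => G₁ x j l - G₂ x j l)) ∧
      (∀ j, Van D m (fun x => B₁ j x - B₂ j x)) ∧
      (∀ a, Van D (m + 2) (fun x => c₁ a x - c₂ a x)) := by
  induction m with
  | zero =>
    have hN : 0 < N := Fin.pos j0
    refine ⟨fun j l => van_one.2 fun x hx hx0 =>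
      sub_eq_zero.2 (dz_G_eq_face hN hD k₁ k₂ hE hfluxG x hx hx0 j l), fun j => van_zero _,
      fun a => van_succ.2 ⟨fun x hx hx0 => sub_eq_zero.2 (hc0 x hx hx0 a), van_one.2 ?_⟩⟩
    intro x hx hx0
    rw [hD.pd_sub (s₁.sm a) (s₂.sm a) hx]
    exact sub_eq_zero.2 (hc1 x hx hx0 a)
  | succ m ih =>
    obtain ⟨hG, hB, hc⟩ := ih
    obtain ⟨hG', hB'⟩ := level_step hA hD k₁ k₂ hE hfluxB s₁ s₂ hG hB hc
    exact ⟨hG', hB', fun a => st_coord hD k₁.toGOk k₂.toGOk k₁.smB k₂.smB s₁ s₂ hG' hB' hc a⟩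

theorem dall_of (hA : DAlgAll) : DAll_statement := by
  intro n N _ j0 W₁ W₂ z r C hn hr hz m₁ m₂ hh hc hf hf' hE
  have hD : RelOpen (HB z r) := ⟨Metric.ball z r, Metric.isOpen_ball, rfl⟩
  have k₁ := dcv_coef hD m₁.ok m₁.frame (fun x hx hx0 => (hh x hx hx0).1)
  have k₂ := dcv_coef hD m₂.ok m₂.frame (fun x hx hx0 => (hh x hx hx0).2)
  have hER := dcv_erel m₁.ok m₂.ok m₁.frame m₂.frame hE
  obtain ⟨fG, fB, hc1⟩ := dcv_flux hD m₁.ok m₂.ok (fun a => (m₁.sol a).1)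
    (fun a => (m₂.sol a).1) m₁.re m₂.re hc hf hf'
  have s₁ : SolD (HB z r) (GM W₁.g) W₁.B W₁.c j0 :=
    ⟨fun a => (m₁.sol a).1, m₁.re, fun a x hx => by
      rw [← dcv_lop hD m₁.ok m₁.frame (m₁.sol a).1 hx]; exact (m₁.sol a).2 x hx⟩
  have s₂ : SolD (HB z r) (GM W₂.g) W₂.B W₂.c j0 :=
    ⟨fun a => (m₂.sol a).1, m₂.re, fun a x hx => by
      rw [← dcv_lop hD m₂.ok m₂.frame (m₂.sol a).1 hx]; exact (m₂.sol a).2 x hx⟩
  have key := boundary_all hA hD k₁ k₂ hER fG fB s₁ s₂ hc hc1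
  have g₁ := dbd_gok m₁.ok.g_smooth m₁.ok.g_pos
  have g₂ := dbd_gok m₂.ok.g_smooth m₂.ok.g_pos
  refine ⟨fun k i j => dme_metric_van hn hD g₁ g₂ (fun j l => ((key k).1 j l).mono (by omega)) i j,
    fun k i => (key k).2.1 i, fun k => ?_, fun k a => ((key k).2.2 a).mono (by omega)⟩
  obtain ⟨hG, hB, -⟩ := key k
  exact (st_step hD k₁ k₂ fB hG hB).1.mono (by omega)

end Vale.Agent.P088.EYM.H

end
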