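import Vale.Agent.P088.H4.HDefs

/-!
# P088, fourth order class: Bach flat metrics

`bachLap`: for a Bach flat metric with constant scalar curvature,
`g^{ab} ∇_a ∇_b R_{jk} = comR_{jk} - (n - 2) P^{il} W_{ijlk}`, from the Ricci identity and the
contracted second Bianchi identity.
-/

open MeasureTheory Set Filter Topology
open scoped ContDiff

noncomputable section

namespace Vale.Agent.P088.EYM.H

variable {n : ℕ} [NeZero n]

/-! ### Bach flat metrics with constant scalar curvature -/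

namespace Bach779

variable {D : Set (E n)} {g : E n → Matrix (Fin n) (Fin n) ℝ}

/-- `∇ g = 0` -/
theorem met (hD : RelOpen D) (hg : GOk D g) {x : E n} (hx : x ∈ D) (a j k : Fin n) :
    pd a (fun y => g y j k) x = ∑ l, (chr g l a j x * g x l k + chr g l a k x * g x j l) := by
  have h := congrFun (congrFun (chr_metric hD hg.pos hx a) j) k
  rw [Matrix.add_apply, Matrix.mul_apply, Matrix.mul_apply] at h
  change pd a (fun y => g y j k) x = _ at h
  rw [h, Finset.sum_add_distrib]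
  congr 1
  exact Finset.sum_congr rfl fun l _ => mul_comm _ _

/-- `∇ g⁻¹ = 0` -/
theorem met_inv (hD : RelOpen D) (hg : GOk D g) {x : E n} (hx : x ∈ D) (a b c : Fin n) :
    pd a (fun y => (g y)⁻¹ b c) x =
      -∑ l, (chr g b a l x * (g x)⁻¹ l c + chr g c a l x * (g x)⁻¹ b l) := by
  have hu : IsUnit (g x).det := (hg.pos x hx).det_pos.ne'.isUnit
  have h := hD.pd_minv hg.smG hg.pos hx a b c
  have h2 : ∑ c', ∑ d, (g x)⁻¹ b c' * pd a (fun y => g y c' d) x * (g x)⁻¹ d c =
      ((g x)⁻¹ * pdM a g x * (g x)⁻¹) b c := by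
    rw [Matrix.mul_apply, Finset.sum_comm]
    refine Finset.sum_congr rfl fun d _ => ?_
    rw [Matrix.mul_apply, Finset.sum_mul]
    rfl
  have h3 : (g x)⁻¹ * ((mchr g a x).transpose * g x + g x * mchr g a x) * (g x)⁻¹ =
      (g x)⁻¹ * (mchr g a x).transpose + mchr g a x * (g x)⁻¹ := by
    rw [Matrix.mul_add, Matrix.add_mul, ← Matrix.mul_assoc, ← Matrix.mul_assoc,
      Matrix.nonsing_inv_mul _ hu, Matrix.one_mul, Matrix.mul_assoc _ (g x) (g x)⁻¹,
      Matrix.mul_nonsing_inv _ hu, Matrix.mul_one]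
  rw [h, h2, chr_metric hD hg.pos hx a, h3, Matrix.add_apply, Matrix.mul_apply, Matrix.mul_apply,
    Finset.sum_add_distrib, add_comm]
  congr 2
  exact Finset.sum_congr rfl fun l _ => mul_comm _ _

theorem ric_smooth (hD : RelOpen D) (hg : GOk D g) (j k : Fin n) :
    ContDiffOn ℝ ∞ (ric g j k) D := by
  have hc := fun a b c => Ric_chr_smooth hD hg.smG hg.pos a b c
  unfold ric
  exact ContDiffOn.sum fun i _ => ((hD.pd_smooth (hc i j k) i).sub
    (hD.pd_smooth (hc i i k) j)).add (ContDiffOn.sum fun l _ =>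
      ((hc i i l).mul (hc l j k)).sub ((hc i j l).mul (hc l i k)))

theorem nab2_smooth (hD : RelOpen D) (hg : GOk D g) {T : Fin n → Fin n → E n → ℝ}
    (hT : ∀ j k, ContDiffOn ℝ ∞ (T j k) D) (a j k : Fin n) :
    ContDiffOn ℝ ∞ (nab2 g T a j k) D := by
  have hc := fun a b c => Ric_chr_smooth hD hg.smG hg.pos a b c
  unfold nab2
  exact (hD.pd_smooth (hT j k) a).sub (ContDiffOn.sum fun l _ =>
    ((hc l a j).mul (hT l k)).add ((hc l a k).mul (hT j l)))

theorem dric_smooth (hD : RelOpen D) (hg : GOk D g) (a j k : Fin n) :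
    ContDiffOn ℝ ∞ (dric g a j k) D := nab2_smooth hD hg (ric_smooth hD hg) a j k

/-- `∇_a` commutes with the trace in the first two indices -/
theorem nab3_trace (hD : RelOpen D) (hg : GOk D g) {T : Fin n → Fin n → Fin n → E n → ℝ}
    (hT : ∀ i j k, ContDiffOn ℝ ∞ (T i j k) D) {x : E n} (hx : x ∈ D) (c k : Fin n) :
    ∑ a, ∑ b, (g x)⁻¹ a b * nab3 g T c a b k x =
      pd c (fun y => ∑ a, ∑ b, (g y)⁻¹ a b * T a b k y) x -
        ∑ l, chr g l c k x * ∑ a, ∑ b, (g x)⁻¹ a b * T a b l x := by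
  have hi := hD.smM_inv hg.smG hg.pos
  have h1 : pd c (fun y => ∑ a, ∑ b, (g y)⁻¹ a b * T a b k y) x =
      ∑ a, ∑ b, ((g x)⁻¹ a b * pd c (T a b k) x + pd c (fun y => (g y)⁻¹ a b) x * T a b k x) := by
    rw [hD.pd_sum _ (fun a _ => ContDiffOn.sum fun b _ => (hi a b).mul (hT a b k)) hx]
    refine Finset.sum_congr rfl fun a _ => ?_
    rw [hD.pd_sum _ (fun b _ => (hi a b).mul (hT a b k)) hx]
    exact Finset.sum_congr rfl fun b _ => hD.pd_mul (hi a b) (hT a b k) hx c
  have h2 : ∑ a, ∑ b, pd c (fun y => (g y)⁻¹ a b) x * T a b k x =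
      -∑ a, ∑ b, ∑ l, ((g x)⁻¹ a b * (chr g l c a x * T l b k x) +
        (g x)⁻¹ a b * (chr g l c b x * T a l k x)) := by
    have e1 : ∑ a, ∑ b, ∑ l, (g x)⁻¹ a b * (chr g l c a x * T l b k x) =
        ∑ a, ∑ b, ∑ l, chr g a c l x * (g x)⁻¹ l b * T a b k x := by
      have : ∀ f : Fin n → Fin n → Fin n → ℝ, ∑ a, ∑ b, ∑ l, f a b l = ∑ l, ∑ b, ∑ a, f a b l := by
        intro f
        rw [Finset.sum_comm]
        simp_rw [Finset.sum_comm (f := fun a l => f a _ l)]
        rw [Finset.sum_comm]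
      rw [this]
      exact Finset.sum_congr rfl fun a _ => Finset.sum_congr rfl fun b _ =>
        Finset.sum_congr rfl fun l _ => by ring
    have e2 : ∑ a, ∑ b, ∑ l, (g x)⁻¹ a b * (chr g l c b x * T a l k x) =
        ∑ a, ∑ b, ∑ l, chr g b c l x * (g x)⁻¹ a l * T a b k x := by
      refine Finset.sum_congr rfl fun a _ => ?_
      rw [Finset.sum_comm]
      exact Finset.sum_congr rfl fun b _ => Finset.sum_congr rfl fun l _ => by ring
    simp only [Finset.sum_add_distrib, e1, e2]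
    rw [← Finset.sum_add_distrib, ← Finset.sum_neg_distrib]
    refine Finset.sum_congr rfl fun a _ => ?_
    rw [← Finset.sum_add_distrib, ← Finset.sum_neg_distrib]
    refine Finset.sum_congr rfl fun b _ => ?_
    rw [met_inv hD hg hx, neg_mul, Finset.sum_add_distrib, add_mul, Finset.sum_mul, Finset.sum_mul]
  have h3 : ∑ l, chr g l c k x * ∑ a, ∑ b, (g x)⁻¹ a b * T a b l x =
      ∑ a, ∑ b, ∑ l, (g x)⁻¹ a b * (chr g l c k x * T a b l x) := by
    simp only [Finset.mul_sum]
    rw [Finset.sum_comm]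
    refine Finset.sum_congr rfl fun a _ => ?_
    rw [Finset.sum_comm]
    exact Finset.sum_congr rfl fun b _ => Finset.sum_congr rfl fun l _ => by ring
  simp only [h1, Finset.sum_add_distrib, h2, h3]
  simp only [← Finset.sum_add_distrib, ← Finset.sum_sub_distrib, ← sub_eq_add_neg, nab3,
    mul_sub, mul_add, Finset.mul_sum]
  refine Finset.sum_congr rfl fun a _ => Finset.sum_congr rfl fun b _ => ?_
  rw [sub_sub, ← Finset.sum_add_distrib]

theorem nab3_congr (hD : RelOpen D) {T T' : Fin n → Fin n → Fin n → E n → ℝ}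
    (h : ∀ y ∈ D, ∀ i j k, T i j k y = T' i j k y) {x : E n} (hx : x ∈ D) (a i j k : Fin n) :
    nab3 g T a i j k x = nab3 g T' a i j k x := by
  unfold nab3
  rw [hD.pd_congr (fun y hy => h y hy i j k) hx a]
  simp only [h x hx]

theorem nab3_smul (hD : RelOpen D) {T : Fin n → Fin n → Fin n → E n → ℝ}
    (hT : ∀ i j k, ContDiffOn ℝ ∞ (T i j k) D) (r : ℝ) {x : E n} (hx : x ∈ D) (a i j k : Fin n) :
    nab3 g (fun i j k y => r * T i j k y) a i j k x = r * nab3 g T a i j k x := by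
  unfold nab3
  have h := hD.pd_const_smul r (hT i j k) hx a
  simp only [smul_eq_mul] at h
  rw [h, mul_sub, Finset.mul_sum]
  congr 1
  exact Finset.sum_congr rfl fun l _ => by ring

/-- `g^{ab} ∇_a ∇_j R_{bk} = R_j^l R_{lk} - R_{ajlk} R^{al}` if the scalar curvature is locally
constant -/
theorem divcomm_of (hR : RicciId_statement) (hC : CBianchi_statement) (hD : RelOpen D)
    (hg : GOk D g) (hs : ∀ x ∈ D, ∀ k, pd k (sca g) x = 0) {x : E n} (hx : x ∈ D)
    (j k : Fin n) :
    ∑ a, ∑ b, (g x)⁻¹ a b * nab3 g (dric g) a j b k x = comR g j k x := by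
  have h0 : ∀ y ∈ D, ∀ l, ∑ a, ∑ b, (g y)⁻¹ a b * dric g a b l y = 0 := by
    intro y hy l
    have h1 := hC n D g hD hg y hy l
    rw [hs y hy l] at h1
    linarith
  have h1 : ∑ a, ∑ b, (g x)⁻¹ a b * nab3 g (dric g) j a b k x = 0 := by
    rw [nab3_trace hD hg (fun i j k => dric_smooth hD hg i j k) hx j k,
      hD.pd_congr (g := fun _ => (0 : ℝ)) (fun z hz => h0 z hz k) hx j, pd_const]
    simp only [h0 x hx, mul_zero, Finset.sum_const_zero, sub_zero]
  have h2 : ∀ a b, nab3 g (dric g) a j b k x = nab3 g (dric g) j a b k x +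
      -∑ l, (rup g a j l b x * ric g l k x + rup g a j l k x * ric g b l x) := by
    intro a b
    rw [← hR n D g (ric g) hD hg (ric_smooth hD hg) x hx a j b k]
    change nab3 g (dric g) a j b k x = nab3 g (dric g) j a b k x +
      (nab3 g (dric g) a j b k x - nab3 g (dric g) j a b k x)
    ring
  simp only [h2, mul_add, Finset.sum_add_distrib, h1, zero_add]
  unfold comR
  rw [← Finset.sum_neg_distrib]
  refine Finset.sum_congr rfl fun a _ => ?_
  rw [← Finset.sum_neg_distrib]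
  exact Finset.sum_congr rfl fun b _ => by rw [Finset.sum_add_distrib]; ring

/-- `g^{ab} ∇_a ∇_j R_{bk} = R_j^l R_{lk} - R_{ajlk} R^{al}` for constant scalar curvature -/
theorem divcomm (hR : RicciId_statement) (hC : CBianchi_statement) (hD : RelOpen D)
    (hg : GOk D g) {s : ℝ} (hs : ∀ x ∈ D, sca g x = s) {x : E n} (hx : x ∈ D) (j k : Fin n) :
    ∑ a, ∑ b, (g x)⁻¹ a b * nab3 g (dric g) a j b k x = comR g j k x :=
  divcomm_of hR hC hD hg (fun y hy l => by
    rw [hD.pd_congr (g := fun _ => s) (fun z hz => hs z hz) hy l, pd_const]) hx j k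

theorem nab2_trace (hD : RelOpen D) (hg : GOk D g) {T : Fin n → Fin n → E n → ℝ}
    (hT : ∀ i j, ContDiffOn ℝ ∞ (T i j) D) {x : E n} (hx : x ∈ D) (c : Fin n) :
    ∑ a, ∑ b, (g x)⁻¹ a b * nab2 g T c a b x =
      pd c (fun y => ∑ a, ∑ b, (g y)⁻¹ a b * T a b y) x := by
  have h := nab3_trace (T := fun a b _ => T a b) hD hg (fun i j _ => hT i j) hx c 0
  have h1 : ∀ a b, nab3 g (fun a b _ => T a b) c a b 0 x =
      nab2 g T c a b x - ∑ l, chr g l c 0 x * T a b x := by
    intro a b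
    unfold nab3 nab2
    rw [sub_sub, ← Finset.sum_add_distrib]
  simp only [h1, mul_sub, Finset.sum_sub_distrib] at h
  have h2 : ∑ a, ∑ b, (g x)⁻¹ a b * ∑ l, chr g l c 0 x * T a b x =
      ∑ l, chr g l c 0 x * ∑ a, ∑ b, (g x)⁻¹ a b * T a b x := by
    simp only [Finset.mul_sum]
    rw [Finset.sum_comm]
    refine (Finset.sum_congr rfl fun b _ => Finset.sum_comm).trans ?_
    rw [Finset.sum_comm]
    refine Finset.sum_congr rfl fun l _ => ?_
    rw [Finset.sum_comm]
    exact Finset.sum_congr rfl fun a _ => Finset.sum_congr rfl fun b _ => by ring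
  rw [h2] at h
  linarith

/-- For constant scalar curvature `∇ P = ∇ Ric / (n - 2)`. -/
theorem nab2_sch (hD : RelOpen D) (hg : GOk D g) {s : ℝ} (hs : ∀ x ∈ D, sca g x = s)
    {x : E n} (hx : x ∈ D) (a j k : Fin n) :
    nab2 g (sch g) a j k x = ((n : ℝ) - 2)⁻¹ * dric g a j k x := by
  set r : ℝ := ((n : ℝ) - 2)⁻¹ with hr
  set q : ℝ := s / (2 * ((n : ℝ) - 1)) with hq
  have h0 : ∀ y ∈ D, ∀ j k, sch g j k y = r • (ric g j k y - q • g y j k) := by
    intro y hy j k
    unfold sch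
    rw [hs y hy, div_eq_inv_mul]
    simp only [smul_eq_mul, hr, hq]
  have h1 : pd a (sch g j k) x = r * (pd a (ric g j k) x - q * pd a (fun y => g y j k) x) := by
    rw [hD.pd_congr (g := fun y => r • (ric g j k y - q • g y j k)) (fun y hy => h0 y hy j k) hx a,
      hD.pd_const_smul r ((ric_smooth hD hg j k).sub ((hg.smG j k).const_smul q)) hx a,
      hD.pd_sub (ric_smooth hD hg j k) ((hg.smG j k).const_smul q) hx a,
      hD.pd_const_smul q (hg.smG j k) hx a]
    simp only [smul_eq_mul]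
  unfold dric nab2
  rw [h1, met hD hg hx a j k]
  simp only [h0 x hx, smul_eq_mul]
  rw [Finset.mul_sum, mul_sub, mul_sub, sub_sub, Finset.mul_sum, Finset.mul_sum,
    ← Finset.sum_add_distrib]
  congr 1
  exact Finset.sum_congr rfl fun l _ => by ring

/-! ### symmetry of the Ricci tensor -/

theorem chr_tr (hD : RelOpen D) (hg : GOk D g) {x : E n} (hx : x ∈ D) (k : Fin n) :
    ∑ i, chr g i i k x = ∑ a, ∑ b, (1 / 2 : ℝ) * ((g x)⁻¹ a b * pd k (fun y => g y a b) x) := by
  have hi : ∀ a b, (g x)⁻¹ a b = (g x)⁻¹ b a := fun a b => Jacobi_inv_symm (hg.pos x hx) a b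
  have h1 : ∑ i, ∑ l, (g x)⁻¹ i l * pd i (fun y => g y l k) x =
      ∑ i, ∑ l, (g x)⁻¹ i l * pd l (fun y => g y i k) x := by
    rw [Finset.sum_comm]
    exact Finset.sum_congr rfl fun i _ => Finset.sum_congr rfl fun l _ => by rw [hi l i]
  have h2 : ∑ i, chr g i i k x = 1 / 2 * (∑ i, ∑ l, (g x)⁻¹ i l * pd i (fun y => g y l k) x +
      ∑ i, ∑ l, (g x)⁻¹ i l * pd k (fun y => g y i l) x -
      ∑ i, ∑ l, (g x)⁻¹ i l * pd l (fun y => g y i k) x) := by
    unfold chr
    rw [← Finset.mul_sum]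
    congr 1
    rw [← Finset.sum_add_distrib, ← Finset.sum_sub_distrib]
    refine Finset.sum_congr rfl fun i _ => ?_
    rw [← Finset.sum_add_distrib, ← Finset.sum_sub_distrib]
    refine Finset.sum_congr rfl fun l _ => ?_
    rw [Chr_symm_pd hD hg.pos hx k l i]
    ring
  rw [h2, h1, add_sub_cancel_left, Finset.mul_sum]
  exact Finset.sum_congr rfl fun a _ => Finset.mul_sum _ _ _

theorem pd_chr_tr (hD : RelOpen D) (hg : GOk D g) {x : E n} (hx : x ∈ D) (j k : Fin n) :
    ∑ i, pd j (chr g i i k) x = ∑ i, pd k (chr g i i j) x := by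
  have hc := fun a b c => Ric_chr_smooth hD hg.smG hg.pos a b c
  have hi := hD.smM_inv hg.smG hg.pos
  have key : ∀ j k : Fin n, ∑ i, pd j (chr g i i k) x =
      ∑ a, ∑ b, (1 / 2 : ℝ) * ((g x)⁻¹ a b * pd j (pd k (fun y => g y a b)) x) -
      ∑ a, ∑ b, ∑ c, ∑ d, (1 / 2 : ℝ) * ((g x)⁻¹ a c * pd j (fun y => g y c d) x *
        (g x)⁻¹ d b * pd k (fun y => g y a b) x) := by
    intro j k
    have hs : ∀ a b, ContDiffOn ℝ ∞ (fun y => (g y)⁻¹ a b * pd k (fun z => g z a b) y) D :=
      fun a b => (hi a b).mul (hD.pd_smooth (hg.smG a b) k)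
    rw [← hD.pd_sum _ (fun i _ => hc i i k) hx j,
      hD.pd_congr (fun y hy => chr_tr hD hg hy k) hx j,
      hD.pd_sum _ (fun a _ => ContDiffOn.sum fun b _ => contDiffOn_const.mul (hs a b)) hx j,
      ← Finset.sum_sub_distrib]
    refine Finset.sum_congr rfl fun a _ => ?_
    rw [hD.pd_sum _ (fun b _ => contDiffOn_const.mul (hs a b)) hx j, ← Finset.sum_sub_distrib]
    refine Finset.sum_congr rfl fun b _ => ?_
    have e1 := hD.pd_const_smul (1 / 2 : ℝ) (hs a b) hx j
    simp only [smul_eq_mul] at e1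
    rw [e1, hD.pd_mul (hi a b) (hD.pd_smooth (hg.smG a b) k) hx j,
      hD.pd_minv hg.smG hg.pos hx j a b]
    simp only [← Finset.mul_sum, ← Finset.sum_mul]
    ring
  rw [key j k, key k j]
  congr 1
  · exact Finset.sum_congr rfl fun a _ => Finset.sum_congr rfl fun b _ => by
      rw [hD.pd_comm (hg.smG a b) hx j k]
  · have hsy : ∀ a b, (g x)⁻¹ a b = (g x)⁻¹ b a := fun a b => Jacobi_inv_symm (hg.pos x hx) a b
    have hsw : ∀ f : Fin n → Fin n → Fin n → Fin n → ℝ,
        ∑ a, ∑ b, ∑ c, ∑ d, f a b c d = ∑ c, ∑ d, ∑ a, ∑ b, f a b c d := by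
      intro f
      have e1 : ∀ a, ∑ b, ∑ c, ∑ d, f a b c d = ∑ c, ∑ d, ∑ b, f a b c d := by
        intro a
        rw [Finset.sum_comm]
        exact Finset.sum_congr rfl fun c _ => Finset.sum_comm
      simp only [e1]
      rw [Finset.sum_comm]
      exact Finset.sum_congr rfl fun c _ => Finset.sum_comm
    rw [hsw]
    refine Finset.sum_congr rfl fun a _ => Finset.sum_congr rfl fun b _ =>
      Finset.sum_congr rfl fun c _ => Finset.sum_congr rfl fun d _ => ?_
    rw [hsy c a, hsy b d]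
    ring

theorem ric_symm (hD : RelOpen D) (hg : GOk D g) {x : E n} (hx : x ∈ D) (j k : Fin n) :
    ric g j k x = ric g k j x := by
  have hs := fun (y : E n) (hy : y ∈ D) (a b c : Fin n) => chr_symm hD hg.pos hy a b c
  unfold ric
  simp only [Finset.sum_add_distrib, Finset.sum_sub_distrib]
  have h1 : ∑ i, pd i (chr g i j k) x = ∑ i, pd i (chr g i k j) x :=
    Finset.sum_congr rfl fun i _ => hD.pd_congr (fun y hy => hs y hy i j k) hx i
  have h2 : ∑ i, ∑ l, chr g i i l x * chr g l j k x = ∑ i, ∑ l, chr g i i l x * chr g l k j x :=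
    Finset.sum_congr rfl fun i _ => Finset.sum_congr rfl fun l _ => by rw [hs x hx l j k]
  have h3 : ∑ i, ∑ l, chr g i j l x * chr g l i k x = ∑ i, ∑ l, chr g i k l x * chr g l i j x := by
    rw [Finset.sum_comm]
    exact Finset.sum_congr rfl fun i _ => Finset.sum_congr rfl fun l _ => by
      rw [hs x hx l j i, hs x hx i l k]
      ring
  rw [h1, h2, h3, pd_chr_tr hD hg hx j k]

end Bach779

/-- Bach flat metrics with constant scalar curvature: the equation for the Ricci tensor. -/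
theorem bachLap (hR : RicciId_statement) (hC : CBianchi_statement) : BachLap_statement := by
  intro n _ D g s hn hD hg hs hb x hx j k
  have hn2 : ((n : ℝ) - 2) ≠ 0 := by
    have : (3 : ℝ) ≤ n := by exact_mod_cast hn
    linarith
  have h := hb x hx j k
  have h1 : ∀ a i j k, nab3 g (fun i j k => nab2 g (sch g) i j k) a i j k x =
      ((n : ℝ) - 2)⁻¹ * nab3 g (dric g) a i j k x := by
    intro a i j k
    rw [Bach779.nab3_congr (T' := fun i j k y => ((n : ℝ) - 2)⁻¹ * dric g i j k y) hD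
      (fun y hy i j k => Bach779.nab2_sch hD hg hs hy i j k) hx a i j k,
      Bach779.nab3_smul hD (fun i j k => Bach779.dric_smooth hD hg i j k) _ hx]
  unfold bach at h
  simp only [h1] at h
  have h2 : ∑ a, ∑ b, (g x)⁻¹ a b * (((n : ℝ) - 2)⁻¹ * nab3 g (dric g) a b j k x -
      ((n : ℝ) - 2)⁻¹ * nab3 g (dric g) a j b k x) =
      ((n : ℝ) - 2)⁻¹ * (lapRic g j k x - comR g j k x) := by
    rw [← Bach779.divcomm hR hC hD hg hs hx j k]
    unfold lapRic
    rw [← Finset.sum_sub_distrib, Finset.mul_sum]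
    refine Finset.sum_congr rfl fun a _ => ?_
    rw [← Finset.sum_sub_distrib, Finset.mul_sum]
    exact Finset.sum_congr rfl fun b _ => by ring
  rw [h2] at h
  have h3 : ((n : ℝ) - 2) * (((n : ℝ) - 2)⁻¹ * (lapRic g j k x - comR g j k x) + pw g j k x) = 0 := by
    rw [h, mul_zero]
  rw [mul_add, mul_inv_cancel_left₀ hn2] at h3
  linarith

end Vale.Agent.P088.EYM.H

end
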