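import Vale.Agent.P088.H4.St4b
import Vale.Agent.P088.H4.Spec
import Vale.Agent.P088.H820.G6

/-!
# P088, fourth order class: from the concrete to the abstract form
-/

open Manifold MeasureTheory Set Filter Topology
open scoped ContDiff Matrix

noncomputable section

set_option synthInstance.maxSize 4000

namespace Vale.Agent.P088.B

universe u

variable {n N : ℕ}

/-! ### the right hand side -/

theorem ofE_rsmul (r : ℝ) (T : EndF N) : S.ofE (r • T) = r • S.ofE T := by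
  apply S.toE_inj
  rw [S.toE_ofE, EYM.brEq_toE_rsmul, S.toE_ofE]

theorem ofE_fsum {ι : Type*} (s : Finset ι) (T : ι → EndF N) :
    S.ofE (∑ i ∈ s, T i) = ∑ i ∈ s, S.ofE (T i) := by
  apply S.toE_inj
  rw [S.toE_ofE, EYM.brEq_toE_fsum]
  exact Finset.sum_congr rfl fun i _ => (S.toE_ofE _).symm

theorem conj_apply (J K : Matrix (Fin n) (Fin n) ℝ) (b c : Fin n) :
    (Jᵀ * K * J) b c = ∑ r, ∑ s, J r b * J s c * K r s := by
  rw [Matrix.mul_apply]
  simp only [Matrix.mul_apply, Matrix.transpose_apply, Finset.sum_mul]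
  rw [Finset.sum_comm]
  refine Finset.sum_congr rfl fun p _ => Finset.sum_congr rfl fun q _ => ?_
  ring

/-- The bundled values. -/
abbrev BV (n N : ℕ) := Fin n → Fin n → ℝ × (Fin n → Fin n → ℝ) × (Fin n → ℝ) ×
  (Fin N → Fin N → ℂ) × (Fin n → Fin N → Fin N → ℂ)

def bv (G : Matrix (Fin n) (Fin n) ℝ) (K : Fin n → Fin n → Fin n → Fin n → ℝ)
    (R : Fin n → Fin n → Fin n → ℝ) (F : Fin n → Fin n → EndF N)
    (D : Fin n → Fin n → Fin n → EndF N) : BV n N :=
  fun i j => (G i j, fun b c => K i j b c, fun a => R a i j, fun a b => S.ofE (F i j) a b,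
    fun c a b => S.ofE (D c i j) a b)

theorem bv_dist {G₁ G₂ : Matrix (Fin n) (Fin n) ℝ} {K₁ K₂ : Fin n → Fin n → Fin n → Fin n → ℝ}
    {R₁ R₂ : Fin n → Fin n → Fin n → ℝ} {F₁ F₂ : Fin n → Fin n → EndF N}
    {D₁ D₂ : Fin n → Fin n → Fin n → EndF N} {t : ℝ} (ht : 0 ≤ t)
    (h1 : ∀ i j, |G₁ i j - G₂ i j| ≤ t) (h2 : ∀ i j b c, |K₁ i j b c - K₂ i j b c| ≤ t)
    (h3 : ∀ a j k, |R₁ a j k - R₂ a j k| ≤ t) (h4 : ∀ i j, ‖F₁ i j - F₂ i j‖ ≤ t)
    (h5 : ∀ a i j, ‖D₁ a i j - D₂ a i j‖ ≤ t) :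
    dist (bv G₁ K₁ R₁ F₁ D₁) (bv G₂ K₂ R₂ F₂ D₂) ≤ t := by
  unfold bv
  rw [dist_pi_le_iff ht]
  intro i
  rw [dist_pi_le_iff ht]
  intro j
  rw [Prod.dist_eq]
  refine max_le (h1 i j) ?_
  rw [Prod.dist_eq]
  refine max_le ?_ ?_
  · rw [dist_pi_le_iff ht]
    intro b
    rw [dist_pi_le_iff ht]
    intro c
    exact h2 i j b c
  rw [Prod.dist_eq]
  refine max_le ?_ ?_
  · rw [dist_pi_le_iff ht]
    intro a
    exact h3 a i j
  rw [Prod.dist_eq]
  refine max_le ?_ ?_
  · rw [dist_pi_le_iff ht]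
    intro a
    rw [dist_pi_le_iff ht]
    intro b
    rw [dist_eq_norm]
    exact (ofE_entry (F₁ i j - F₂ i j) a b).trans (h4 i j)
  · rw [dist_pi_le_iff ht]
    intro c
    rw [dist_pi_le_iff ht]
    intro a
    rw [dist_pi_le_iff ht]
    intro b
    rw [dist_eq_norm]
    exact (ofE_entry (D₁ c i j - D₂ c i j) a b).trans (h5 c i j)

/-- The abstract right hand side of a natural right hand side. -/
def rhsOf {Φ : Rhs n N} (hΦ : Natural4 Φ) : EYM.H.Cpl4 n N where
  f := fun G K R F D => Φ G (fun i j => K i j) (fun a => R a) (fun i j => S.ofE (F i j))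
    (fun a i j => S.ofE (D a i j))
  nat := by
    intro G J K R F D hG hJ j k
    have e1 : (fun i j => (fun b c => ∑ p, ∑ q, ∑ r, ∑ s,
        J p i * J q j * J r b * J s c * K p q r s : Matrix (Fin n) (Fin n) ℝ)) =
        fun i j => ∑ a, ∑ b, (J a i * J b j) • (Jᵀ * (show Matrix (Fin n) (Fin n) ℝ from K a b) * J) := by
      funext i j
      ext b c
      simp only [Matrix.sum_apply, Matrix.smul_apply, smul_eq_mul]
      refine Finset.sum_congr rfl fun p _ => Finset.sum_congr rfl fun q _ => ?_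
      refine Eq.trans ?_ (congrArg (fun z => J p i * J q j * z) (conj_apply J (K p q) b c).symm)
      simp only [Finset.mul_sum]
      refine Finset.sum_congr rfl fun r _ => Finset.sum_congr rfl fun s _ => ?_
      ring
    have e2 : (fun a => (fun j k => ∑ p, ∑ q, ∑ r, J p a * J q j * J r k * R p q r :
        Matrix (Fin n) (Fin n) ℝ)) =
        fun i => ∑ a, J a i • (Jᵀ * (show Matrix (Fin n) (Fin n) ℝ from R a) * J) := by
      funext i
      ext b c
      simp only [Matrix.sum_apply, Matrix.smul_apply, smul_eq_mul]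
      refine Finset.sum_congr rfl fun p _ => ?_
      refine Eq.trans ?_ (congrArg (fun z => J p i * z) (conj_apply J (R p) b c).symm)
      simp only [Finset.mul_sum]
      refine Finset.sum_congr rfl fun r _ => Finset.sum_congr rfl fun s _ => ?_
      ring
    have e3 : (fun i j => S.ofE (∑ p, ∑ q, (J p i * J q j) • F p q)) =
        fun i j => ∑ p, ∑ q, (J p i * J q j) • S.ofE (F p q) := by
      funext i j
      simp only [ofE_fsum, ofE_rsmul]
    have e4 : (fun a i j => S.ofE (∑ p, ∑ q, ∑ r, (J p a * J q i * J r j) • D p q r)) =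
        fun k i j => ∑ c, ∑ a, ∑ b, (J c k * J a i * J b j) • S.ofE (D c a b) := by
      funext a i j
      simp only [ofE_fsum, ofE_rsmul]
    have h := hΦ.cov G (fun i j => K i j) (fun a => R a) (fun i j => S.ofE (F i j))
      (fun a i j => S.ofE (D a i j)) J hG hJ
    have h' := congrFun (congrFun h j) k
    rw [conj_apply, ← e1, ← e2, ← e3, ← e4] at h'
    exact h'
  lip := by
    intro G K R F D hG
    have hx₀S : bv G K R F D ∈ {x : BV n N | Matrix.PosDef (fun i j => (x i j).1)} := hG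
    choose C T hT hlip using fun j k => hΦ.lip j k hx₀S
    have ht : (⋂ j, ⋂ k, T j k) ∈ 𝓝[{x : BV n N | Matrix.PosDef (fun i j => (x i j).1)}]
        (bv G K R F D) :=
      Filter.iInter_mem.2 fun j => Filter.iInter_mem.2 fun k => hT j k
    obtain ⟨ε, hε, hball⟩ := Metric.mem_nhdsWithin_iff.1 ht
    refine ⟨∑ j, ∑ k, (C j k : ℝ), ε / 2, by positivity, ?_⟩
    intro G₁ G₂ K₁ K₂ R₁ R₂ F₁ F₂ D₁ D₂ hG₁ hG₂ g₁ g₂ k₁ k₂ r₁ r₂ f₁ f₂ d₁ d₂ t hg hk hr hf hd i j
    have ht0 : 0 ≤ t := (abs_nonneg _).trans (hg i j)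
    have mem : ∀ (G' : Matrix (Fin n) (Fin n) ℝ) (K' : Fin n → Fin n → Fin n → Fin n → ℝ)
        (R' : Fin n → Fin n → Fin n → ℝ) (F' : Fin n → Fin n → EndF N)
        (D' : Fin n → Fin n → Fin n → EndF N), G'.PosDef → (∀ i j, |G' i j - G i j| < ε / 2) →
        (∀ i j b c, |K' i j b c - K i j b c| < ε / 2) → (∀ a j k, |R' a j k - R a j k| < ε / 2) →
        (∀ i j, ‖F' i j - F i j‖ < ε / 2) → (∀ a i j, ‖D' a i j - D a i j‖ < ε / 2) →
        bv G' K' R' F' D' ∈ T i j := by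
      intro G' K' R' F' D' hG' a b c d e
      refine Set.mem_iInter.1 (Set.mem_iInter.1 (hball ⟨?_, hG'⟩) i) j
      rw [Metric.mem_ball]
      refine (bv_dist (by positivity) (fun i j => (a i j).le) (fun i j k l => (b i j k l).le)
        (fun i j k => (c i j k).le) (fun i j => (d i j).le) fun i j k => (e i j k).le).trans_lt ?_
      linarith
    have h1 := (hlip i j).dist_le_mul _ (mem G₁ K₁ R₁ F₁ D₁ hG₁ g₁ k₁ r₁ f₁ d₁) _
      (mem G₂ K₂ R₂ F₂ D₂ hG₂ g₂ k₂ r₂ f₂ d₂)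
    have h2 := bv_dist ht0 hg hk hr hf hd
    have h3 := (h1.trans (mul_le_mul_of_nonneg_left h2 (C i j).2))
    refine h3.trans (mul_le_mul_of_nonneg_right ?_ ht0)
    have q1 : (C i j : ℝ) ≤ ∑ k, (C i k : ℝ) :=
      Finset.single_le_sum (f := fun k => (C i k : ℝ)) (fun k _ => (C i k).2) (Finset.mem_univ j)
    have q2 : ∑ k, (C i k : ℝ) ≤ ∑ j, ∑ k, (C j k : ℝ) :=
      Finset.single_le_sum (f := fun j => ∑ k, (C j k : ℝ))
        (fun j _ => Finset.sum_nonneg fun k _ => (C j k).2) (Finset.mem_univ i)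
    exact q1.trans q2

/-- the right hand side in a unitary frame -/
theorem rhs_frame {Φ : Rhs n N} (hΦ : Natural4 Φ) {G : Matrix (Fin n) (Fin n) ℝ} (hG : G.PosDef)
    (K : Fin n → Fin n → Matrix (Fin n) (Fin n) ℝ) (R : Fin n → Matrix (Fin n) (Fin n) ℝ)
    (F : Fin n → Fin n → Matrix (Fin N) (Fin N) ℂ)
    (D : Fin n → Fin n → Fin n → Matrix (Fin N) (Fin N) ℂ) {T : EndF N} (hT : IsUnit T)
    (hTT : ContinuousLinearMap.adjoint T * T = 1) :
    (rhsOf hΦ).f G (fun i j b c => K i j b c) (fun a j k => R a j k)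
      (fun a b => T * S.toE (F a b) * Ring.inverse T)
      (fun c a b => T * S.toE (D c a b) * Ring.inverse T) = Φ G K R F D := by
  have hAA : (S.ofE T)ᴴ * S.ofE T = 1 := by
    apply S.toE_inj
    rw [S.toE_mul, S.toE_star, S.toE_ofE, hTT, S.toE_one]
  have hAA' : S.ofE T * (S.ofE T)ᴴ = 1 := mul_eq_one_comm.1 hAA
  have hinv : Ring.inverse T = S.toE ((S.ofE T)ᴴ) := by
    have e0 : T * S.toE ((S.ofE T)ᴴ) = 1 := by
      conv_lhs => rw [← S.toE_ofE T]
      rw [← S.toE_mul, S.toE_ofE, hAA', S.toE_one]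
    calc Ring.inverse T = Ring.inverse T * (T * S.toE ((S.ofE T)ᴴ)) := by rw [e0, mul_one]
      _ = (Ring.inverse T * T) * S.toE ((S.ofE T)ᴴ) := by rw [mul_assoc]
      _ = _ := by rw [Ring.inverse_mul_cancel _ hT, one_mul]
  set U : Matrix (Fin N) (Fin N) ℂ := (S.ofE T)ᴴ with hU
  have hUT : S.ofE T = Uᴴ := by rw [hU, Matrix.conjTranspose_conjTranspose]
  have hc : ∀ X : Matrix (Fin N) (Fin N) ℂ, S.ofE (T * S.toE X * Ring.inverse T) = Uᴴ * X * U := by
    intro X
    rw [hinv, ofE_mul, ofE_mul, S.ofE_toE, S.ofE_toE, hUT]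
  have hUU : Uᴴ * U = 1 := by rw [← hUT]; exact hAA'
  have e1 : (rhsOf hΦ).f G (fun i j b c => K i j b c) (fun a j k => R a j k)
      (fun a b => T * S.toE (F a b) * Ring.inverse T)
      (fun c a b => T * S.toE (D c a b) * Ring.inverse T) =
      Φ G K R (fun a b => S.ofE (T * S.toE (F a b) * Ring.inverse T))
        (fun c a b => S.ofE (T * S.toE (D c a b) * Ring.inverse T)) := rfl
  rw [e1]
  simp only [hc]
  exact hΦ.inv G K R F D U hG hUU

end Vale.Agent.P088.B
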