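import Vale.Agent.P088.H4.Bd4

/-!
# P088, fourth order class: bridge of the equations
-/

open Manifold MeasureTheory Set Filter Topology
open scoped ContDiff Matrix

noncomputable section

namespace Vale.Agent.P088.B

universe u

variable {n N : ℕ} [NeZero n]

open Vale.Agent.P088.EYM

section Local

variable {D : Set (E n)} {g : E n → Matrix (Fin n) (Fin n) ℝ} {g' : V n → Matrix (Fin n) (Fin n) ℝ}

theorem d4_dj {K : Type*} [RCLike K] (hD : RelOpen D) {f : V n → K} {φ : E n → K}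
    (hφ : ContDiffOn ℝ ∞ φ D) (h : ∀ z ∈ D, f (WithLp.ofLp z) = φ z) {y : E n} (hy : y ∈ D)
    (j : Fin n) : dj f (WithLp.ofLp y) j = pd j φ y := by
  have hy0 : (0 : ℝ) ≤ (WithLp.ofLp y) 0 := hD.subset hy
  rw [dj_old f hy0 j]
  exact brEq_dj hD hφ h hy j

theorem d4_chris (hD : RelOpen D) (hg : ∀ i j, ContDiffOn ℝ ∞ (fun x => g x i j) D)
    (h : ∀ z ∈ D, g' (WithLp.ofLp z) = g z) (k i j : Fin n) {y : E n} (hy : y ∈ D) :
    chris g' k i j (WithLp.ofLp y) = chr g k i j y := by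
  have hy0 : (0 : ℝ) ≤ (WithLp.ofLp y) 0 := hD.subset hy
  rw [brst1_chris g' k i j hy0]
  exact brEq_chris hD hg h k i j hy

theorem d4_curv (hD : RelOpen D) (hg : ∀ i j, ContDiffOn ℝ ∞ (fun x => g x i j) D)
    (hp : ∀ x ∈ D, (g x).PosDef) (h : ∀ z ∈ D, g' (WithLp.ofLp z) = g z) (i j b c : Fin n)
    {y : E n} (hy : y ∈ D) :
    curv (lc g') i j (WithLp.ofLp y) b c = pd i (chr g b j c) y - pd j (chr g b i c) y +
      ∑ m, (chr g b i m y * chr g m j c y - chr g b j m y * chr g m i c y) := by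
  have h1 : ∀ a b c d : Fin n, dM (lc g' a) (WithLp.ofLp y) d b c = pd d (chr g b a c) y :=
    fun a b c d => d4_dj hD (brEq_chr_smooth hD hg hp b a c)
      (fun z hz => d4_chris hD hg h b a c hz) hy d
  have h2 : ∀ a b c : Fin n, lc g' a (WithLp.ofLp y) b c = chr g b a c y :=
    fun a b c => d4_chris hD hg h b a c hy
  unfold curv
  rw [Ring.lie_def, Matrix.add_apply, Matrix.sub_apply, Matrix.sub_apply, Matrix.mul_apply,
    Matrix.mul_apply, h1, h1, ← Finset.sum_sub_distrib]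
  simp only [h2]

theorem d4_ric (hD : RelOpen D) (hg : ∀ i j, ContDiffOn ℝ ∞ (fun x => g x i j) D)
    (hp : ∀ x ∈ D, (g x).PosDef) (h : ∀ z ∈ D, g' (WithLp.ofLp z) = g z) (j k : Fin n)
    {y : E n} (hy : y ∈ D) : Ric g' (WithLp.ofLp y) j k = ric g j k y := by
  unfold Ric ric
  exact Finset.sum_congr rfl fun i _ => d4_curv hD hg hp h i j i k hy

theorem d4_rm (hD : RelOpen D) (hg : ∀ i j, ContDiffOn ℝ ∞ (fun x => g x i j) D)
    (hp : ∀ x ∈ D, (g x).PosDef) (h : ∀ z ∈ D, g' (WithLp.ofLp z) = g z) (i j b c : Fin n)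
    {y : E n} (hy : y ∈ D) : Rm g' i j (WithLp.ofLp y) b c = H.rm g i j b c y := by
  unfold Rm H.rm
  rw [Matrix.mul_apply]
  refine Finset.sum_congr rfl fun l _ => ?_
  rw [h y hy, d4_curv hD hg hp h i j l c hy]

theorem d4_smul_smooth {f f' : E n → ℝ} (hf : ContDiffOn ℝ ∞ f D) (hf' : ContDiffOn ℝ ∞ f' D) :
    ContDiffOn ℝ ∞ (fun x => f x * f' x) D := hf.mul hf'

theorem d4_ric_smooth (hD : RelOpen D) (hg : ∀ i j, ContDiffOn ℝ ∞ (fun x => g x i j) D)
    (hp : ∀ x ∈ D, (g x).PosDef) (j k : Fin n) : ContDiffOn ℝ ∞ (ric g j k) D := by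
  have hc := brEq_chr_smooth hD hg hp
  unfold ric
  refine ContDiffOn.sum fun i _ => ?_
  refine ((hD.pd_smooth (hc i j k) i).sub (hD.pd_smooth (hc i i k) j)).add ?_
  exact ContDiffOn.sum fun l _ => ((hc i i l).mul (hc l j k)).sub ((hc i j l).mul (hc l i k))

theorem d4_dric_smooth (hD : RelOpen D) (hg : ∀ i j, ContDiffOn ℝ ∞ (fun x => g x i j) D)
    (hp : ∀ x ∈ D, (g x).PosDef) (a j k : Fin n) : ContDiffOn ℝ ∞ (H.dric g a j k) D := by
  have hc := brEq_chr_smooth hD hg hp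
  have hr := d4_ric_smooth hD hg hp
  unfold H.dric H.nab2
  refine (hD.pd_smooth (hr j k) a).sub (ContDiffOn.sum fun l _ => ?_)
  exact ((hc l a j).mul (hr l k)).add ((hc l a k).mul (hr j l))

theorem d4_cd (hD : RelOpen D) (hg : ∀ i j, ContDiffOn ℝ ∞ (fun x => g x i j) D)
    (hp : ∀ x ∈ D, (g x).PosDef) (h : ∀ z ∈ D, g' (WithLp.ofLp z) = g z) (a j k : Fin n)
    {y : E n} (hy : y ∈ D) :
    cd g' (Ric g') a (WithLp.ofLp y) j k = H.dric g a j k y := by
  have h1 : dM (Ric g') (WithLp.ofLp y) a j k = pd a (ric g j k) y :=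
    d4_dj hD (d4_ric_smooth hD hg hp j k) (fun z hz => d4_ric hD hg hp h j k hz) hy a
  have h2 : ∀ a b c : Fin n, lc g' a (WithLp.ofLp y) b c = chr g b a c y :=
    fun a b c => d4_chris hD hg h b a c hy
  unfold cd H.dric H.nab2
  rw [Matrix.sub_apply, Matrix.sub_apply, Matrix.mul_apply, Matrix.mul_apply, h1]
  simp only [Matrix.transpose_apply, h2, d4_ric hD hg hp h _ _ hy]
  rw [Finset.sum_add_distrib, ← sub_sub]
  congr 1
  exact Finset.sum_congr rfl fun l _ => mul_comm _ _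

theorem d4_cdd (hD : RelOpen D) (hg : ∀ i j, ContDiffOn ℝ ∞ (fun x => g x i j) D)
    (hp : ∀ x ∈ D, (g x).PosDef) (h : ∀ z ∈ D, g' (WithLp.ofLp z) = g z) (a b j k : Fin n)
    {y : E n} (hy : y ∈ D) :
    cdd g' (Ric g') a b (WithLp.ofLp y) j k = H.nab3 g (H.dric g) a b j k y := by
  have h1 : dM (cd g' (Ric g') b) (WithLp.ofLp y) a j k = pd a (H.dric g b j k) y :=
    d4_dj hD (d4_dric_smooth hD hg hp b j k) (fun z hz => d4_cd hD hg hp h b j k hz) hy a
  have h2 : ∀ a b c : Fin n, lc g' a (WithLp.ofLp y) b c = chr g b a c y :=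
    fun a b c => d4_chris hD hg h b a c hy
  have h3 : ∀ a b c : Fin n, chris g' a b c (WithLp.ofLp y) = chr g a b c y :=
    fun a b c => d4_chris hD hg h a b c hy
  unfold cdd H.nab3
  rw [Matrix.sub_apply, Matrix.sub_apply, Matrix.sub_apply, Matrix.mul_apply, Matrix.mul_apply, h1,
    Matrix.sum_apply]
  simp only [Matrix.transpose_apply, h2, h3, d4_cd hD hg hp h _ _ _ hy, Matrix.smul_apply,
    smul_eq_mul, Finset.sum_add_distrib]
  have e : ∑ x, H.dric g b j x y * chr g x a k y = ∑ x, chr g x a k y * H.dric g b j x y :=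
    Finset.sum_congr rfl fun l _ => mul_comm _ _
  rw [e]
  ring

end Local

section Conn

variable {D : Set (E n)} {L : LD n N} {g' : V n → Matrix (Fin n) (Fin n) ℝ}
  {A : Fin n → V n → Matrix (Fin N) (Fin N) ℂ}

theorem d4_cur (hD : RelOpen D) (hB : ∀ j, ContDiffOn ℝ ∞ (L.B j) D)
    (h : ∀ j, ∀ z ∈ D, S.toE (A j (WithLp.ofLp z)) = L.B j z) (i j : Fin n) {y : E n}
    (hy : y ∈ D) : S.toE (curv A i j (WithLp.ofLp y)) = cur L.B i j y := by
  have hy0 : (0 : ℝ) ≤ (WithLp.ofLp y) 0 := hD.subset hy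
  rw [brst1_curv A i j hy0]
  exact brEq_curv hD hB h i j hy

theorem d4_cdF (hD : RelOpen D) (hg : ∀ i j, ContDiffOn ℝ ∞ (fun x => L.g x i j) D)
    (hB : ∀ j, ContDiffOn ℝ ∞ (L.B j) D) (hg' : ∀ z ∈ D, g' (WithLp.ofLp z) = L.g z)
    (h : ∀ j, ∀ z ∈ D, S.toE (A j (WithLp.ofLp z)) = L.B j z) (a i j : Fin n) {y : E n}
    (hy : y ∈ D) : S.toE (cdF g' A a i j (WithLp.ofLp y)) = H.nabF L a i j y := by
  have hy0 : (0 : ℝ) ≤ (WithLp.ofLp y) 0 := hD.subset hy
  have h1 : S.toE (dM (curv A i j) (WithLp.ofLp y) a) = pd a (cur L.B i j) y := by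
    rw [brst1_dM _ hy0]
    exact brEq_dM hD (brEq_cur_smooth hD hB i j) (fun z hz => d4_cur hD hB h i j hz) hy a
  unfold cdF H.nabF
  rw [Ring.lie_def, brEq_toE_sub, S.toE_add, brEq_toE_sub, S.toE_mul, S.toE_mul, h1, h a y hy,
    d4_cur hD hB h i j hy, brEq_toE_fsum]
  congr 1
  refine Finset.sum_congr rfl fun l _ => ?_
  rw [S.toE_add, brEq_toE_rsmul, brEq_toE_rsmul, d4_cur hD hB h l j hy, d4_cur hD hB h i l hy,
    d4_chris hD hg hg' l a i hy, d4_chris hD hg hg' l a j hy]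

theorem d4_ym (hD : RelOpen D) (hg : ∀ i j, ContDiffOn ℝ ∞ (fun x => L.g x i j) D)
    (hB : ∀ j, ContDiffOn ℝ ∞ (L.B j) D) (hg' : ∀ z ∈ D, g' (WithLp.ofLp z) = L.g z)
    (h : ∀ j, ∀ z ∈ D, S.toE (A j (WithLp.ofLp z)) = L.B j z) (k : Fin n) {y : E n}
    (hy : y ∈ D) : S.toE (∑ i, ∑ j, (g' (WithLp.ofLp y))⁻¹ i j • cdF g' A i j k (WithLp.ofLp y)) =
      ymE L k y := by
  unfold ymE
  rw [brEq_toE_fsum]
  refine Finset.sum_congr rfl fun i _ => ?_
  rw [brEq_toE_fsum]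
  refine Finset.sum_congr rfl fun j _ => ?_
  rw [brEq_toE_rsmul, hg' y hy, d4_cdF hD hg hB hg' h i j k hy]
  unfold H.nabF
  congr 1
  abel

end Conn

variable {M : Type u} [TopologicalSpace M] [ChartedSpace (EuclideanHalfSpace n) M]
  [IsManifold (𝓡∂ n) ∞ M]

/-- The equations on `W`, from the concrete to the abstract form. -/
theorem bridge4_on {Φ : Rhs n N} (hΦ : Natural4 Φ) {W : Set M} {P : Pair (at_ n M) N}
    (h : Sat4 Φ W P) (p : M) :
    H.Eq4 (rhsOf hΦ) (locM (S.gOf (conv P)) (S.connOf (conv P)) p)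
      (tg n p ∩ (xc n p).symm ⁻¹' W) := by
  set L := locM (S.gOf (conv P)) (S.connOf (conv P)) p with hL
  have hD := S.brEq_relOpen (n := n) p
  have hsrc : ∀ z ∈ tg n p, (extChartAt (𝓡∂ n) p).symm z ∈ S.src n p := by
    intro z hz
    rw [S.src_eq]
    exact (extChartAt (𝓡∂ n) p).map_target hz
  have hgs : ∀ i j, ContDiffOn ℝ ∞ (fun x => L.g x i j) (tg n p) :=
    fun i j => contDiffOn_gram (S.gOf (conv P)) p i j
  have hgp : ∀ z ∈ tg n p, (L.g z).PosDef :=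
    fun z hz => gram_posDef (S.gOf (conv P)) ((extChartAt (𝓡∂ n) p).map_target hz)
  have hBs : ∀ j, ContDiffOn ℝ ∞ (L.B j) (tg n p) := fun i =>
    contDiffOn_lu_of_contMDiffOn
      (u := fun x => (S.connOf (conv P)).form x (coordVec (𝓡∂ n) p x i))
      ((S.connOf (conv P)).smooth p i)
  have hgB : gch (at_ n M) P.g p = S.gch (conv P) p := by
    funext y
    exact at_gch P.g p y
  have hAB : ach (at_ n M) P.A p = S.ach (conv P) p := by
    funext j y
    exact at_ach P.A p j y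
  have hg' : ∀ z ∈ tg n p, S.gch (conv P) p (WithLp.ofLp z) = L.g z := by
    intro z hz
    show S.inChart n (conv P).mat p (S.pt n p (WithLp.ofLp z)) =
      gram (S.gOf (conv P)) p ((extChartAt (𝓡∂ n) p).symm z)
    rw [S.pt_eq hz, S.gram_gOf (conv P) (hsrc z hz)]
  have hB' : ∀ j, ∀ z ∈ tg n p, S.toE (S.ach (conv P) p j (WithLp.ofLp z)) = L.B j z := by
    intro j z hz
    show S.toE (∑ i, S.jac n p (S.pt n p (WithLp.ofLp z)) i j •
        (conv P).co (S.pt n p (WithLp.ofLp z)) i) =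
      S.formOf ((conv P).co ((extChartAt (𝓡∂ n) p).symm z))
        (cc (𝓡∂ n) p ((extChartAt (𝓡∂ n) p).symm z) (es n j))
    rw [S.pt_eq hz, S.formOf_apply, S.toE_rsum]
    simp only [S.jac_eq (hsrc z hz)]
  have hpt : ∀ y ∈ tg n p, (at_ n M).ch p ((extChartAt (𝓡∂ n) p).symm y) = WithLp.ofLp y := by
    intro y hy
    show S.ch n p ((extChartAt (𝓡∂ n) p).symm y) = WithLp.ofLp y
    rw [S.ch_eq, (extChartAt (𝓡∂ n) p).right_inv hy]
  refine ⟨fun y hyW S' hS' hSh j k => ?_, fun y hyW k => ?_⟩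
  · have hy := hyW.1
    have h1 := (h p _ ⟨hsrc y hy, hyW.2⟩).1
    rw [hpt y hy, hgB, hAB] at h1
    have h2 := congrFun (congrFun h1 j) k
    have hl : (∑ a, ∑ b, (S.gch (conv P) p (WithLp.ofLp y))⁻¹ a b •
        cdd (S.gch (conv P) p) (Ric (S.gch (conv P) p)) a b (WithLp.ofLp y) :
          Matrix (Fin n) (Fin n) ℝ) j k = H.lapRic L.g j k y := by
      unfold H.lapRic
      simp only [Matrix.sum_apply, Matrix.smul_apply, smul_eq_mul, hg' y hy]
      exact Finset.sum_congr rfl fun a _ => Finset.sum_congr rfl fun b _ => by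
        rw [d4_cdd hD hgs hgp hg' a b j k hy]
    rw [hl] at h2
    rw [h2]
    have hh : L.h y = 1 := rfl
    rw [hh] at hSh
    have hcur : G.curS L S' y = fun a b =>
        S' * S.toE (curv (S.ach (conv P) p) a b (WithLp.ofLp y)) * Ring.inverse S' := by
      funext a b
      unfold G.curS
      rw [d4_cur hD hBs hB' a b hy]
    have hnab : H.nabS L S' y = fun c a b =>
        S' * S.toE (cdF (S.gch (conv P) p) (S.ach (conv P) p) c a b (WithLp.ofLp y)) *
          Ring.inverse S' := by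
      funext c a b
      unfold H.nabS
      rw [d4_cdF hD hgs hBs hg' hB' c a b hy]
    have hrm : (fun i j b c => H.rm L.g i j b c y) =
        fun i j b c => Rm (S.gch (conv P) p) i j (WithLp.ofLp y) b c := by
      funext i j b c
      exact (d4_rm hD hgs hgp hg' i j b c hy).symm
    have hdr : (fun a j k => H.dric L.g a j k y) =
        fun a j k => cd (S.gch (conv P) p) (Ric (S.gch (conv P) p)) a (WithLp.ofLp y) j k := by
      funext a j k
      exact (d4_cd hD hgs hgp hg' a j k hy).symm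
    rw [hcur, hnab, hrm, hdr, rhs_frame hΦ (hgp y hy) _ _ _ _ hS' hSh, hg' y hy]
  · have hy := hyW.1
    have h1 := (h p _ ⟨hsrc y hy, hyW.2⟩).2 k
    rw [hpt y hy, hgB, hAB] at h1
    rw [← d4_ym hD hgs hBs hg' hB' k hy, h1]
    exact map_zero (Matrix.toEuclideanCLM (n := Fin N) (𝕜 := ℂ))

theorem bridge4 {Φ : Rhs n N} (hΦ : Natural4 Φ) {P : Pair (at_ n M) N} (h : Sat4 Φ univ P)
    (p : M) : H.Eq4 (rhsOf hΦ) (locM (S.gOf (conv P)) (S.connOf (conv P)) p) (tg n p) := by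
  have h1 := bridge4_on (W := univ) hΦ h p
  exact ⟨fun y hy => h1.lap y ⟨hy, mem_univ _⟩, fun y hy => h1.ym y ⟨hy, mem_univ _⟩⟩

end Vale.Agent.P088.B
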