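import Vale.Agent.P088.H4.Spec

/-!
# P088, fourth order class: harmonic curvature, constant scalar curvature Kähler, Bach flat
(definitions and statements of the blocks, in coordinates)
-/

open MeasureTheory Set Filter Topology
open scoped ContDiff

noncomputable section

namespace Vale.Agent.P088.EYM.H

variable {n : ℕ} [NeZero n]

/-- `R_{ij}{}^l{}_c`, that is `[∇_i, ∇_j] V^l = R_{ij}{}^l{}_c V^c`. -/
def rup (g : E n → Matrix (Fin n) (Fin n) ℝ) (i j l c : Fin n) (x : E n) : ℝ :=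
  pd i (chr g l j c) x - pd j (chr g l i c) x +
    ∑ m, (chr g l i m x * chr g m j c x - chr g l j m x * chr g m i c x)

/-- the scalar curvature -/
def sca (g : E n → Matrix (Fin n) (Fin n) ℝ) (x : E n) : ℝ :=
  ∑ j, ∑ k, (g x)⁻¹ j k * ric g j k x

/-- `-g^{ab} (R_{aj}{}^l{}_b R_{lk} + R_{aj}{}^l{}_k R_{bl}) = R_j^l R_{lk} - R_{ajlk} R^{al}` -/
def comR (g : E n → Matrix (Fin n) (Fin n) ℝ) (j k : Fin n) (x : E n) : ℝ :=
  -∑ a, ∑ b, (g x)⁻¹ a b *
    ∑ l, (rup g a j l b x * ric g l k x + rup g a j l k x * ric g b l x)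

/-- the Schouten tensor -/
def sch (g : E n → Matrix (Fin n) (Fin n) ℝ) (j k : Fin n) (x : E n) : ℝ :=
  (ric g j k x - sca g x / (2 * ((n : ℝ) - 1)) * g x j k) / ((n : ℝ) - 2)

/-- the Weyl tensor `W_{ijbc}` -/
def wey (g : E n → Matrix (Fin n) (Fin n) ℝ) (i j b c : Fin n) (x : E n) : ℝ :=
  rm g i j b c x - (sch g i b x * g x j c + g x i b * sch g j c x - sch g j b x * g x i c -
    g x j b * sch g i c x)

/-- `P^{il} W_{ijlk}` -/
def pw (g : E n → Matrix (Fin n) (Fin n) ℝ) (j k : Fin n) (x : E n) : ℝ :=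
  ∑ a, ∑ b, ∑ i, ∑ l, (g x)⁻¹ a i * (g x)⁻¹ b l * sch g a b x * wey g i j l k x

/-- the Bach tensor `B_{jk} = ∇^i ∇_i P_{jk} - ∇^i ∇_j P_{ik} + P^{il} W_{ijlk}` -/
def bach (g : E n → Matrix (Fin n) (Fin n) ℝ) (j k : Fin n) (x : E n) : ℝ :=
  (∑ a, ∑ b, (g x)⁻¹ a b * (nab3 g (fun i j k => nab2 g (sch g) i j k) a b j k x -
    nab3 g (fun i j k => nab2 g (sch g) i j k) a j b k x)) + pw g j k x

/-- `J` is a parallel orthogonal complex structure, `J i j = J^i_j`. -/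
structure Kah (g J : E n → Matrix (Fin n) (Fin n) ℝ) (D : Set (E n)) : Prop where
  sm : ∀ i j, ContDiffOn ℝ ∞ (fun x => J x i j) D
  sq : ∀ x ∈ D, J x * J x = -1
  orth : ∀ x ∈ D, (J x).transpose * g x * J x = g x
  par : ∀ x ∈ D, ∀ a i j, pd a (fun y => J y i j) x +
    ∑ l, (chr g i a l x * J x l j - chr g l a j x * J x i l) = 0

/-! ### Statements -/

/-- The Ricci identity for 2-tensors. -/
def RicciId_statement : Prop :=
  ∀ (n : ℕ) [NeZero n] (D : Set (E n)) (g : E n → Matrix (Fin n) (Fin n) ℝ)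
    (T : Fin n → Fin n → E n → ℝ), RelOpen D → GOk D g → (∀ j k, ContDiffOn ℝ ∞ (T j k) D) →
    ∀ x ∈ D, ∀ a b j k, nab3 g (fun i j k => nab2 g T i j k) a b j k x -
      nab3 g (fun i j k => nab2 g T i j k) b a j k x =
      -∑ l, (rup g a b l j x * T l k x + rup g a b l k x * T j l x)

/-- The contracted second Bianchi identity `2 g^{ab} ∇_a R_{bk} = ∂_k s`. -/
def CBianchi_statement : Prop :=
  ∀ (n : ℕ) [NeZero n] (D : Set (E n)) (g : E n → Matrix (Fin n) (Fin n) ℝ),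
    RelOpen D → GOk D g → ∀ x ∈ D, ∀ k,
    2 * ∑ a, ∑ b, (g x)⁻¹ a b * dric g a b k x = pd k (sca g) x

/-- Harmonic curvature. -/
def HarmLap_statement : Prop :=
  ∀ (n : ℕ) [NeZero n] (D : Set (E n)) (g : E n → Matrix (Fin n) (Fin n) ℝ),
    RelOpen D → GOk D g → (∀ x ∈ D, ∀ a j k, dric g a j k x = dric g j a k x) →
    ∀ x ∈ D, ∀ j k, lapRic g j k x = comR g j k x

/-- Kähler metrics with constant scalar curvature. -/
def KahLap_statement : Prop :=
  ∀ (n : ℕ) [NeZero n] (D : Set (E n)) (g J : E n → Matrix (Fin n) (Fin n) ℝ) (s : ℝ),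
    RelOpen D → GOk D g → Kah g J D → (∀ x ∈ D, sca g x = s) →
    ∀ x ∈ D, ∀ j k, lapRic g j k x = 2 * comR g j k x

/-- Bach flat metrics with constant scalar curvature. -/
def BachLap_statement : Prop :=
  ∀ (n : ℕ) [NeZero n] (D : Set (E n)) (g : E n → Matrix (Fin n) (Fin n) ℝ) (s : ℝ), 3 ≤ n →
    RelOpen D → GOk D g → (∀ x ∈ D, sca g x = s) → (∀ x ∈ D, ∀ j k, bach g j k x = 0) →
    ∀ x ∈ D, ∀ j k, lapRic g j k x = comR g j k x - ((n : ℝ) - 2) * pw g j k x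

end Vale.Agent.P088.EYM.H

end
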