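import Vale.Agent.P088.H4.St4

/-!
# P088: harmonic curvature, Kähler metrics, Bach flat metrics
-/

open Manifold MeasureTheory Set
open scoped ContDiff Matrix

noncomputable section

namespace Vale.Agent.P088.B

universe u

variable {n N : ℕ} {M : Type u} {Z : At n M}

/-- The scalar curvature `s = g^{jk} R_{jk}`. -/
def Sca (g : V n → Matrix (Fin n) (Fin n) ℝ) (y : V n) : ℝ :=
  ∑ j, ∑ k, (g y)⁻¹ j k * Ric g y j k

/-- The Schouten tensor `P = (Ric - s / (2 (n - 1)) g) / (n - 2)`. -/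
def Sch (g : V n → Matrix (Fin n) (Fin n) ℝ) (y : V n) : Matrix (Fin n) (Fin n) ℝ :=
  ((n : ℝ) - 2)⁻¹ • (Ric g y - (Sca g y / (2 * ((n : ℝ) - 1))) • g y)

/-- The Weyl tensor
`W_{ijbc} = R_{ijbc} - (P_{ib} g_{jc} + g_{ib} P_{jc} - P_{jb} g_{ic} - g_{jb} P_{ic})`. -/
def Wey (g : V n → Matrix (Fin n) (Fin n) ℝ) (i j : Fin n) (y : V n) :
    Matrix (Fin n) (Fin n) ℝ := fun b c =>
  Rm g i j y b c - (Sch g y i b * g y j c + g y i b * Sch g y j c - Sch g y j b * g y i c -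
    g y j b * Sch g y i c)

/-- The Bach tensor `B_{jk} = ∇^i ∇_i P_{jk} - ∇^i ∇_j P_{ik} + P^{il} W_{ijlk}`. -/
def Bach (g : V n → Matrix (Fin n) (Fin n) ℝ) (y : V n) : Matrix (Fin n) (Fin n) ℝ :=
  fun j k => (∑ a, ∑ b, (g y)⁻¹ a b * (cdd g (Sch g) a b y j k - cdd g (Sch g) a j y b k)) +
    ∑ a, ∑ b, ∑ i, ∑ l, (g y)⁻¹ a i * (g y)⁻¹ b l * Sch g y a b * Wey g i j y l k

/-- At the points of `W`, in every chart: `A` is a Yang-Mills connection, `d_A^* F = 0`. -/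
def YMOn (W : Set M) (P : Pair Z N) : Prop :=
  ∀ p, ∀ x ∈ Z.src p ∩ W, let g := gch Z P.g p; let y := Z.ch p x
    ∀ k, ∑ i, ∑ j, (g y)⁻¹ i j • cdF g (ach Z P.A p) i j k y = 0

/-- At the points of `W`, in every chart: `g` has harmonic curvature, `∇_a R_{jk} = ∇_j R_{ak}`. -/
def HarmOn (W : Set M) (P : Pair Z N) : Prop :=
  ∀ p, ∀ x ∈ Z.src p ∩ W, let g := gch Z P.g p; let y := Z.ch p x
    ∀ a j k, cd g (Ric g) a y j k = cd g (Ric g) j y a k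

/-- At the points of `W`: `g` is (locally) a Kähler metric, that is in every chart there is a
smooth field `J` of endomorphisms with `J² = -1`, `g(J, J) = g` and `∇ J = 0`; and the scalar
curvature is a constant. -/
def KahOn (W : Set M) (P : Pair Z N) : Prop :=
  ∃ s : ℝ, ∀ p, ∃ J : V n → Matrix (Fin n) (Fin n) ℝ,
    (∀ i j, Z.sm (Z.src p ∩ W) (fun x => (J (Z.ch p x) i j : ℂ))) ∧
    ∀ x ∈ Z.src p ∩ W, let g := gch Z P.g p; let y := Z.ch p x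
      Sca g y = s ∧ J y * J y = -1 ∧ (J y)ᵀ * g y * J y = g y ∧
      ∀ a, dM J y a + lc g a y * J y - J y * lc g a y = 0

/-- At the points of `W`, in every chart: the Bach tensor of `g` vanishes, and the scalar
curvature is a constant. -/
def BachOn (W : Set M) (P : Pair Z N) : Prop :=
  ∃ s : ℝ, ∀ p, ∀ x ∈ Z.src p ∩ W, let g := gch Z P.g p; let y := Z.ch p x
    Sca g y = s ∧ Bach g y = 0

/-- At the points of `W`, in every chart: `Ric = κ g + Φ(g, 0, 0, F, 0)`, where `F` is the curvature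
of `A`, and `A` is a Yang-Mills connection. -/
def CplOn (κ : ℝ) (Φ : Rhs n N) (W : Set M) (P : Pair Z N) : Prop :=
  YMOn W P ∧ ∀ p, ∀ x ∈ Z.src p ∩ W, let g := gch Z P.g p; let y := Z.ch p x
    Ric g y = κ • g y + Φ (g y) 0 0 (fun i j => curv (ach Z P.A p) i j y) 0

/-- `(g₁, A₁)` on `W₁` and `(g₂, A₂)` on `W₂` are solutions of the same natural system: there is a
natural `Φ` such that `g^{ab} ∇_a ∇_b R_{jk} = Φ_{jk}(g, Rm, ∇Ric, F, ∇F)` and `d_A^* F = 0` for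
both; or the connections are Yang-Mills and both metrics have harmonic curvature, or both are
(locally) Kähler metrics with constant scalar curvature, or both are Bach flat with constant scalar
curvature. -/
def Same4 {M₁ M₂ : Type u} {Z₁ : At n M₁} {Z₂ : At n M₂} (W₁ : Set M₁) (W₂ : Set M₂)
    (P : Pair Z₁ N) (Q : Pair Z₂ N) : Prop :=
  (∃ Φ : Rhs n N, Nat4 Φ ∧ Sat4 Φ W₁ P ∧ Sat4 Φ W₂ Q) ∨
    (YMOn W₁ P ∧ YMOn W₂ Q ∧
      (HarmOn W₁ P ∧ HarmOn W₂ Q ∨ KahOn W₁ P ∧ KahOn W₂ Q ∨ BachOn W₁ P ∧ BachOn W₂ Q))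

/-- As `Same4`, or: both pairs satisfy `Ric = κ_i g + C(g, F)`, `d_A^* F = 0`, with the same natural
coupling `C(g, F) = Φ(g, 0, 0, F, 0)` (for `C = 0`: Einstein metrics). -/
def Same {M₁ M₂ : Type u} {Z₁ : At n M₁} {Z₂ : At n M₂} (W₁ : Set M₁) (W₂ : Set M₂)
    (P : Pair Z₁ N) (Q : Pair Z₂ N) : Prop :=
  Same4 W₁ W₂ P Q ∨ ∃ (Φ : Rhs n N) (κ₁ κ₂ : ℝ), Nat4 Φ ∧ CplOn κ₁ Φ W₁ P ∧ CplOn κ₂ Φ W₂ Q

end Vale.Agent.P088.B
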