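import Vale.Agent.P088.H4.Bd5
import Vale.Agent.P088.H4.St5
import Vale.Agent.P088.H4.HDefs
import Vale.Agent.P088.H332.Loc1

/-!
# P088, fourth order class: bridge of the three geometric classes
-/

open Manifold MeasureTheory Set Filter Topology
open scoped ContDiff Matrix

noncomputable section

set_option linter.all false

namespace Vale.Agent.P088.B

universe u

variable {n N : ℕ} [NeZero n]

open Vale.Agent.P088.EYM

section Local

variable {D : Set (E n)} {g : E n → Matrix (Fin n) (Fin n) ℝ} {g' : V n → Matrix (Fin n) (Fin n) ℝ}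
  {T : Fin n → Fin n → E n → ℝ} {T' : V n → Matrix (Fin n) (Fin n) ℝ}

theorem d5_nab2_smooth (hD : RelOpen D) (hg : ∀ i j, ContDiffOn ℝ ∞ (fun x => g x i j) D)
    (hp : ∀ x ∈ D, (g x).PosDef) (hT : ∀ j k, ContDiffOn ℝ ∞ (T j k) D) (a j k : Fin n) :
    ContDiffOn ℝ ∞ (H.nab2 g T a j k) D := by
  have hc := brEq_chr_smooth hD hg hp
  unfold H.nab2
  refine (hD.pd_smooth (hT j k) a).sub (ContDiffOn.sum fun l _ => ?_)
  exact ((hc l a j).mul (hT l k)).add ((hc l a k).mul (hT j l))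

theorem d5_cd (hD : RelOpen D) (hg : ∀ i j, ContDiffOn ℝ ∞ (fun x => g x i j) D)
    (h : ∀ z ∈ D, g' (WithLp.ofLp z) = g z) (hT : ∀ j k, ContDiffOn ℝ ∞ (T j k) D)
    (hT' : ∀ z ∈ D, ∀ j k, T' (WithLp.ofLp z) j k = T j k z) (a j k : Fin n)
    {y : E n} (hy : y ∈ D) : cd g' T' a (WithLp.ofLp y) j k = H.nab2 g T a j k y := by
  have h1 : dM T' (WithLp.ofLp y) a j k = pd a (T j k) y :=
    d4_dj hD (hT j k) (fun z hz => hT' z hz j k) hy a
  have h2 : ∀ a b c : Fin n, lc g' a (WithLp.ofLp y) b c = chr g b a c y :=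
    fun a b c => d4_chris hD hg h b a c hy
  unfold cd H.nab2
  rw [Matrix.sub_apply, Matrix.sub_apply, Matrix.mul_apply, Matrix.mul_apply, h1]
  simp only [Matrix.transpose_apply, h2, hT' y hy]
  rw [Finset.sum_add_distrib, ← sub_sub]
  congr 1
  exact Finset.sum_congr rfl fun l _ => mul_comm _ _

theorem d5_cdd (hD : RelOpen D) (hg : ∀ i j, ContDiffOn ℝ ∞ (fun x => g x i j) D)
    (hp : ∀ x ∈ D, (g x).PosDef) (h : ∀ z ∈ D, g' (WithLp.ofLp z) = g z)
    (hT : ∀ j k, ContDiffOn ℝ ∞ (T j k) D)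
    (hT' : ∀ z ∈ D, ∀ j k, T' (WithLp.ofLp z) j k = T j k z) (a b j k : Fin n)
    {y : E n} (hy : y ∈ D) :
    cdd g' T' a b (WithLp.ofLp y) j k = H.nab3 g (fun i j k => H.nab2 g T i j k) a b j k y := by
  have h1 : dM (cd g' T' b) (WithLp.ofLp y) a j k = pd a (H.nab2 g T b j k) y :=
    d4_dj hD (d5_nab2_smooth hD hg hp hT b j k)
      (fun z hz => d5_cd hD hg h hT hT' b j k hz) hy a
  have h2 : ∀ a b c : Fin n, lc g' a (WithLp.ofLp y) b c = chr g b a c y :=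
    fun a b c => d4_chris hD hg h b a c hy
  have h3 : ∀ a b c : Fin n, chris g' a b c (WithLp.ofLp y) = chr g a b c y :=
    fun a b c => d4_chris hD hg h a b c hy
  unfold cdd H.nab3
  rw [Matrix.sub_apply, Matrix.sub_apply, Matrix.sub_apply, Matrix.mul_apply, Matrix.mul_apply, h1,
    Matrix.sum_apply]
  simp only [Matrix.transpose_apply, h2, h3, d5_cd hD hg h hT hT' _ _ _ hy, Matrix.smul_apply,
    smul_eq_mul, Finset.sum_add_distrib]
  have e : ∑ x, H.nab2 g T b j x y * chr g x a k y = ∑ x, chr g x a k y * H.nab2 g T b j x y :=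
    Finset.sum_congr rfl fun l _ => mul_comm _ _
  rw [e]
  ring

theorem d5_inv_smooth (hg : ∀ i j, ContDiffOn ℝ ∞ (fun x => g x i j) D)
    (hp : ∀ x ∈ D, (g x).PosDef) (i j : Fin n) :
    ContDiffOn ℝ ∞ (fun x => (g x)⁻¹ i j) D :=
  contDiffOn_inv_entry hg (fun y hy => (hp y hy).det_pos.ne') i j

theorem d5_sca (hD : RelOpen D) (hg : ∀ i j, ContDiffOn ℝ ∞ (fun x => g x i j) D)
    (hp : ∀ x ∈ D, (g x).PosDef) (h : ∀ z ∈ D, g' (WithLp.ofLp z) = g z)
    {y : E n} (hy : y ∈ D) : Sca g' (WithLp.ofLp y) = H.sca g y := by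
  unfold Sca H.sca
  refine Finset.sum_congr rfl fun j _ => Finset.sum_congr rfl fun k _ => ?_
  rw [h y hy, d4_ric hD hg hp h j k hy]

theorem d5_sca_smooth (hD : RelOpen D) (hg : ∀ i j, ContDiffOn ℝ ∞ (fun x => g x i j) D)
    (hp : ∀ x ∈ D, (g x).PosDef) : ContDiffOn ℝ ∞ (H.sca g) D := by
  unfold H.sca
  exact ContDiffOn.sum fun j _ => ContDiffOn.sum fun k _ =>
    (d5_inv_smooth hg hp j k).mul (d4_ric_smooth hD hg hp j k)

theorem d5_sch (hD : RelOpen D) (hg : ∀ i j, ContDiffOn ℝ ∞ (fun x => g x i j) D)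
    (hp : ∀ x ∈ D, (g x).PosDef) (h : ∀ z ∈ D, g' (WithLp.ofLp z) = g z) (j k : Fin n)
    {y : E n} (hy : y ∈ D) : Sch g' (WithLp.ofLp y) j k = H.sch g j k y := by
  unfold Sch H.sch
  rw [Matrix.smul_apply, Matrix.sub_apply, Matrix.smul_apply, smul_eq_mul, smul_eq_mul, h y hy,
    d4_ric hD hg hp h j k hy, d5_sca hD hg hp h hy]
  ring

theorem d5_sch_smooth (hD : RelOpen D) (hg : ∀ i j, ContDiffOn ℝ ∞ (fun x => g x i j) D)
    (hp : ∀ x ∈ D, (g x).PosDef) (j k : Fin n) : ContDiffOn ℝ ∞ (H.sch g j k) D := by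
  unfold H.sch
  exact ((d4_ric_smooth hD hg hp j k).sub
    (((d5_sca_smooth hD hg hp).div_const _).mul (hg j k))).div_const _

theorem d5_wey (hD : RelOpen D) (hg : ∀ i j, ContDiffOn ℝ ∞ (fun x => g x i j) D)
    (hp : ∀ x ∈ D, (g x).PosDef) (h : ∀ z ∈ D, g' (WithLp.ofLp z) = g z) (i j b c : Fin n)
    {y : E n} (hy : y ∈ D) : Wey g' i j (WithLp.ofLp y) b c = H.wey g i j b c y := by
  unfold Wey H.wey
  simp only [h y hy, d4_rm hD hg hp h _ _ _ _ hy, d5_sch hD hg hp h _ _ hy]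

theorem d5_bach (hD : RelOpen D) (hg : ∀ i j, ContDiffOn ℝ ∞ (fun x => g x i j) D)
    (hp : ∀ x ∈ D, (g x).PosDef) (h : ∀ z ∈ D, g' (WithLp.ofLp z) = g z) (j k : Fin n)
    {y : E n} (hy : y ∈ D) : Bach g' (WithLp.ofLp y) j k = H.bach g j k y := by
  have hs := d5_sch_smooth hD hg hp
  have hs' : ∀ z ∈ D, ∀ j k, Sch g' (WithLp.ofLp z) j k = H.sch g j k z :=
    fun z hz j k => d5_sch hD hg hp h j k hz
  unfold Bach H.bach H.pw
  simp only [h y hy, d5_cdd hD hg hp h hs hs' _ _ _ _ hy, hs' y hy, d5_wey hD hg hp h _ _ _ _ hy]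

end Local

variable {M : Type u} [TopologicalSpace M] [ChartedSpace (EuclideanHalfSpace n) M]
  [IsManifold (𝓡∂ n) ∞ M]

/-- The local metric of a pair. -/
abbrev gloc (P : Pair (at_ n M) N) (p : M) : E n → Matrix (Fin n) (Fin n) ℝ :=
  (locM (S.gOf (conv P)) (S.connOf (conv P)) p).g

theorem d5_rel {W : Set M} (hW : IsOpen W) (p : M) : RelOpen (tgW n W p) :=
  tgW_rel (fun p => S.brEq_relOpen (n := n) p) hW p

theorem d5_gsm (P : Pair (at_ n M) N) (p : M) (i j : Fin n) :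
    ContDiffOn ℝ ∞ (fun x => gloc P p x i j) (tg n p) := contDiffOn_gram (S.gOf (conv P)) p i j

theorem d5_gpos (P : Pair (at_ n M) N) (p : M) : ∀ z ∈ tg n p, (gloc P p z).PosDef :=
  fun z hz => gram_posDef (S.gOf (conv P)) ((extChartAt (𝓡∂ n) p).map_target hz)

theorem d5_src (p : M) : ∀ z ∈ tg n p, (xc n p).symm z ∈ (at_ n M).src p := by
  intro z hz
  show (extChartAt (𝓡∂ n) p).symm z ∈ S.src n p
  rw [S.src_eq]
  exact (extChartAt (𝓡∂ n) p).map_target hz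

theorem d5_pt (p : M) : ∀ y ∈ tg n p, (at_ n M).ch p ((xc n p).symm y) = WithLp.ofLp y := by
  intro y hy
  show S.ch n p ((extChartAt (𝓡∂ n) p).symm y) = WithLp.ofLp y
  rw [S.ch_eq, (extChartAt (𝓡∂ n) p).right_inv hy]

theorem d5_mem {p x : M} (hx : x ∈ (at_ n M).src p) :
    xc n p x ∈ tg n p ∧ (xc n p).symm (xc n p x) = x ∧
      WithLp.ofLp (xc n p x) = (at_ n M).ch p x := by
  have hx' : x ∈ (extChartAt (𝓡∂ n) p).source := by
    rw [← S.src_eq]
    exact hx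
  exact ⟨(extChartAt (𝓡∂ n) p).map_source hx', (extChartAt (𝓡∂ n) p).left_inv hx',
    (S.ch_eq p x).symm⟩

theorem d5_g (P : Pair (at_ n M) N) (p : M) :
    ∀ z ∈ tg n p, gch (at_ n M) P.g p (WithLp.ofLp z) = gloc P p z := by
  intro z hz
  have hgB : gch (at_ n M) P.g p = S.gch (conv P) p := by
    funext y
    exact at_gch P.g p y
  rw [hgB]
  show S.inChart n (conv P).mat p (S.pt n p (WithLp.ofLp z)) =
    gram (S.gOf (conv P)) p ((extChartAt (𝓡∂ n) p).symm z)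
  rw [S.pt_eq hz, S.gram_gOf (conv P) (d5_src p z hz)]

theorem d5_ok {W : Set M} (P : Pair (at_ n M) N) (p : M) : GOk (tgW n W p) (gloc P p) where
  smG := fun i j => (d5_gsm P p i j).mono (tgW_sub W p)
  symm := fun x hx i j => by
    have h := ((d5_gpos P p x hx.1).isHermitian.apply i j)
    rw [← h]
    rfl
  pos := fun x hx => d5_gpos P p x hx.1

/-- Codazzi, from `HarmOn`. -/
theorem harm_loc {W : Set M} (hW : IsOpen W) {P : Pair (at_ n M) N} (h : HarmOn W P) (p : M) :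
    ∀ x ∈ tgW n W p, ∀ a j k, H.dric (gloc P p) a j k x = H.dric (gloc P p) j a k x := by
  intro x hx a j k
  have hD := d5_rel (n := n) hW p
  have hok := d5_ok (W := W) P p
  have hg' : ∀ z ∈ tgW n W p, gch (at_ n M) P.g p (WithLp.ofLp z) = gloc P p z :=
    fun z hz => d5_g P p z hz.1
  have h1 := h p _ ⟨d5_src p x hx.1, hx.2⟩
  simp only [d5_pt p x hx.1] at h1
  rw [← d4_cd hD hok.smG hok.pos hg' a j k hx, ← d4_cd hD hok.smG hok.pos hg' j a k hx]
  exact h1 a j k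

theorem bach_loc {W : Set M} (hW : IsOpen W) {P : Pair (at_ n M) N} (h : BachOn W P) :
    ∃ s : ℝ, ∀ p, ∀ x ∈ tgW n W p, H.sca (gloc P p) x = s ∧
      ∀ j k, H.bach (gloc P p) j k x = 0 := by
  obtain ⟨s, hs⟩ := h
  refine ⟨s, fun p x hx => ?_⟩
  have hD := d5_rel (n := n) hW p
  have hok := d5_ok (W := W) P p
  have hg' : ∀ z ∈ tgW n W p, gch (at_ n M) P.g p (WithLp.ofLp z) = gloc P p z :=
    fun z hz => d5_g P p z hz.1
  have h1 := hs p _ ⟨d5_src p x hx.1, hx.2⟩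
  simp only [d5_pt p x hx.1] at h1
  refine ⟨?_, fun j k => ?_⟩
  · rw [← d5_sca hD hok.smG hok.pos hg' hx]
    exact h1.1
  · rw [← d5_bach hD hok.smG hok.pos hg' j k hx, h1.2]
    rfl

theorem d5_sm {W : Set M} {p : M} {f : V n → ℝ}
    (hf : (at_ n M).sm ((at_ n M).src p ∩ W) (fun x => (f ((at_ n M).ch p x) : ℂ))) :
    ContDiffOn ℝ ∞ (fun z : E n => f (WithLp.ofLp z)) (tgW n W p) := by
  have h0 : ContMDiffOn (𝓡∂ n) 𝓘(ℝ, ℂ) ∞ (fun x => (f ((at_ n M).ch p x) : ℂ))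
    ((at_ n M).src p ∩ W) := hf
  have h1 : ContDiffOn ℝ ∞ ((fun x => (f ((at_ n M).ch p x) : ℂ)) ∘
      (extChartAt (𝓡∂ n) p).symm) (tgW n W p) := by
    rw [← contMDiffOn_iff_contDiffOn]
    exact h0.comp ((contMDiffOn_extChartAt_symm p).mono (tgW_sub W p))
      fun y hy => ⟨d5_src p y hy.1, hy.2⟩
  refine (Complex.reCLM.contDiff.comp_contDiffOn h1).congr fun y hy => ?_
  show f (WithLp.ofLp y) = ((f ((at_ n M).ch p ((xc n p).symm y)) : ℝ) : ℂ).re
  rw [d5_pt p y hy.1, Complex.ofReal_re]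

theorem kah_loc {W : Set M} (hW : IsOpen W) {P : Pair (at_ n M) N} (h : KahOn W P) :
    ∃ s : ℝ, ∀ p, (∀ x ∈ tgW n W p, H.sca (gloc P p) x = s) ∧
      ∃ J : E n → Matrix (Fin n) (Fin n) ℝ, H.Kah (gloc P p) J (tgW n W p) := by
  obtain ⟨s, hs⟩ := h
  refine ⟨s, fun p => ?_⟩
  obtain ⟨J, hJ, hs⟩ := hs p
  have hD := d5_rel (n := n) hW p
  have hok := d5_ok (W := W) P p
  have hg' : ∀ z ∈ tgW n W p, gch (at_ n M) P.g p (WithLp.ofLp z) = gloc P p z :=
    fun z hz => d5_g P p z hz.1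
  have key : ∀ x ∈ tgW n W p, _ := fun x hx => hs _ ⟨d5_src p x hx.1, hx.2⟩
  refine ⟨fun x hx => ?_, fun z => J (WithLp.ofLp z), fun i j => d5_sm (f := fun y => J y i j) (hJ i j), fun x hx => ?_,
    fun x hx => ?_, fun x hx a i j => ?_⟩
  · have h1 := key x hx
    simp only [d5_pt p x hx.1] at h1
    rw [← d5_sca hD hok.smG hok.pos hg' hx]
    exact h1.1
  · have h1 := key x hx
    simp only [d5_pt p x hx.1] at h1
    exact h1.2.1
  · have h1 := key x hx
    simp only [d5_pt p x hx.1] at h1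
    rw [← hg' x hx]
    exact h1.2.2.1
  · have h1 := key x hx
    simp only [d5_pt p x hx.1] at h1
    have h2 := congrFun (congrFun (h1.2.2.2 a) i) j
    have h3 : dM J (WithLp.ofLp x) a i j = pd a (fun y => J (WithLp.ofLp y) i j) x :=
      d4_dj hD (d5_sm (f := fun y => J y i j) (hJ i j)) (fun z hz => rfl) hx a
    have h4 : ∀ a b c : Fin n, lc (gch (at_ n M) P.g p) a (WithLp.ofLp x) b c =
        chr (gloc P p) b a c x := fun a b c => d4_chris hD hok.smG hg' b a c hx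
    rw [Matrix.sub_apply, Matrix.add_apply, Matrix.mul_apply, Matrix.mul_apply, h3,
      Matrix.zero_apply] at h2
    simp only [h4] at h2
    rw [← h2, Finset.sum_sub_distrib, add_sub_assoc]
    congr 2
    exact Finset.sum_congr rfl fun l _ => mul_comm _ _

/-- The equations in every chart, from the local form. -/
theorem sat4_of {W : Set M} (hW : IsOpen W) {P : Pair (at_ n M) N} (hY : YMOn W P)
    (φ : Matrix (Fin n) (Fin n) ℝ → (Fin n → Fin n → Matrix (Fin n) (Fin n) ℝ) →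
      Matrix (Fin n) (Fin n) ℝ)
    (h : ∀ p, ∀ x ∈ tgW n W p, ∀ j k, H.lapRic (gloc P p) j k x =
      φ (gloc P p x) (fun i j b c => H.rm (gloc P p) i j b c x) j k) :
    Sat4 (fun G K _ _ _ => φ G K) W P := by
  intro p x hx
  obtain ⟨hm, hinv, hch⟩ := d5_mem hx.1
  have hD := d5_rel (n := n) hW p
  have hok := d5_ok (W := W) P p
  have hg' : ∀ z ∈ tgW n W p, gch (at_ n M) P.g p (WithLp.ofLp z) = gloc P p z :=
    fun z hz => d5_g P p z hz.1
  have hy : xc n p x ∈ tgW n W p := ⟨hm, by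
    show (xc n p).symm (xc n p x) ∈ W
    rw [hinv]
    exact hx.2⟩
  refine ⟨?_, hY p x hx⟩
  rw [← hch]
  ext j k
  have h1 := h p _ hy j k
  have h2 : (fun i j b c => H.rm (gloc P p) i j b c (xc n p x)) =
      fun i j => Rm (gch (at_ n M) P.g p) i j (WithLp.ofLp (xc n p x)) := by
    funext i j b c
    exact (d4_rm hD hok.smG hok.pos hg' i j b c hy).symm
  show _ = φ (gch (at_ n M) P.g p (WithLp.ofLp (xc n p x)))
    (fun i j => Rm (gch (at_ n M) P.g p) i j (WithLp.ofLp (xc n p x))) j k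
  rw [hg' _ hy, ← h2, ← h1]
  unfold H.lapRic
  simp only [Matrix.sum_apply, Matrix.smul_apply, smul_eq_mul, hg' _ hy]
  exact Finset.sum_congr rfl fun a _ => Finset.sum_congr rfl fun b _ => by
    rw [d4_cdd hD hok.smG hok.pos hg' a b j k hy]

end Vale.Agent.P088.B
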