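import Vale.Agent.P088.H4.H332D

/-!
# P088, fourth order class: rigidity of models
-/

open MeasureTheory Set Filter Topology Asymptotics

open scoped ContDiff

noncomputable section

namespace Vale.Agent.P088.EYM.H

set_option linter.unusedSectionVars false

variable {n N : ℕ} [NeZero n]
variable {V V' : Type*} [NormedAddCommGroup V] [NormedSpace ℝ V] [NormedAddCommGroup V']
  [NormedSpace ℝ V'] {D : Set (E n)}

scoped instance instFD1 : FiniteDimensional ℝ (VV n N) := inferInstance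
scoped instance instFD2 : FiniteDimensional ℝ (VV2 n N) := inferInstance
scoped instance instFD3 : FiniteDimensional ℝ (UU n N) := inferInstance

/-- `f₁` and `f₂` are smooth and all derivatives agree at the points with `x_0 = 0`. -/
structure VQ (D : Set (E n)) (f₁ f₂ : E n → V) : Prop where
  s₁ : ContDiffOn ℝ ∞ f₁ D
  s₂ : ContDiffOn ℝ ∞ f₂ D
  v : ∀ k, Van D k (fun x => f₁ x - f₂ x)

theorem VQ.eq {f₁ f₂ : E n → V} (h : VQ D f₁ f₂) {x : E n} (hx : x ∈ D) (h0 : x 0 = 0) :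
    f₁ x = f₂ x := sub_eq_zero.1 (van_one.1 (h.v 1) x hx h0)

theorem VQ.pd (hD : RelOpen D) {f₁ f₂ : E n → V} (h : VQ D f₁ f₂) (j : Fin n) :
    VQ D (pd j f₁) (pd j f₂) :=
  ⟨hD.pd_smooth h.s₁ j, hD.pd_smooth h.s₂ j, fun k =>
    (Van.pd_any hD (h.s₁.sub h.s₂) (h.v (k + 1)) j).congr hD fun _ hx => hD.pd_sub h.s₁ h.s₂ hx j⟩

theorem VQ.add (hD : RelOpen D) {f₁ f₂ g₁ g₂ : E n → V} (h : VQ D f₁ f₂) (h' : VQ D g₁ g₂) :
    VQ D (fun x => f₁ x + g₁ x) (fun x => f₂ x + g₂ x) :=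
  ⟨h.s₁.add h'.s₁, h.s₂.add h'.s₂, fun k =>
    (Van.add hD (h.s₁.sub h.s₂) (h'.s₁.sub h'.s₂) (h.v k) (h'.v k)).congr hD fun _ _ => by
      simp only; abel⟩

theorem VQ.sub (hD : RelOpen D) {f₁ f₂ g₁ g₂ : E n → V} (h : VQ D f₁ f₂) (h' : VQ D g₁ g₂) :
    VQ D (fun x => f₁ x - g₁ x) (fun x => f₂ x - g₂ x) :=
  ⟨h.s₁.sub h'.s₁, h.s₂.sub h'.s₂, fun k =>
    (Van.sub hD (h.s₁.sub h.s₂) (h'.s₁.sub h'.s₂) (h.v k) (h'.v k)).congr hD fun _ _ => by
      simp only; abel⟩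

theorem VQ.sum (hD : RelOpen D) {ι : Type*} (s : Finset ι) {f₁ f₂ : ι → E n → V}
    (h : ∀ i ∈ s, VQ D (f₁ i) (f₂ i)) :
    VQ D (fun x => ∑ i ∈ s, f₁ i x) (fun x => ∑ i ∈ s, f₂ i x) :=
  ⟨ContDiffOn.sum fun i hi => (h i hi).s₁, ContDiffOn.sum fun i hi => (h i hi).s₂, fun k =>
    (Van.sum hD s (fun i hi => (h i hi).s₁.sub (h i hi).s₂) fun i hi => (h i hi).v k).congr hD
      fun _ _ => by simp only [Finset.sum_sub_distrib]⟩

theorem VQ.const (c : V) : VQ D (fun _ => c) (fun _ => c) :=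
  ⟨contDiffOn_const, contDiffOn_const, fun k i hi x hx h0 => by
    simp only [sub_self]
    have : ∀ i, (EYM.pd (0 : Fin n))^[i] (fun _ : E n => (0 : V)) = fun _ => 0 := by
      intro i
      induction i with
      | zero => rfl
      | succ i ih =>
        rw [Function.iterate_succ_apply]
        have : EYM.pd (0 : Fin n) (fun _ : E n => (0 : V)) = fun _ => 0 := by
          funext y
          exact pd_const (0 : V) y 0
        rw [this, ih]
    rw [this i]⟩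

theorem VQ.mul (hD : RelOpen D) {f₁ f₂ g₁ g₂ : E n → ℝ} (h : VQ D f₁ f₂) (h' : VQ D g₁ g₂) :
    VQ D (fun x => f₁ x * g₁ x) (fun x => f₂ x * g₂ x) := by
  refine ⟨h.s₁.mul h'.s₁, h.s₂.mul h'.s₂, fun k => ?_⟩
  have b1 : Van D k (fun x => (f₁ x - f₂ x) * g₁ x) := by
    have := Van.bil hD dc_bil_mulR (h.s₁.sub h.s₂) h'.s₁ (h.v k) (van_zero _)
    simpa only [add_zero] using this
  have b2 : Van D k (fun x => f₂ x * (g₁ x - g₂ x)) := by
    have := Van.bil hD dc_bil_mulR h.s₂ (h'.s₁.sub h'.s₂) (van_zero _) (h'.v k)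
    simpa only [zero_add] using this
  refine (Van.add hD ((h.s₁.sub h.s₂).mul h'.s₁) (h.s₂.mul (h'.s₁.sub h'.s₂)) b1
    b2).congr hD fun x _ => ?_
  simp only
  ring

theorem sym_of {g : E n → Matrix (Fin n) (Fin n) ℝ} (hp : ∀ x ∈ D, (g x).PosDef) :
    ∀ x ∈ D, ∀ j k, g x j k = g x k j := fun x hx j k => by
  have := (hp x hx).1.apply j k
  simpa using this.symm

theorem VQ.minv (hD : RelOpen D) {g₁ g₂ : E n → Matrix (Fin n) (Fin n) ℝ}
    (hp₁ : ∀ x ∈ D, (g₁ x).PosDef) (hp₂ : ∀ x ∈ D, (g₂ x).PosDef)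
    (h : ∀ i j, VQ D (fun x => g₁ x i j) (fun x => g₂ x i j)) (i j : Fin n) :
    VQ D (fun x => (g₁ x)⁻¹ i j) (fun x => (g₂ x)⁻¹ i j) :=
  ⟨hD.smM_inv (fun i j => (h i j).s₁) hp₁ i j, hD.smM_inv (fun i j => (h i j).s₂) hp₂ i j,
    fun k => dme_inv_van hD ⟨fun i j => (h i j).s₁, sym_of hp₁, hp₁⟩
      ⟨fun i j => (h i j).s₂, sym_of hp₂, hp₂⟩
      (fun i j => (h i j).v k) i j⟩

theorem VQ.chr (hD : RelOpen D) {g₁ g₂ : E n → Matrix (Fin n) (Fin n) ℝ}
    (hp₁ : ∀ x ∈ D, (g₁ x).PosDef) (hp₂ : ∀ x ∈ D, (g₂ x).PosDef)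
    (h : ∀ i j, VQ D (fun x => g₁ x i j) (fun x => g₂ x i j)) (k i j : Fin n) :
    VQ D (chr g₁ k i j) (chr g₂ k i j) :=
  VQ.mul hD (VQ.const _) (VQ.sum hD _ fun l _ => VQ.mul hD (VQ.minv hD hp₁ hp₂ h k l)
    (VQ.sub hD (VQ.add hD ((h l j).pd hD i) ((h l i).pd hD j)) ((h i j).pd hD l)))

theorem VQ.ric (hD : RelOpen D) {g₁ g₂ : E n → Matrix (Fin n) (Fin n) ℝ}
    (hp₁ : ∀ x ∈ D, (g₁ x).PosDef) (hp₂ : ∀ x ∈ D, (g₂ x).PosDef)
    (h : ∀ i j, VQ D (fun x => g₁ x i j) (fun x => g₂ x i j)) (j k : Fin n) :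
    VQ D (ric g₁ j k) (ric g₂ j k) := by
  have hc := fun a b c => VQ.chr hD hp₁ hp₂ h a b c
  exact VQ.sum hD _ fun i _ => VQ.add hD (VQ.sub hD ((hc _ _ _).pd hD _) ((hc _ _ _).pd hD _))
    (VQ.sum hD _ fun l _ => VQ.sub hD (VQ.mul hD (hc _ _ _) (hc _ _ _))
      (VQ.mul hD (hc _ _ _) (hc _ _ _)))

/-- The value and the derivatives of `Wv` agree at the points with `x_0 = 0`. -/
theorem Wv_eq {W₁ W₂ : Model n N} {x : E n} (hg : ∀ i j, W₁.g x i j = W₂.g x i j)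
    (hB : ∀ i, W₁.B i x = W₂.B i x) (hh : W₁.h x = W₂.h x) (hc : ∀ a, W₁.c a x = W₂.c a x)
    (hp : ∀ a k, pd k (W₁.c a) x = pd k (W₂.c a) x) : Wv W₁ x = Wv W₂ x := by
  unfold Wv
  refine Prod.ext (funext fun i => funext fun j => hg i j) (Prod.ext (funext fun i => hB i)
    (Prod.ext hh (Prod.ext (funext fun a => hc a) (funext fun a => funext fun k => hp a k))))

theorem rig4Int : Rig4Int_statement := by
  intro n N _ Φ j0 W₁ W₂ D _ hD hpos hconn m₁ m₂ q₁ q₂ U hU hUD hne heq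
  have h₁ : M4 Φ j0 W₁ D := ⟨m₁, q₁⟩
  have h₂ : M4 Φ j0 W₂ D := ⟨m₂, q₂⟩
  have hsub : D ⊆ Hs n := fun x hx => le_of_lt (show 0 < x 0 from hpos hx)
  have hDr : RelOpen D := relOpen_of_open hD hsub
  have hUr : RelOpen U := relOpen_of_open hU (hUD.trans hsub)
  have hs := diffUv_smooth hDr h₁ h₂
  have hw := ucpV n (UU n N) (fun j k x => (W₁.g x)⁻¹ j k) D hD hpos hconn
    (fun j k => hDr.smM_inv h₁.ok.g_smooth h₁.ok.g_pos j k) (fun x hx => rig_pos h₁ hx)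
    (fun y => Uv W₁ y - Uv W₂ y) hs (fun x hx => rig_ineq hDr h₁ h₂ hx) U hU hUD hne ?_
  · exact rig_eq fun x hx => sub_eq_zero.1 (congrArg Prod.fst (hw x hx))
  · have e1 : EqOn (Wv W₁) (Wv W₂) U := fun x hx =>
      Wv_eq (fun i j => by rw [heq.g x hx]) (fun i => heq.B x hx i) (heq.h x hx)
        (fun a => heq.c x hx a) (fun a k => hUr.pd_congr (fun y hy => heq.c y hy a) hx k)
    have eg : ∀ i j, EqOn (fun y => W₁.g y i j) (fun y => W₂.g y i j) U := fun i j y hy => by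
      simp only [heq.g y hy]
    have ec : ∀ a b c, EqOn (chr W₁.g a b c) (chr W₂.g a b c) U := by
      intro a b c y hy
      unfold chr
      rw [heq.g y hy]
      simp only [hUr.pd_congr (eg _ _) hy]
    have er : ∀ j k, EqOn (ric W₁.g j k) (ric W₂.g j k) U := by
      intro j k y hy
      unfold ric
      refine Finset.sum_congr rfl fun i _ => ?_
      rw [hUr.pd_congr (ec _ _ _) hy, hUr.pd_congr (ec _ _ _) hy]
      congr 1
      exact Finset.sum_congr rfl fun l _ => by rw [ec _ _ _ hy, ec _ _ _ hy, ec _ _ _ hy, ec _ _ _ hy]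
    intro x hx
    rw [sub_eq_zero]
    exact Prod.ext (e1 hx) (Prod.ext (funext fun i => hUr.pd_congr e1 hx i)
      (funext fun j => funext fun k => er j k hx))

theorem rig4Bd : Rig4Bd_statement := by
  intro n N _ Φ j0 W₁ W₂ z r _ hr hz m₁ m₂ q₁ q₂ hjet
  have h₁ : M4 Φ j0 W₁ (HB z r) := ⟨m₁, q₁⟩
  have h₂ : M4 Φ j0 W₂ (HB z r) := ⟨m₂, q₂⟩
  have hDr : RelOpen (HB z r) := relOpen_HB z r
  have hs := diffUv_smooth hDr h₁ h₂
  have hw := ucpVBd n (UU n N) (fun j k x => (W₁.g x)⁻¹ j k) z r hr hz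
    (fun j k => hDr.smM_inv h₁.ok.g_smooth h₁.ok.g_pos j k) (fun x hx => rig_pos h₁ hx)
    (fun y => Uv W₁ y - Uv W₂ y) hs (fun x hx => rig_ineq hDr h₁ h₂ hx) ?_
  · exact rig_eq fun x hx => sub_eq_zero.1 (congrArg Prod.fst (hw x hx))
  · have vg : ∀ i j, VQ (HB z r) (fun x => W₁.g x i j) (fun x => W₂.g x i j) := fun i j =>
      ⟨h₁.ok.g_smooth i j, h₂.ok.g_smooth i j, fun k => hjet.g k i j⟩
    have vB : ∀ i, VQ (HB z r) (W₁.B i) (W₂.B i) := fun i =>
      ⟨h₁.ok.B_smooth i, h₂.ok.B_smooth i, fun k => hjet.B k i⟩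
    have vh : VQ (HB z r) W₁.h W₂.h := ⟨h₁.ok.h_smooth, h₂.ok.h_smooth, fun k => hjet.h k⟩
    have vc : ∀ a, VQ (HB z r) (W₁.c a) (W₂.c a) := fun a =>
      ⟨(h₁.sol a).1, (h₂.sol a).1, fun k => hjet.c k a⟩
    have vr := fun j k => VQ.ric hDr h₁.ok.g_pos h₂.ok.g_pos vg j k
    have vW : VQ (HB z r) (Wv W₁) (Wv W₂) := by
      refine ⟨Wv_smooth hDr h₁, Wv_smooth hDr h₂, fun k => ?_⟩
      intro i hi x hx h0
      have hd : ContDiffOn ℝ ∞ (fun y => Wv W₁ y - Wv W₂ y) (HB z r) :=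
        (Wv_smooth hDr h₁).sub (Wv_smooth hDr h₂)
      have key : ∀ {V : Type} [NormedAddCommGroup V] [NormedSpace ℝ V] (T : VV n N →L[ℝ] V),
          VQ (HB z r) (fun y => T (Wv W₁ y)) (fun y => T (Wv W₂ y)) →
          T ((pd (0 : Fin n))^[i] (fun y => Wv W₁ y - Wv W₂ y) x) = 0 := by
        intro V _ _ T hT
        rw [← dv_iter_clm hDr T hd i hx]
        have e : (fun y => T (Wv W₁ y - Wv W₂ y)) = fun y => T (Wv W₁ y) - T (Wv W₂ y) := by
          funext y; rw [map_sub]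
        rw [e]
        exact hT.v k i hi x hx h0
      refine Prod.ext (funext fun a => funext fun b => ?_) (Prod.ext (funext fun a => ?_)
        (Prod.ext ?_ (Prod.ext (funext fun a => ?_) (funext fun a => funext fun b => ?_))))
      · exact key ((ContinuousLinearMap.proj (R := ℝ) (φ := fun _ : Fin n => ℝ) b).comp
          ((ContinuousLinearMap.proj (R := ℝ) (φ := fun _ : Fin n => Fin n → ℝ) a).comp
          (ContinuousLinearMap.fst ℝ _ _))) (vg a b)
      · exact key ((ContinuousLinearMap.proj (R := ℝ) (φ := fun _ : Fin n => EndF N) a).comp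
          ((ContinuousLinearMap.fst ℝ _ _).comp (ContinuousLinearMap.snd ℝ _ _))) (vB a)
      · exact key ((ContinuousLinearMap.fst ℝ _ _).comp
          ((ContinuousLinearMap.snd ℝ _ _).comp (ContinuousLinearMap.snd ℝ _ _))) vh
      · exact key ((ContinuousLinearMap.proj (R := ℝ) (φ := fun _ : Fin n => Fib N) a).comp
          ((ContinuousLinearMap.fst ℝ _ _).comp ((ContinuousLinearMap.snd ℝ _ _).comp
          ((ContinuousLinearMap.snd ℝ _ _).comp (ContinuousLinearMap.snd ℝ _ _))))) (vc a)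
      · exact key ((ContinuousLinearMap.proj (R := ℝ) (φ := fun _ : Fin n => Fib N) b).comp
          ((ContinuousLinearMap.proj (R := ℝ) (φ := fun _ : Fin n => Fin n → Fib N) a).comp
          ((ContinuousLinearMap.snd ℝ _ _).comp ((ContinuousLinearMap.snd ℝ _ _).comp
          ((ContinuousLinearMap.snd ℝ _ _).comp (ContinuousLinearMap.snd ℝ _ _))))))
          ((vc a).pd hDr b)
    intro x hx h0
    constructor
    · rw [sub_eq_zero]
      exact Prod.ext (vW.eq hx h0) (Prod.ext (funext fun i => (vW.pd hDr i).eq hx h0)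
        (funext fun j => funext fun k => (vr j k).eq hx h0))
    · intro j
      have key : ∀ {V : Type} [NormedAddCommGroup V] [NormedSpace ℝ V] (T : UU n N →L[ℝ] V),
          VQ (HB z r) (fun y => T (Uv W₁ y)) (fun y => T (Uv W₂ y)) →
          T (pd j (fun y => Uv W₁ y - Uv W₂ y) x) = 0 := by
        intro V _ _ T hT
        rw [← hDr.pd_clm T hs hx j]
        have e : (fun y => T (Uv W₁ y - Uv W₂ y)) = fun y => T (Uv W₁ y) - T (Uv W₂ y) := by
          funext y; rw [map_sub]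
        rw [e, hDr.pd_sub hT.s₁ hT.s₂ hx j, sub_eq_zero]
        exact (hT.pd hDr j).eq hx h0
      refine Prod.ext ?_ (Prod.ext (funext fun i => ?_) (funext fun a => funext fun b => ?_))
      · exact key (ContinuousLinearMap.fst ℝ _ _) vW
      · exact key ((ContinuousLinearMap.proj (R := ℝ) (φ := fun _ : Fin n => VV n N) i).comp
          ((ContinuousLinearMap.fst ℝ _ _).comp (ContinuousLinearMap.snd ℝ _ _))) (vW.pd hDr i)
      · exact key ((ContinuousLinearMap.proj (R := ℝ) (φ := fun _ : Fin n => ℝ) b).comp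
          ((ContinuousLinearMap.proj (R := ℝ) (φ := fun _ : Fin n => Fin n → ℝ) a).comp
          ((ContinuousLinearMap.snd ℝ _ _).comp (ContinuousLinearMap.snd ℝ _ _)))) (vr a b)

end Vale.Agent.P088.EYM.H

end
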