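import Vale.Agent.P088.H4.Kah1

/-!
# P088, fourth order class: pointwise Kähler algebra (the commutator term)
-/

noncomputable section

namespace Vale.Agent.P088.EYM.H

variable {n : ℕ} {G J : Matrix (Fin n) (Fin n) ℝ} {R : Fin n → Fin n → Matrix (Fin n) (Fin n) ℝ}

theorem KPt.GJ3 (h : KPt G J R) : G * J = -(J.transpose * G) := by
  have h1 : J.transpose * G * J * J = G * J := by rw [h.orth]
  rw [Matrix.mul_assoc, h.sq, mul_neg, mul_one] at h1
  exact h1.symm

theorem KPt.inv_symm3 (h : KPt G J R) : (G⁻¹).transpose = G⁻¹ := by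
  rw [Matrix.transpose_nonsing_inv, h.gs]

theorem KPt.JH3 (h : KPt G J R) : J * G⁻¹ = -(G⁻¹ * J.transpose) := by
  have h1 : G⁻¹ * (G * J) * G⁻¹ = -(G⁻¹ * (J.transpose * G) * G⁻¹) := by
    rw [h.GJ3, mul_neg, neg_mul]
  rw [← Matrix.mul_assoc, Matrix.nonsing_inv_mul _ h.gu, Matrix.one_mul] at h1
  rw [h1, ← Matrix.mul_assoc, Matrix.mul_assoc _ G G⁻¹, Matrix.mul_nonsing_inv _ h.gu,
    Matrix.mul_one]

theorem KPt.sqT3 (h : KPt G J R) : J.transpose * J.transpose = -1 := by
  rw [← Matrix.transpose_mul, h.sq, Matrix.transpose_neg, Matrix.transpose_one]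

/-- `∑_{a,b} g^{ab} R_{aj}{}^l{}_b = -(Ric g⁻¹)_{jl}` -/
theorem KPt.tr3 (h : KPt G J R) (j l : Fin n) :
    ∑ a, ∑ b, G⁻¹ a b * R a j l b = -(kRc R * G⁻¹) j l := by
  have key : ∀ a, (R a j * G⁻¹).transpose = -(R a j * G⁻¹) := by
    intro a
    have h1 : (R a j).transpose * G = -(G * R a j) := eq_neg_of_add_eq_zero_left (h.met a j)
    have h2 : G⁻¹ * ((R a j).transpose * G) * G⁻¹ = -(G⁻¹ * (G * R a j) * G⁻¹) := by
      rw [h1, mul_neg, neg_mul]
    rw [← Matrix.mul_assoc, Matrix.mul_assoc _ G G⁻¹, Matrix.mul_nonsing_inv _ h.gu,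
      Matrix.mul_one, ← Matrix.mul_assoc, Matrix.nonsing_inv_mul _ h.gu, Matrix.one_mul] at h2
    rw [Matrix.transpose_mul, h.inv_symm3, h2]
  have e1 : ∀ a, ∑ b, G⁻¹ a b * R a j l b = -(R a j * G⁻¹) a l := by
    intro a
    have h3 : (R a j * G⁻¹) l a = -(R a j * G⁻¹) a l := by
      have := congrFun (congrFun (key a) a) l
      simpa only [Matrix.transpose_apply, Matrix.neg_apply] using this
    rw [← h3, Matrix.mul_apply]
    apply Finset.sum_congr rfl
    intro b _
    have h4 : G⁻¹ a b = G⁻¹ b a := by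
      have := congrFun (congrFun h.inv_symm3 a) b
      rw [Matrix.transpose_apply] at this
      exact this.symm
    rw [h4]
    ring
  rw [Finset.sum_congr rfl fun a _ => e1 a, Finset.sum_neg_distrib]
  congr 1
  rw [Matrix.mul_apply]
  simp only [Matrix.mul_apply, kRc, Matrix.of_apply, Finset.sum_mul]
  rw [Finset.sum_comm]

/-- the tensor `g^{ab} R_{aj}{}^l{}_k R_{bl}` in terms of `R_{ajmk}` -/
theorem KPt.Q3 (h : KPt G J R) (j k : Fin n) :
    ∑ a, ∑ b, G⁻¹ a b * ∑ l, R a j l k * kRc R b l =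
      ∑ a, ∑ m, (G⁻¹ * kRc R * G⁻¹) a m * (G * R a j) m k := by
  apply Finset.sum_congr rfl
  intro a _
  have e1 : ∀ l, R a j l k = ∑ m, G⁻¹ l m * (G * R a j) m k := by
    intro l
    have : (G⁻¹ * (G * R a j)) l k = R a j l k := by
      rw [← Matrix.mul_assoc, Matrix.nonsing_inv_mul _ h.gu, Matrix.one_mul]
    rw [← this, Matrix.mul_apply]
  have e2 : ∑ b, G⁻¹ a b * ∑ l, R a j l k * kRc R b l =
      ∑ l, (G⁻¹ * kRc R) a l * R a j l k := by
    simp only [Matrix.mul_apply, Finset.mul_sum, Finset.sum_mul]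
    rw [Finset.sum_comm]
    apply Finset.sum_congr rfl
    intro l _
    apply Finset.sum_congr rfl
    intro b _
    ring
  rw [e2]
  have e3 : ∀ l, (G⁻¹ * kRc R) a l * R a j l k =
      ∑ m, (G⁻¹ * kRc R) a l * G⁻¹ l m * (G * R a j) m k := by
    intro l
    rw [e1 l, Finset.mul_sum]
    apply Finset.sum_congr rfl
    intro m _
    ring
  rw [Finset.sum_congr rfl fun l _ => e3 l, Finset.sum_comm]
  apply Finset.sum_congr rfl
  intro m _
  rw [Matrix.mul_apply (M := G⁻¹ * kRc R), Finset.sum_mul]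

/-- `E_{am}` is symmetric and `J`-invariant -/
theorem KPt.E_symm3 (h : KPt G J R) (hrs : (kRc R).transpose = kRc R) :
    (G⁻¹ * kRc R * G⁻¹).transpose = G⁻¹ * kRc R * G⁻¹ := by
  rw [Matrix.transpose_mul, Matrix.transpose_mul, h.inv_symm3, hrs, Matrix.mul_assoc]

theorem KPt.E_J3 (h : KPt G J R) (hrJ : kRc R * J = -(J.transpose * kRc R)) :
    J * (G⁻¹ * kRc R * G⁻¹) * J.transpose = G⁻¹ * kRc R * G⁻¹ := by
  have h1 : J.transpose * kRc R = -(kRc R * J) := by rw [hrJ, neg_neg]
  calc J * (G⁻¹ * kRc R * G⁻¹) * J.transpose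
      = (J * G⁻¹) * kRc R * G⁻¹ * J.transpose := by simp only [Matrix.mul_assoc]
    _ = -(G⁻¹ * (J.transpose * kRc R) * G⁻¹ * J.transpose) := by
        rw [h.JH3]; simp only [neg_mul, Matrix.mul_assoc]
    _ = G⁻¹ * kRc R * (J * G⁻¹) * J.transpose := by
        rw [h1]; simp only [neg_mul, mul_neg, neg_neg, Matrix.mul_assoc]
    _ = -(G⁻¹ * kRc R * G⁻¹ * (J.transpose * J.transpose)) := by
        rw [h.JH3]; simp only [neg_mul, mul_neg, Matrix.mul_assoc]
    _ = G⁻¹ * kRc R * G⁻¹ := by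
        rw [h.sqT3]; simp only [mul_neg, mul_one, neg_neg]

/-- `R_{ajmk}` is `J`-invariant in each pair. -/
theorem KPt.rmJ3 (h : KPt G J R) (i j : Fin n) :
    G * R i j * J = -(J.transpose * (G * R i j)) := by
  rw [Matrix.mul_assoc, h.com, ← Matrix.mul_assoc, h.GJ3, neg_mul, Matrix.mul_assoc]

theorem KPt.swap3 (h : KPt G J R)
    (hp : ∀ i j b c, (G * R i j) b c = (G * R b c) i j) (a m p q : Fin n) :
    ∑ j, ∑ k, J j p * J k q * (G * R a j) m k =
      ∑ s, ∑ t, J s a * J t m * (G * R s p) t q := by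
  have e1 : ∀ k, ∑ j, J j p * (G * R a j) m k = -∑ s, J s a * (G * R m k) s p := by
    intro k
    have h1 : (G * R m k * J) a p = -(J.transpose * (G * R m k)) a p := by
      rw [h.rmJ3, Matrix.neg_apply]
    rw [Matrix.mul_apply, Matrix.mul_apply] at h1
    simp only [Matrix.transpose_apply] at h1
    rw [← h1]
    apply Finset.sum_congr rfl
    intro j _
    rw [hp a j m k]
    ring
  have e2 : ∀ s, ∑ k, J k q * (G * R m k) s p = -∑ t, J t m * (G * R s p) t q := by
    intro s
    have h1 : (G * R s p * J) m q = -(J.transpose * (G * R s p)) m q := by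
      rw [h.rmJ3, Matrix.neg_apply]
    rw [Matrix.mul_apply, Matrix.mul_apply] at h1
    simp only [Matrix.transpose_apply] at h1
    rw [← h1]
    apply Finset.sum_congr rfl
    intro k _
    rw [hp m k s p]
    ring
  calc ∑ j, ∑ k, J j p * J k q * (G * R a j) m k
      = ∑ k, J k q * ∑ j, J j p * (G * R a j) m k := by
        rw [Finset.sum_comm]
        apply Finset.sum_congr rfl
        intro k _
        rw [Finset.mul_sum]
        apply Finset.sum_congr rfl
        intro j _
        ring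
    _ = -∑ s, J s a * ∑ k, J k q * (G * R m k) s p := by
        simp only [e1, mul_neg, Finset.sum_neg_distrib, Finset.mul_sum]
        congr 1
        rw [Finset.sum_comm]
        apply Finset.sum_congr rfl
        intro s _
        apply Finset.sum_congr rfl
        intro k _
        ring
    _ = ∑ s, ∑ t, J s a * J t m * (G * R s p) t q := by
        simp only [e2, mul_neg, Finset.sum_neg_distrib, neg_neg, Finset.mul_sum, mul_assoc]

/-- `Jᵀ C J = Cᵀ` for the commutator term `C`. -/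
theorem KPt.com_inv_of (h : KPt G J R)
    (hp : ∀ i j b c, (G * R i j) b c = (G * R b c) i j)
    (hrs : (kRc R).transpose = kRc R) (hrJ : kRc R * J = -(J.transpose * kRc R))
    (b k : Fin n) :
    ∑ c, ∑ p, J c k * J p b *
      (-∑ a, ∑ b', G⁻¹ a b' * ∑ l, (R a c l b' * kRc R l p + R a c l p * kRc R b' l)) =
      -∑ a, ∑ b', G⁻¹ a b' * ∑ l, (R a b l b' * kRc R l k + R a b l k * kRc R b' l) := by
  -- the two parts of `C`
  have hC : ∀ c p : Fin n,
      (-∑ a, ∑ b', G⁻¹ a b' * ∑ l, (R a c l b' * kRc R l p + R a c l p * kRc R b' l)) =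
      (kRc R * G⁻¹ * kRc R) c p - ∑ a, ∑ m, (G⁻¹ * kRc R * G⁻¹) a m * (G * R a c) m p := by
    intro c p
    rw [← h.Q3 c p]
    have e1 : (kRc R * G⁻¹ * kRc R) c p = -∑ a, ∑ b', G⁻¹ a b' * ∑ l, R a c l b' * kRc R l p := by
      rw [Matrix.mul_apply]
      have e2 : ∀ l, (kRc R * G⁻¹) c l * kRc R l p =
          -∑ a, ∑ b', G⁻¹ a b' * R a c l b' * kRc R l p := by
        intro l
        have := h.tr3 c l
        rw [← neg_eq_iff_eq_neg] at this
        rw [← this, neg_mul, Finset.sum_mul]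
        congr 1
        apply Finset.sum_congr rfl
        intro a _
        rw [Finset.sum_mul]
      rw [Finset.sum_congr rfl fun l _ => e2 l, Finset.sum_neg_distrib]
      congr 1
      rw [Finset.sum_comm]
      apply Finset.sum_congr rfl
      intro a _
      rw [Finset.sum_comm]
      apply Finset.sum_congr rfl
      intro b' _
      rw [Finset.mul_sum]
      apply Finset.sum_congr rfl
      intro l _
      ring
    rw [e1, ← neg_add', ← Finset.sum_add_distrib]
    congr 1
    apply Finset.sum_congr rfl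
    intro a _
    rw [← Finset.sum_add_distrib]
    apply Finset.sum_congr rfl
    intro b' _
    rw [← mul_add, ← Finset.sum_add_distrib]
  simp only [hC]
  have h1 : J.transpose * kRc R = -(kRc R * J) := by rw [hrJ, neg_neg]
  -- first part
  have hA : ∑ c, ∑ p, J c k * J p b * (kRc R * G⁻¹ * kRc R) c p =
      (kRc R * G⁻¹ * kRc R) b k := by
    have e1 : J.transpose * (kRc R * G⁻¹ * kRc R) * J = kRc R * G⁻¹ * kRc R := by
      calc J.transpose * (kRc R * G⁻¹ * kRc R) * J
          = (J.transpose * kRc R) * G⁻¹ * (kRc R * J) := by simp only [Matrix.mul_assoc]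
        _ = (-(kRc R * J)) * G⁻¹ * (-(J.transpose * kRc R)) :=
            congrArg₂ (fun X Y => X * G⁻¹ * Y) h1 hrJ
        _ = kRc R * (J * G⁻¹) * J.transpose * kRc R := by
            simp only [neg_mul, mul_neg, neg_neg, Matrix.mul_assoc]
        _ = -(kRc R * G⁻¹ * (J.transpose * J.transpose) * kRc R) := by
            rw [h.JH3]; simp only [neg_mul, mul_neg, Matrix.mul_assoc]
        _ = kRc R * G⁻¹ * kRc R := by
            rw [h.sqT3]; simp only [mul_neg, mul_one, neg_neg, neg_mul]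
    have e2 : (kRc R * G⁻¹ * kRc R).transpose = kRc R * G⁻¹ * kRc R := by
      rw [Matrix.transpose_mul, Matrix.transpose_mul, h.inv_symm3, hrs, Matrix.mul_assoc]
    have e3 : (kRc R * G⁻¹ * kRc R) b k = (kRc R * G⁻¹ * kRc R) k b := by
      conv_lhs => rw [← e2, Matrix.transpose_apply]
    rw [e3]
    conv_rhs => rw [← e1]
    rw [Matrix.mul_apply]
    simp only [Matrix.mul_apply (M := J.transpose), Matrix.transpose_apply, Finset.sum_mul]
    rw [Finset.sum_comm]
    apply Finset.sum_congr rfl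
    intro p _
    apply Finset.sum_congr rfl
    intro c _
    ring
  -- second part
  have hB : ∑ c, ∑ p, J c k * J p b *
      ∑ a, ∑ m, (G⁻¹ * kRc R * G⁻¹) a m * (G * R a c) m p =
      ∑ a, ∑ m, (G⁻¹ * kRc R * G⁻¹) a m * (G * R a b) m k := by
    have e1 : ∑ c, ∑ p, J c k * J p b *
        ∑ a, ∑ m, (G⁻¹ * kRc R * G⁻¹) a m * (G * R a c) m p =
        ∑ a, ∑ m, (G⁻¹ * kRc R * G⁻¹) a m * ∑ c, ∑ p, J c k * J p b * (G * R a c) m p := by
      simp only [Finset.mul_sum]
      have s1 : ∀ c, ∑ p, ∑ a, ∑ m, J c k * J p b *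
          ((G⁻¹ * kRc R * G⁻¹) a m * (G * R a c) m p) =
          ∑ a, ∑ m, ∑ p, J c k * J p b *
          ((G⁻¹ * kRc R * G⁻¹) a m * (G * R a c) m p) := by
        intro c
        rw [Finset.sum_comm]
        apply Finset.sum_congr rfl
        intro a _
        rw [Finset.sum_comm]
      rw [Finset.sum_congr rfl fun c _ => s1 c, Finset.sum_comm]
      apply Finset.sum_congr rfl
      intro a _
      rw [Finset.sum_comm]
      apply Finset.sum_congr rfl
      intro m _
      apply Finset.sum_congr rfl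
      intro c _
      apply Finset.sum_congr rfl
      intro p _
      ring
    rw [e1]
    have e2 : ∀ a m, ∑ c, ∑ p, J c k * J p b * (G * R a c) m p =
        ∑ s, ∑ t, J s a * J t m * (G * R s k) t b := fun a m => h.swap3 hp a m k b
    simp only [e2]
    have e3 : ∑ a, ∑ m, (G⁻¹ * kRc R * G⁻¹) a m * ∑ s, ∑ t, J s a * J t m * (G * R s k) t b =
        ∑ s, ∑ t, (J * (G⁻¹ * kRc R * G⁻¹) * J.transpose) s t * (G * R s k) t b := by
      simp only [Matrix.mul_apply (N := J.transpose), Matrix.mul_apply (M := J),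
        Matrix.transpose_apply, Finset.sum_mul, Finset.mul_sum]
      have s1 : ∀ a, ∑ m, ∑ s, ∑ t, (G⁻¹ * kRc R * G⁻¹) a m *
          (J s a * J t m * (G * R s k) t b) =
          ∑ s, ∑ t, ∑ m, (G⁻¹ * kRc R * G⁻¹) a m *
          (J s a * J t m * (G * R s k) t b) := by
        intro a
        rw [Finset.sum_comm]
        apply Finset.sum_congr rfl
        intro s _
        rw [Finset.sum_comm]
      rw [Finset.sum_congr rfl fun a _ => s1 a, Finset.sum_comm]
      apply Finset.sum_congr rfl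
      intro s _
      rw [Finset.sum_comm]
      apply Finset.sum_congr rfl
      intro t _
      rw [Finset.sum_comm]
      apply Finset.sum_congr rfl
      intro m _
      apply Finset.sum_congr rfl
      intro a _
      ring
    rw [e3, h.E_J3 hrJ]
    have hEs : ∀ s t, (G⁻¹ * kRc R * G⁻¹) s t = (G⁻¹ * kRc R * G⁻¹) t s := by
      intro s t
      conv_lhs => rw [← h.E_symm3 hrs, Matrix.transpose_apply]
    rw [Finset.sum_comm]
    apply Finset.sum_congr rfl
    intro t _
    apply Finset.sum_congr rfl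
    intro s _
    rw [hEs s t, hp s k t b]
  have hsplit : ∀ c, ∑ p, J c k * J p b * ((kRc R * G⁻¹ * kRc R) c p -
      ∑ a, ∑ m, (G⁻¹ * kRc R * G⁻¹) a m * (G * R a c) m p) =
      ∑ p, J c k * J p b * (kRc R * G⁻¹ * kRc R) c p -
      ∑ p, J c k * J p b * ∑ a, ∑ m, (G⁻¹ * kRc R * G⁻¹) a m * (G * R a c) m p := by
    intro c
    rw [← Finset.sum_sub_distrib]
    apply Finset.sum_congr rfl
    intro p _
    ring
  rw [Finset.sum_congr rfl fun c _ => hsplit c, Finset.sum_sub_distrib, hA, hB]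

/-- `Jᵀ C J = Cᵀ` for the commutator term `C`, without further hypotheses. -/
theorem KPt.com_inv (h : KPt G J R) (b k : Fin n) :
    ∑ c, ∑ p, J c k * J p b *
      (-∑ a, ∑ b', G⁻¹ a b' * ∑ l, (R a c l b' * kRc R l p + R a c l p * kRc R b' l)) =
      -∑ a, ∑ b', G⁻¹ a b' * ∑ l, (R a b l b' * kRc R l k + R a b l k * kRc R b' l) :=
  h.com_inv_of (fun i j b c => h.pair i j b c) h.rc_symm h.rc_J b k

end Vale.Agent.P088.EYM.H

end
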