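import Vale.Agent.P088.H4.Kah2
import Vale.Agent.P088.H4.Kah3

/-!
# P088, fourth order class: Kähler metrics of constant scalar curvature, `Δ Ric = 2 comR`
-/

set_option linter.all false

section

open MeasureTheory Set Filter Topology
open scoped ContDiff

noncomputable section

namespace Vale.Agent.P088.EYM.H

variable {n : ℕ} [NeZero n] {D : Set (E n)} {g J : E n → Matrix (Fin n) (Fin n) ℝ}

/-- the pointwise algebra of the curvature of a Kähler metric -/
theorem kpt_of_kah (hD : RelOpen D) (hg : GOk D g) (hJ : Kah g J D) {x : E n} (hx : x ∈ D) :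
    KPt (g x) (J x) (fun i j => mR g i j x) where
  gu := g_unit hg hx
  gs := g_transpose hg hx
  sq := hJ.sq x hx
  orth := hJ.orth x hx
  skew := fun i j => mR_skew g i j x
  met := fun i j => mR_metric hD hg hx i j
  bi := fun a b c l => bianchi_one hD hg hx a b c l
  com := fun i j => kah_com hD hg hJ hx i j

theorem kah_S (hD : RelOpen D) (hg : GOk D g) (hJ : Kah g J D) {y : E n} (hy : y ∈ D)
    (a b : Fin n) : kS g J a b y = -2 * ∑ p, ric g a p y * J y p b := by
  have h := (kpt_of_kah hD hg hJ hy).S a b
  rw [Matrix.mul_apply] at h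
  have e : kS g J a b y = ∑ l, ∑ m, mR g a b y l m * J y m l := by
    unfold kS Matrix.trace
    exact Finset.sum_congr rfl fun l _ => Matrix.mul_apply
  rw [e, h]
  rfl

theorem kahLap : KahLap_statement := by
  intro n _ D g J s hD hg hJ hs x hx j k
  refine kah_lap_eq hD hg hJ hs (fun y hy a b => kah_S hD hg hJ hy a b) hx (fun b k => ?_) j k
  have hP := kpt_of_kah hD hg hJ hx
  have h := hP.com_inv_of hP.pair hP.rc_symm hP.rc_J b k
  exact h

end Vale.Agent.P088.EYM.H

end

end
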