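import Vale.Agent.P088.H4.Fin5
import Vale.Agent.P088.H4.Kah
import Vale.Agent.P088.H4.H332E

/-!
# P088: all blocks are proved
-/

namespace Vale.Agent.P088.B2

theorem blocks : Blocks := ⟨EYM.H.rig4Int, EYM.H.rig4Bd, EYM.H.kahLap⟩

end Vale.Agent.P088.B2
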