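import Vale.Agent.P088.H4.St4b
import Vale.Agent.P088.H4.St5
import Vale.Agent.P088.H820.Defs

/-!
# P088: second order natural couplings, in the vocabulary of the fourth order class
-/

open Manifold MeasureTheory Set Filter Topology
open scoped ContDiff Matrix

noncomputable section

set_option synthInstance.maxSize 4000

namespace Vale.Agent.P088.B

universe u

variable {n N : ℕ} {M : Type u} {Z : At n M}

/-- The values `(g, 0, 0, F, 0)`. -/
def cpl_emb (x : (Fin n → Fin n → ℝ) × (Fin n → Fin n → Fin N → Fin N → ℂ)) (i j : Fin n) :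
    ℝ × (Fin n → Fin n → ℝ) × (Fin n → ℝ) × (Fin N → Fin N → ℂ) ×
      (Fin n → Fin N → Fin N → ℂ) := (x.1 i j, 0, 0, x.2 i j, 0)

theorem cpl_emb_lip : LipschitzWith 1 (cpl_emb (n := n) (N := N)) := by
  refine LipschitzWith.of_dist_le_mul fun x y => ?_
  rw [NNReal.coe_one, one_mul]
  have h0 : 0 ≤ dist x y := dist_nonneg
  rw [dist_pi_le_iff h0]
  intro i
  rw [dist_pi_le_iff h0]
  intro j
  have h1 : dist (x.1 i j) (y.1 i j) ≤ dist x y :=
    ((dist_le_pi_dist (x.1 i) (y.1 i) j).trans (dist_le_pi_dist x.1 y.1 i)).trans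
      (le_max_left _ _)
  have h2 : dist (x.2 i j) (y.2 i j) ≤ dist x y :=
    ((dist_le_pi_dist (x.2 i) (y.2 i) j).trans (dist_le_pi_dist x.2 y.2 i)).trans
      (le_max_right _ _)
  generalize dist x y = d at h0 h1 h2 ⊢
  simp only [cpl_emb, Prod.dist_eq, dist_self]
  exact max_le h1 (max_le h0 (max_le h0 (max_le h2 h0)))

/-- A natural right hand side gives a natural coupling. -/
theorem nat4_coupling {Φ : Rhs n N} (hΦ : Nat4 Φ) : Natural (fun G F => Φ G 0 0 F 0) where
  cov G F J hG hJ := by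
    have h := (nat4_natural hΦ).cov G 0 0 F 0 J hG.1 hJ
    simp only [Pi.zero_apply, Matrix.mul_zero, Matrix.zero_mul, smul_zero,
      Finset.sum_const_zero] at h
    exact h
  inv G F U hG hU := by
    have h := hΦ.inv G 0 0 F 0 U hG.1 hU
    simp only [cu4, Pi.zero_apply, Matrix.mul_zero, Matrix.zero_mul] at h
    exact h
  lip j k x hx := by
    obtain ⟨K, t, ht, hK⟩ := hΦ.lip j k (x := cpl_emb x) hx.1
    refine ⟨K * 1, cpl_emb ⁻¹' t, ?_, ?_⟩
    · have h1 : Tendsto (cpl_emb (n := n) (N := N))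
          (𝓝[{x : (Fin n → Fin n → ℝ) × (Fin n → Fin n → Fin N → Fin N → ℂ) |
            IsVal x.1 x.2}] x) (𝓝[{y | Matrix.PosDef (fun i j => (y i j).1)}] (cpl_emb x)) :=
        tendsto_nhdsWithin_iff.2 ⟨(cpl_emb_lip.continuous.tendsto x).mono_left
          nhdsWithin_le_nhds, eventually_nhdsWithin_of_forall fun y hy => hy.1⟩
      exact h1 ht
    · exact hK.comp cpl_emb_lip.lipschitzOnWith fun y hy => hy

theorem cpl_coupledOn {κ : ℝ} {Φ : Rhs n N} {W : Set M} {P : Pair Z N} (h : CplOn κ Φ W P) :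
    CoupledOn κ (fun G F => Φ G 0 0 F 0) W P :=
  fun p x hx => ⟨h.2 p x hx, h.1 p x hx⟩

theorem cpl_coupled {κ : ℝ} {Φ : Rhs n N} {P : Pair Z N} (h : CplOn κ Φ univ P) :
    Coupled κ (fun G F => Φ G 0 0 F 0) P :=
  fun p x hx => cpl_coupledOn h p x ⟨hx, mem_univ x⟩

end Vale.Agent.P088.B
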