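import Vale.Agent.P088.H4.H823D

set_option linter.all false

/-!
# P088, boundary determination to all orders, analytic half: pointwise relations
-/

open MeasureTheory Set Filter Topology
open scoped ContDiff

noncomputable section

namespace Vale.Agent.P088.EYM

variable {n : ℕ} [NeZero n] {N : ℕ}
variable {D : Set (E n)}
variable {G₁ G₂ : E n → Matrix (Fin n) (Fin n) ℝ} {B₁ B₂ : Fin n → E n → EndF N}
  {h₁ h₂ : E n → EndF N}

theorem e8_limit_zero (hD : RelOpen D) (c₁ : CoefD D G₁ B₁ h₁) (c₂ : CoefD D G₂ B₂ h₂)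
    (hE : ERelD D G₁ B₁ h₁ G₂ B₂ h₂) {m : ℕ}
    (hG : ∀ j l, Van D (m + 1) (fun x => G₁ x j l - G₂ x j l))
    (hB : ∀ j, Van D m (fun x => B₁ j x - B₂ j x))
    (hh : Van D (m + 2) (fun x => h₁ x - h₂ x)) {ξ : Fin n → ℝ} (hξ0 : ξ 0 = 0) (hξ : ξ ≠ 0)
    {p : E n} (hp : p ∈ D) (hp0 : p 0 = 0) :
    ∃ r > 0, Metric.closedBall p r ∩ Hs n ⊆ D ∧ ∀ χ, Bump p r χ → ∀ e e' : Fib N,
      (((m + 1).factorial : ℕ) : ℂ)⁻¹ * JJ G₂ ξ (m + 1) (fun x => ((χ x) ^ 2 : ℝ) *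
        ∑ j, ∑ l, (((pd (0 : Fin n))^[m + 1] (fun y => G₁ y j l - G₂ y j l) x : ℝ) : ℂ) *
          ((starRingEnd ℂ) (zz (G₂ x) ξ j) * zz (G₂ x) ξ l * inner ℂ e e')) +
      ((m.factorial : ℕ) : ℂ)⁻¹ * JJ G₂ ξ m (fun x => ((χ x) ^ 2 : ℝ) *
        ∑ j, ∑ l, (G₂ x j l : ℂ) * ((starRingEnd ℂ) (zz (G₂ x) ξ j) *
          inner ℂ e ((pd (0 : Fin n))^[m] (fun y => B₁ l y - B₂ l y) x e') +
          zz (G₂ x) ξ l * inner ℂ ((pd (0 : Fin n))^[m] (fun y => B₁ j y - B₂ j y) x e) e')) = 0 := by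
  obtain ⟨ψ, hψ, he2⟩ := e8_phase hD c₂.toGOk hξ0 hξ m
  obtain ⟨r, hr, δ, hδ, hrD, hre⟩ := dp_exists_ball hD c₂.toGOk hξ0 hξ hψ hp hp0
  refine ⟨r, hr, hrD, fun χ hχ e e' => ?_⟩
  have sχ : ∀ e : Fib N, ContDiffOn ℝ ∞ (fun y : E n => χ y • e) D := fun e =>
    dc_smooth_bil dc_bil_smul hχ.1.contDiffOn contDiffOn_const
  have zχ : ∀ e : Fib N, ∀ x ∈ Hs n, x ∉ Metric.closedBall p r → χ x • e = 0 :=
    fun e x _ hxK => by rw [hχ.2 x hxK, zero_smul]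
  obtain ⟨A, hA, hA0, hAe, hM0, hM⟩ := e8_ampl hD c₂.toGOk c₂.smB hξ0 hξ hψ
    (Metric.isClosed_closedBall (x := p) (ε := r)) (sχ e) (zχ e) m
  obtain ⟨A', hA', hA0', hAe', hM0', hM'⟩ := e8_ampl hD c₂.toGOk c₂.smB hξ0 hξ hψ
    (Metric.isClosed_closedBall (x := p) (ε := r)) (sχ e') (zχ e') m
  set K : Set (E n) := Metric.closedBall p r ∩ Hs n with hKdef
  have hK : IsCompact K := (isCompact_closedBall p r).inter_right isClosed_Hs
  have k0 : ∀ i, ∀ x ∈ Hs n, x ∉ K → A i x = 0 := fun i x hx hxK => hA0 i x hx fun h => hxK ⟨h, hx⟩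
  have k0' : ∀ i, ∀ x ∈ Hs n, x ∉ K → A' i x = 0 := fun i x hx hxK =>
    hA0' i x hx fun h => hxK ⟨h, hx⟩
  -- orders of vanishing
  have hh1 : Van D (m + 1) (fun x => h₁ x - h₂ x) := hh.mono (by lia)
  have hh0 : Van D m (fun x => h₁ x - h₂ x) := hh.mono (by lia)
  have hG0 : ∀ j l, Van D m (fun x => G₁ x j l - G₂ x j l) := fun j l => (hG j l).mono (by lia)
  have t2 := fun i j => dt_top_Q2 hD c₁ c₂ hψ.sm (hA i) (hA' j) hG hh
  have t1 := fun i j => dt_top_Q1 hD c₁ c₂ hψ.sm (hA i) (hA' j) hG hB hh1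
  have t0 := fun i j => dt_top_Q0 hD c₁ c₂ (hA i) (hA' j) hG0 hB hh0
  have lims := fun i j => dle_lim hD c₁ c₂ hψ (hA i) (hA' j) hK hrD (k0 i) (k0' j) hδ hre
    (t2 i j).1 (t1 i j).1 (t0 i j)
  have lim1 := e8_lim hD c₁ c₂ hψ.sm hA hA' hK hrD k0 k0' m m lims
  have f2 := (t2 0 0).2
  have f1 := (t1 0 0).2
  -- residuals
  have he1 : Van D (m + 1) (eik G₁ ψ) := e8_eik_other hD c₁.toGOk c₂.toGOk hψ.sm he2 hG
  have oth : ∀ (A : ℕ → E n → Fib N), (∀ i, ContDiffOn ℝ ∞ (A i) D) →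
      Van D m (Mop G₂ B₂ ψ (A 0)) →
      (∀ i, Van D m (fun x => Mop G₂ B₂ ψ (A (i + 1)) x + LopR G₂ B₂ (A i) x)) →
      Van D m (Mop G₁ B₁ ψ (A 0)) ∧
      ∀ i, Van D m (fun x => Mop G₁ B₁ ψ (A (i + 1)) x + LopR G₁ B₁ (A i) x) := by
    intro A hA hM0 hM
    have o1 := fun i => e8_Mop_other hD c₁.toGOk c₂.toGOk c₁.smB c₂.smB hψ.sm (hA i) hG hB
    have o2 := fun i => e8_Lop_other hD c₁.toGOk c₂.toGOk c₁.smB c₂.smB (hA i) hG hB
    have s1 := fun i => da_smooth_Mop hD c₁.toGOk c₁.smB hψ.sm (hA i)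
    have s2 := fun i => da_smooth_Mop hD c₂.toGOk c₂.smB hψ.sm (hA i)
    have s3 := fun i => dr_smooth_lop hD c₁.toGOk c₁.smB (hA i)
    have s4 := fun i => dr_smooth_lop hD c₂.toGOk c₂.smB (hA i)
    refine ⟨Van.congr hD (Van.add hD ((s1 0).sub (s2 0)) (s2 0) (o1 0) hM0) fun x _ => ?_,
      fun i => ?_⟩
    · exact sub_add_cancel _ _
    · refine Van.congr hD (Van.add hD (((s1 (i + 1)).sub (s2 (i + 1))).add ((s3 i).sub (s4 i)))
        ((s2 (i + 1)).add (s4 i)) (Van.add hD ((s1 (i + 1)).sub (s2 (i + 1)))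
          ((s3 i).sub (s4 i)) (o1 (i + 1)) (o2 i)) (hM i)) fun x _ => ?_
      abel
  obtain ⟨hN0, hN⟩ := oth A hA hM0 hM
  obtain ⟨hN0', hN'⟩ := oth A' hA' hM0' hM'
  obtain ⟨C₁, p1, b1⟩ := e8_resid hD c₁.toGOk c₁.smB hψ.sm hA hK hrD k0 hδ hre he1 hN0 hN
  obtain ⟨C₂, p2, b2⟩ := e8_resid hD c₂.toGOk c₂.smB hψ.sm hA hK hrD k0 hδ hre he2 hM0 hM
  obtain ⟨C₁', p1', b1'⟩ := e8_resid hD c₁.toGOk c₁.smB hψ.sm hA' hK hrD k0' hδ hre he1 hN0' hN'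
  obtain ⟨C₂', p2', b2'⟩ := e8_resid hD c₂.toGOk c₂.smB hψ.sm hA' hK hrD k0' hδ hre he2 hM0' hM'
  obtain ⟨C, hC⟩ := hE.rel
  have tst : ∀ (A : ℕ → E n → Fib N), (∀ i, ContDiffOn ℝ ∞ (A i) D) →
      (∀ i, ∀ x ∈ Hs n, x ∉ K → A i x = 0) → ∀ t : ℝ,
      TstD D (osc ψ (fun x => ∑ i ∈ Finset.range (m + 1), (t⁻¹) ^ i • A i x) t) := by
    intro A hA hA0 t
    refine de_tstD_osc hψ.sm (dc_smooth_sum _ fun i _ => (hA i).const_smul ((t⁻¹) ^ i)) hK hrD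
      (fun x hx hxK => Finset.sum_eq_zero fun i _ => by rw [hA0 i x hx hxK, smul_zero]) t
  have lim0 := dmn_to_zero m
    (u := fun t => EnD D G₁ B₁ h₁
        (osc ψ (fun x => ∑ i ∈ Finset.range (m + 1), (t⁻¹) ^ i • A i x) t)
        (osc ψ (fun x => ∑ i ∈ Finset.range (m + 1), (t⁻¹) ^ i • A' i x) t) -
      EnD D G₂ B₂ h₂ (osc ψ (fun x => ∑ i ∈ Finset.range (m + 1), (t⁻¹) ^ i • A i x) t)
        (osc ψ (fun x => ∑ i ∈ Finset.range (m + 1), (t⁻¹) ^ i • A' i x) t))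
    (fun t => hC _ _ (tst A hA k0 t) (tst A' hA' k0' t))
    p1 p2 p1' p2' b1 b2 b1' b2'
  have hfin := tendsto_nhds_unique lim1 lim0
  -- supports
  have z1 := de_supp_Q (G := G₁) (B := B₁) (h := h₁) (ψ := ψ) (a := A 0) (a' := A' 0)
    (Metric.isClosed_closedBall (x := p) (ε := r)) (hA0 0) (hA0' 0)
  have z2 := de_supp_Q (G := G₂) (B := B₂) (h := h₂) (ψ := ψ) (a := A 0) (a' := A' 0)
    (Metric.isClosed_closedBall (x := p) (ε := r)) (hA0 0) (hA0' 0)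
  have w2 := dle_iter_supp (f := fun x => Q2 G₁ h₁ ψ (A 0) (A' 0) x - Q2 G₂ h₂ ψ (A 0) (A' 0) x)
    (Metric.isClosed_closedBall (x := p) (ε := r))
    (fun x hx hxK => by rw [(z1 x hx hxK).1, (z2 x hx hxK).1, sub_zero]) (m + 1)
  have w1 := dle_iter_supp
    (f := fun x => Q1 G₁ B₁ h₁ ψ (A 0) (A' 0) x - Q1 G₂ B₂ h₂ ψ (A 0) (A' 0) x)
    (Metric.isClosed_closedBall (x := p) (ε := r))
    (fun x hx hxK => by rw [(z1 x hx hxK).2.1, (z2 x hx hxK).2.1, sub_zero]) m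
  rw [← hfin]
  congr 1
  · congr 1
    refine dle_JJ_congr hrD (fun x hx hx0 => ?_) (fun x _ hxK => ?_) w2
    · rw [f2 x hx hx0, Finset.mul_sum]
      refine Finset.sum_congr rfl fun j _ => ?_
      rw [Finset.mul_sum]
      refine Finset.sum_congr rfl fun l _ => ?_
      rw [hψ.grad x hx hx0, hψ.grad x hx hx0, hAe x hx hx0, hAe' x hx hx0, dmn_inner_smul]
      ring
    · rw [hχ.2 x hxK]; simp
  · congr 1
    refine dle_JJ_congr hrD (fun x hx hx0 => ?_) (fun x _ hxK => ?_) w1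
    · rw [f1 x hx hx0, Finset.mul_sum]
      refine Finset.sum_congr rfl fun j _ => ?_
      rw [Finset.mul_sum]
      refine Finset.sum_congr rfl fun l _ => ?_
      rw [hψ.grad x hx hx0, hψ.grad x hx hx0, hAe x hx hx0, hAe' x hx hx0]
      have s1 : ∀ T : EndF N, inner ℂ (χ x • e) (T (χ x • e')) =
          (((χ x) ^ 2 : ℝ) : ℂ) * inner ℂ e (T e') := by
        intro T
        rw [ContinuousLinearMap.map_smul_of_tower, dmn_inner_smul]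
      have s2 : ∀ T : EndF N, inner ℂ (T (χ x • e)) (χ x • e') =
          (((χ x) ^ 2 : ℝ) : ℂ) * inner ℂ (T e) e' := by
        intro T
        rw [ContinuousLinearMap.map_smul_of_tower, dmn_inner_smul]
      rw [s1, s2]
      ring
    · rw [hχ.2 x hxK]; simp

theorem dalg_pointwise_all (hN : 0 < N) (hD : RelOpen D) (c₁ : CoefD D G₁ B₁ h₁)
    (c₂ : CoefD D G₂ B₂ h₂)
    (hE : ERelD D G₁ B₁ h₁ G₂ B₂ h₂) {m : ℕ}
    (hG : ∀ j l, Van D (m + 1) (fun x => G₁ x j l - G₂ x j l))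
    (hB : ∀ j, Van D m (fun x => B₁ j x - B₂ j x))
    (hh : Van D (m + 2) (fun x => h₁ x - h₂ x))
    (hskew : ∀ x ∈ D, x 0 = 0 → ∀ j, ContinuousLinearMap.adjoint
      ((pd (0 : Fin n))^[m] (fun y => B₁ j y - B₂ j y) x) =
        -((pd (0 : Fin n))^[m] (fun y => B₁ j y - B₂ j y) x))
    (hrow : ∀ x ∈ D, x 0 = 0 → ∑ l, G₂ x 0 l •
      (pd (0 : Fin n))^[m] (fun y => B₁ l y - B₂ l y) x = 0)
    {ξ : Fin n → ℝ} (hξ0 : ξ 0 = 0) {x : E n} (hx : x ∈ D) (hx0 : x 0 = 0) :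
    (∑ j, ∑ l, (G₂ x j l * ξ j) • (pd (0 : Fin n))^[m] (fun y => B₁ l y - B₂ l y) x = 0) ∧
      ∑ j, ∑ l, (((pd (0 : Fin n))^[m + 1] (fun y => G₁ y j l - G₂ y j l) x : ℝ) : ℂ) *
          ((starRingEnd ℂ) (zz (G₂ x) ξ j) * zz (G₂ x) ξ l) = 0 := by
  by_cases hξ : ξ = 0
  · subst hξ
    have hz : ∀ j, zz (G₂ x) 0 j = 0 := by
      intro j
      simp [zz, rho, bet]
    constructor
    · refine Finset.sum_eq_zero fun j _ => Finset.sum_eq_zero fun l _ => ?_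
      rw [Pi.zero_apply, mul_zero]
      exact zero_smul ℝ (_ : EndF N)
    · simp [hz]
  have hξ' : -ξ ≠ 0 := neg_ne_zero.2 hξ
  have hξ0' : (-ξ) 0 = 0 := by simp [hξ0]
  -- abbreviations
  obtain ⟨A, hA⟩ : ∃ A : Fin n → E n → EndF N, A = fun l y =>
    (pd (0 : Fin n))^[m] (fun y => B₁ l y - B₂ l y) y := ⟨_, rfl⟩
  obtain ⟨Γ, hΓ⟩ : ∃ Γ : Fin n → Fin n → E n → ℝ, Γ = fun j l y =>
    (pd (0 : Fin n))^[m + 1] (fun y => G₁ y j l - G₂ y j l) y := ⟨_, rfl⟩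
  have hA' : ∀ l y, (pd (0 : Fin n))^[m] (fun y => B₁ l y - B₂ l y) y = A l y := by
    intro l y; rw [hA]
  have hΓ' : ∀ j l y, (pd (0 : Fin n))^[m + 1] (fun y => G₁ y j l - G₂ y j l) y = Γ j l y := by
    intro j l y; rw [hΓ]
  have hAs : ∀ l, ContinuousOn (A l) D := by
    intro l
    rw [hA]
    exact (dv_smooth_iter hD ((c₁.smB l).sub (c₂.smB l)) m).continuousOn
  have hΓs : ∀ j l, ContinuousOn (Γ j l) D := by
    intro j l
    rw [hΓ]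
    exact (dv_smooth_iter hD ((c₁.smG j l).sub (c₂.smG j l)) (m + 1)).continuousOn
  have hΓsym : ∀ y ∈ D, ∀ j l, Γ j l y = Γ l j y := by
    intro y hy j l
    rw [hΓ]
    refine dv_iter_congr hD (fun z hz => ?_) (m + 1) hy
    rw [c₁.symm z hz j l, c₂.symm z hz j l]
  obtain ⟨r₁, hr₁, hb₁, H₁⟩ := e8_limit_zero hD c₁ c₂ hE hG hB hh hξ0 hξ hx hx0
  obtain ⟨r₂, hr₂, hb₂, H₂⟩ := e8_limit_zero hD c₁ c₂ hE hG hB hh hξ0' hξ' hx hx0
  simp only [hA', hΓ'] at H₁ H₂ hskew hrow ⊢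
  clear hA' hΓ'
  have hr : 0 < min r₁ r₂ := lt_min hr₁ hr₂
  have hbr : Metric.closedBall x (min r₁ r₂) ∩ Hs n ⊆ D := fun y hy =>
    hb₁ ⟨Metric.closedBall_subset_closedBall (min_le_left _ _) hy.1, hy.2⟩
  have hf1 : (((m + 1).factorial : ℕ) : ℂ)⁻¹ ≠ 0 :=
    inv_ne_zero (Nat.cast_ne_zero.2 (Nat.factorial_ne_zero _))
  have hf0 : ((m.factorial : ℕ) : ℂ)⁻¹ ≠ 0 :=
    inv_ne_zero (Nat.cast_ne_zero.2 (Nat.factorial_ne_zero _))
  -- the two families of integrals vanish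
  have key : ∀ χ, Bump x (min r₁ r₂) χ → ∀ e e' : Fib N,
      JJ G₂ ξ (m + 1) (fun x => ((χ x) ^ 2 : ℝ) * ∑ j, ∑ l, ((Γ j l x : ℝ) : ℂ) *
        ((starRingEnd ℂ) (zz (G₂ x) ξ j) * zz (G₂ x) ξ l * inner ℂ e e')) = 0 ∧
      JJ G₂ ξ m (fun x => ((χ x) ^ 2 : ℝ) * ∑ j, ∑ l, ((G₂ x j l * ξ j : ℝ) : ℂ) *
        inner ℂ e (A l x e')) = 0 := by
    intro χ hχ e e'
    have hχ1 : Bump x r₁ χ := ⟨hχ.1, fun y hy => hχ.2 y fun h =>
      hy (Metric.closedBall_subset_closedBall (min_le_left _ _) h)⟩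
    have hχ2 : Bump x r₂ χ := ⟨hχ.1, fun y hy => hχ.2 y fun h =>
      hy (Metric.closedBall_subset_closedBall (min_le_right _ _) h)⟩
    have K₁ := H₁ χ hχ1 e e'
    have K₂ := H₂ χ hχ2 e e'
    rw [dalg_JJ_neg_xi, dalg_JJ_neg_xi] at K₂
    -- membership
    have hmem : ∀ w : E n, w 0 = 0 → χ w ≠ 0 → w ∈ D := by
      intro w hw hne
      refine hbr ⟨?_, ?_⟩
      · by_contra h
        exact hne (hχ.2 w h)
      · show 0 ≤ w 0
        rw [hw]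
    -- first integrand
    have e1 : JJ G₂ ξ (m + 1) (fun x => ((χ x) ^ 2 : ℝ) * ∑ j, ∑ l, ((Γ j l x : ℝ) : ℂ) *
        ((starRingEnd ℂ) (zz (G₂ x) (-ξ) j) * zz (G₂ x) (-ξ) l * inner ℂ e e')) =
        JJ G₂ ξ (m + 1) (fun x => ((χ x) ^ 2 : ℝ) * ∑ j, ∑ l, ((Γ j l x : ℝ) : ℂ) *
        ((starRingEnd ℂ) (zz (G₂ x) ξ j) * zz (G₂ x) ξ l * inner ℂ e e')) := by
      refine dalg_JJ_congr fun w hw => ?_
      by_cases h0 : χ w = 0
      · simp [h0]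
      · rw [dalg_sym (Γ := fun j l => Γ j l w) (hΓsym w (hmem w hw h0))]
    -- second integrand
    have e2 : ∀ η : Fin n → ℝ, JJ G₂ ξ m (fun x => ((χ x) ^ 2 : ℝ) *
        ∑ j, ∑ l, (G₂ x j l : ℂ) * ((starRingEnd ℂ) (zz (G₂ x) η j) *
          inner ℂ e (A l x e') + zz (G₂ x) η l * inner ℂ (A j x e) e')) =
        (-2 * Complex.I) * JJ G₂ ξ m (fun x => ((χ x) ^ 2 : ℝ) *
          ∑ j, ∑ l, ((G₂ x j l * η j : ℝ) : ℂ) * inner ℂ e (A l x e')) := by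
      intro η
      rw [← dalg_JJ_mul]
      refine dalg_JJ_congr fun w hw => ?_
      by_cases h0 : χ w = 0
      · simp [h0]
      · have hwD := hmem w hw h0
        rw [dalg_algebra (c₂.symm w hwD) (hskew w hwD hw) (hrow w hwD hw)]
        ring
    have e3 : JJ G₂ ξ m (fun x => ((χ x) ^ 2 : ℝ) *
          ∑ j, ∑ l, ((G₂ x j l * (-ξ) j : ℝ) : ℂ) * inner ℂ e (A l x e')) =
        (-1) * JJ G₂ ξ m (fun x => ((χ x) ^ 2 : ℝ) *
          ∑ j, ∑ l, ((G₂ x j l * ξ j : ℝ) : ℂ) * inner ℂ e (A l x e')) := by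
      rw [← dalg_JJ_mul]
      refine dalg_JJ_congr fun w hw => ?_
      have : ∑ j, ∑ l, ((G₂ w j l * (-ξ) j : ℝ) : ℂ) * inner ℂ e (A l w e') =
          -∑ j, ∑ l, ((G₂ w j l * ξ j : ℝ) : ℂ) * inner ℂ e (A l w e') := by
        rw [← Finset.sum_neg_distrib]
        refine Finset.sum_congr rfl fun j _ => ?_
        rw [← Finset.sum_neg_distrib]
        refine Finset.sum_congr rfl fun l _ => ?_
        rw [Pi.neg_apply]
        push_cast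
        ring
      rw [this]
      ring
    rw [e1, e2, e3] at K₂
    rw [e2] at K₁
    set J₁ := JJ G₂ ξ (m + 1) (fun x => ((χ x) ^ 2 : ℝ) * ∑ j, ∑ l, ((Γ j l x : ℝ) : ℂ) *
        ((starRingEnd ℂ) (zz (G₂ x) ξ j) * zz (G₂ x) ξ l * inner ℂ e e'))
    set J₂ := JJ G₂ ξ m (fun x => ((χ x) ^ 2 : ℝ) *
          ∑ j, ∑ l, ((G₂ x j l * ξ j : ℝ) : ℂ) * inner ℂ e (A l x e'))
    constructor
    · have : (((m + 1).factorial : ℕ) : ℂ)⁻¹ * J₁ = 0 := by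
        linear_combination (K₁ + K₂) / 2
      exact (mul_eq_zero.1 this).resolve_left hf1
    · have : ((m.factorial : ℕ) : ℂ)⁻¹ * J₂ = 0 := by
        linear_combination (Complex.I / 4) * (K₁ - K₂) + (((m.factorial : ℕ) : ℂ)⁻¹ * J₂) *
          Complex.I_mul_I
      exact (mul_eq_zero.1 this).resolve_left hf0
  constructor
  · -- localisation of the second family
    have hloc : ∀ e e' : Fib N, ∑ j, ∑ l, ((G₂ x j l * ξ j : ℝ) : ℂ) * inner ℂ e (A l x e') = 0 := by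
      intro e e'
      refine dloc_eq hD c₂.toGOk hξ0 hξ (f := fun x => ∑ j, ∑ l, ((G₂ x j l * ξ j : ℝ) : ℂ) *
        inner ℂ e (A l x e')) ?_ hx hx0 hr hbr m fun χ hχ => (key χ hχ e e').2
      refine continuousOn_finsetSum _ fun j _ => continuousOn_finsetSum _ fun l _ => ?_
      refine ContinuousOn.mul ?_ ?_
      · exact Complex.continuous_ofReal.comp_continuousOn
          ((c₂.smG j l).continuousOn.mul continuousOn_const)
      · exact ContinuousOn.inner (𝕜 := ℂ) continuousOn_const ((hAs l).clm_apply continuousOn_const)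
    refine ContinuousLinearMap.ext fun e' => ?_
    refine ext_inner_left ℂ fun e => ?_
    rw [sum_apply, inner_sum, zero_apply, inner_zero_right, ← hloc e e']
    refine Finset.sum_congr rfl fun j _ => ?_
    rw [sum_apply, inner_sum]
    refine Finset.sum_congr rfl fun l _ => ?_
    rw [smul_apply, ← Complex.coe_smul, inner_smul_right]
  · -- localisation of the first family
    let e : Fib N := EuclideanSpace.single ⟨0, hN⟩ (1 : ℂ)
    have he : (inner ℂ e e : ℂ) = 1 := by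
      simp [e]
    refine dloc_eq hD c₂.toGOk hξ0 hξ (f := fun x => ∑ j, ∑ l, ((Γ j l x : ℝ) : ℂ) *
      ((starRingEnd ℂ) (zz (G₂ x) ξ j) * zz (G₂ x) ξ l)) ?_ hx hx0 hr hbr (m + 1) fun χ hχ => ?_
    · refine continuousOn_finsetSum _ fun j _ => continuousOn_finsetSum _ fun l _ => ?_
      refine ContinuousOn.mul (Complex.continuous_ofReal.comp_continuousOn (hΓs j l)) ?_
      exact (Complex.continuous_conj.comp_continuousOn
        (dalg_cont_zz hD c₂.toGOk hξ0 hξ j)).mul (dalg_cont_zz hD c₂.toGOk hξ0 hξ l)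
    · have := (key χ hχ e e).1
      simpa only [he, mul_one] using this

end Vale.Agent.P088.EYM
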