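import Vale.Agent.P088.H4.A4
import Vale.Agent.P088.H4.H823E

/-!
# P088: boundary determination to all orders (block A closed)
-/

open MeasureTheory Set Filter Topology
open scoped ContDiff

noncomputable section

namespace Vale.Agent.P088.EYM.H

theorem dAlgAll : DAlgAll := by
  intro n N _ D G₁ G₂ B₁ B₂ h₁ h₂ hN hD c₁ c₂ hE m hG hB hh hskew hrow ξ hξ0 x hx hx0
  exact dalg_pointwise_all hN hD c₁ c₂ hE hG hB hh hskew hrow hξ0 hx hx0

/-- Boundary determination of all derivatives, for arbitrary data. -/
theorem dAll : DAll_statement := dall_of dAlgAll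

end Vale.Agent.P088.EYM.H
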