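import Vale.Agent.P088.H4.HDefs

/-!
# P088, fourth order class: Ricci identity, contracted Bianchi identity, harmonic curvature
-/

set_option linter.all false

section

open MeasureTheory Set Filter Topology
open scoped ContDiff

noncomputable section

namespace Vale.Agent.P088.EYM.H

variable {n N : ℕ} [NeZero n]

theorem rm_eq_rup (g : E n → Matrix (Fin n) (Fin n) ℝ) (i j b c : Fin n) (x : E n) :
    rm g i j b c x = ∑ l, g x b l * rup g i j l c x := rfl

theorem ric_eq_rup (g : E n → Matrix (Fin n) (Fin n) ℝ) (j k : Fin n) (x : E n) :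
    ric g j k x = ∑ i, rup g i j i k x := rfl

/-! ### entrywise calculus of matrix functions -/

section Calc

variable {D : Set (E n)}

theorem h1_sm_add {F G : E n → Matrix (Fin n) (Fin n) ℝ} (hF : SmM F D) (hG : SmM G D) :
    SmM (fun y => F y + G y) D := fun a b => (hF a b).add (hG a b)

theorem h1_sm_sub {F G : E n → Matrix (Fin n) (Fin n) ℝ} (hF : SmM F D) (hG : SmM G D) :
    SmM (fun y => F y - G y) D := fun a b => (hF a b).sub (hG a b)

theorem h1_sm_pdM (hD : RelOpen D) {F : E n → Matrix (Fin n) (Fin n) ℝ} (hF : SmM F D)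
    (i : Fin n) : SmM (pdM i F) D := fun a b => hD.pd_smooth (hF a b) i

theorem h1_pdM_add (hD : RelOpen D) {F G : E n → Matrix (Fin n) (Fin n) ℝ} (hF : SmM F D)
    (hG : SmM G D) {x : E n} (hx : x ∈ D) (i : Fin n) :
    pdM i (fun y => F y + G y) x = pdM i F x + pdM i G x := by
  ext a b
  exact hD.pd_add (hF a b) (hG a b) hx i

theorem h1_pdM_sub (hD : RelOpen D) {F G : E n → Matrix (Fin n) (Fin n) ℝ} (hF : SmM F D)
    (hG : SmM G D) {x : E n} (hx : x ∈ D) (i : Fin n) :
    pdM i (fun y => F y - G y) x = pdM i F x - pdM i G x := by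
  ext a b
  exact hD.pd_sub (hF a b) (hG a b) hx i

theorem h1_pdM_neg (hD : RelOpen D) {F : E n → Matrix (Fin n) (Fin n) ℝ} (hF : SmM F D)
    {x : E n} (hx : x ∈ D) (i : Fin n) : pdM i (fun y => -F y) x = -pdM i F x := by
  ext a b
  exact pd_of_has (hD.subset hx) (hD.hasD hx (hF a b) (by simp)).neg i

theorem h1_pdM_comm (hD : RelOpen D) {F : E n → Matrix (Fin n) (Fin n) ℝ} (hF : SmM F D)
    {x : E n} (hx : x ∈ D) (i j : Fin n) : pdM i (pdM j F) x = pdM j (pdM i F) x := by
  ext a b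
  exact hD.pd_comm (hF a b) hx i j

theorem h1_pdM_transpose {F : E n → Matrix (Fin n) (Fin n) ℝ} (x : E n) (i : Fin n) :
    pdM i (fun y => (F y).transpose) x = (pdM i F x).transpose := rfl

theorem h1_sm_mchr (hD : RelOpen D) {g : E n → Matrix (Fin n) (Fin n) ℝ}
    (hg : GOk D g) (j : Fin n) : SmM (mchr g j) D :=
  fun a b => Ric_chr_smooth hD hg.smG hg.pos a j b

end Calc

/-- the curvature matrix `(R_{ij})^l_c` -/
def mR (g : E n → Matrix (Fin n) (Fin n) ℝ) (i j : Fin n) (x : E n) : Matrix (Fin n) (Fin n) ℝ :=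
  Matrix.of fun l c => rup g i j l c x

theorem mR_eq (g : E n → Matrix (Fin n) (Fin n) ℝ) (i j : Fin n) (x : E n) :
    mR g i j x = pdM i (mchr g j) x - pdM j (mchr g i) x +
      (mchr g i x * mchr g j x - mchr g j x * mchr g i x) := by
  ext l c
  rw [Matrix.add_apply, Matrix.sub_apply, Matrix.sub_apply, Matrix.mul_apply, Matrix.mul_apply,
    ← Finset.sum_sub_distrib]
  rfl

theorem mR_skew (g : E n → Matrix (Fin n) (Fin n) ℝ) (i j : Fin n) (x : E n) :
    mR g i j x = - mR g j i x := by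
  rw [mR_eq, mR_eq]
  abel

theorem rup_skew (g : E n → Matrix (Fin n) (Fin n) ℝ) (i j l c : Fin n) (x : E n) :
    rup g i j l c x = - rup g j i l c x :=
  congrFun (congrFun (mR_skew g i j x) l) c

section Main

variable {D : Set (E n)} {g : E n → Matrix (Fin n) (Fin n) ℝ}

theorem sm_mR (hD : RelOpen D) (hg : GOk D g) (i j : Fin n) : SmM (mR g i j) D := by
  have h : mR g i j = fun x => pdM i (mchr g j) x - pdM j (mchr g i) x +
      (mchr g i x * mchr g j x - mchr g j x * mchr g i x) := funext fun x => mR_eq g i j x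
  rw [h]
  have s := h1_sm_mchr hD hg
  exact h1_sm_add (h1_sm_sub (h1_sm_pdM hD (s j) i) (h1_sm_pdM hD (s i) j))
    (h1_sm_sub (Chr_sm_mul (s i) (s j)) (Chr_sm_mul (s j) (s i)))

/-! ### (H1) the Ricci identity -/

theorem nab2_mat (T : Fin n → Fin n → E n → ℝ) (a j k : Fin n) (y : E n) :
    nab2 g T a j k y = (pdM a (fun y => Matrix.of fun j k => T j k y) y -
      (mchr g a y).transpose * (Matrix.of fun j k => T j k y) -
      (Matrix.of fun j k => T j k y) * mchr g a y) j k := by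
  rw [Matrix.sub_apply, Matrix.sub_apply, Matrix.mul_apply, Matrix.mul_apply, sub_sub,
    ← Finset.sum_add_distrib]
  unfold nab2
  congr 1
  refine Finset.sum_congr rfl fun l _ => ?_
  change chr g l a j y * T l k y + chr g l a k y * T j l y =
    chr g l a j y * T l k y + T j l y * chr g l a k y
  ring

theorem ricci_id (hD : RelOpen D) (hg : GOk D g) {T : Fin n → Fin n → E n → ℝ}
    (hT : ∀ j k, ContDiffOn ℝ ∞ (T j k) D) {x : E n} (hx : x ∈ D) (a b j k : Fin n) :
    nab3 g (nab2 g T) a b j k x - nab3 g (nab2 g T) b a j k x =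
      -∑ l, (rup g a b l j x * T l k x + rup g a b l k x * T j l x) := by
  set Tm : E n → Matrix (Fin n) (Fin n) ℝ := fun y => Matrix.of fun j k => T j k y with hTm
  have sT : SmM Tm D := fun j k => hT j k
  have sΓ := h1_sm_mchr hD hg
  let Dm : Fin n → E n → Matrix (Fin n) (Fin n) ℝ := fun a y =>
    pdM a Tm y - (mchr g a y).transpose * Tm y - Tm y * mchr g a y
  have hn2 : ∀ a j k y, nab2 g T a j k y = Dm a y j k := fun a j k y => nab2_mat T a j k y
  have hn3 : ∀ a b, nab3 g (nab2 g T) a b j k x =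
      (pdM a (Dm b) x - (mchr g a x).transpose * Dm b x - Dm b x * mchr g a x) j k -
        ∑ l, chr g l a b x * nab2 g T l j k x := by
    intro a b
    rw [Matrix.sub_apply, Matrix.sub_apply, Matrix.mul_apply, Matrix.mul_apply]
    unfold nab3
    have e1 : pd a (nab2 g T b j k) x = pdM a (Dm b) x j k := by
      have : nab2 g T b j k = fun y => Dm b y j k := funext fun y => hn2 b j k y
      rw [this]
      rfl
    rw [e1]
    have e2 : ∑ l, (chr g l a b x * nab2 g T l j k x + chr g l a j x * nab2 g T b l k x +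
        chr g l a k x * nab2 g T b j l x) = ∑ l, chr g l a b x * nab2 g T l j k x +
        ∑ l, (mchr g a x).transpose j l * Dm b x l k + ∑ l, Dm b x j l * mchr g a x l k := by
      rw [← Finset.sum_add_distrib, ← Finset.sum_add_distrib]
      refine Finset.sum_congr rfl fun l _ => ?_
      rw [hn2 b l k, hn2 b j l]
      change _ = _ + chr g l a j x * Dm b x l k + Dm b x j l * chr g l a k x
      ring
    rw [e2]
    ring
  have hsym : ∑ l, chr g l a b x * nab2 g T l j k x = ∑ l, chr g l b a x * nab2 g T l j k x :=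
    Finset.sum_congr rfl fun l _ => by rw [chr_symm hD hg.pos hx l a b]
  have hpd : ∀ a b, pdM a (Dm b) x = pdM a (pdM b Tm) x -
      ((pdM a (mchr g b) x).transpose * Tm x + (mchr g b x).transpose * pdM a Tm x) -
      (pdM a Tm x * mchr g b x + Tm x * pdM a (mchr g b) x) := by
    intro a b
    have s1 : SmM (fun y => (mchr g b y).transpose * Tm y) D :=
      Chr_sm_mul (Chr_sm_transpose (sΓ b)) sT
    have s2 : SmM (fun y => Tm y * mchr g b y) D := Chr_sm_mul sT (sΓ b)
    have s3 : SmM (fun y => pdM b Tm y - (mchr g b y).transpose * Tm y) D :=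
      h1_sm_sub (h1_sm_pdM hD sT b) s1
    change pdM a (fun y => (pdM b Tm y - (mchr g b y).transpose * Tm y) - Tm y * mchr g b y) x = _
    rw [h1_pdM_sub hD s3 s2 hx a, h1_pdM_sub hD (h1_sm_pdM hD sT b) s1 hx a,
      Chr_pdM_mul hD (Chr_sm_transpose (sΓ b)) sT hx a, Chr_pdM_mul hD sT (sΓ b) hx a,
      h1_pdM_transpose]
  have hmat : (pdM a (Dm b) x - (mchr g a x).transpose * Dm b x - Dm b x * mchr g a x) -
      (pdM b (Dm a) x - (mchr g b x).transpose * Dm a x - Dm a x * mchr g b x) =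
      -((mR g a b x).transpose * Tm x + Tm x * mR g a b x) := by
    rw [hpd, hpd, h1_pdM_comm hD sT hx b a, mR_eq]
    simp only [Dm, Matrix.transpose_add, Matrix.transpose_sub, Matrix.transpose_mul]
    noncomm_ring
  rw [hn3, hn3, hsym]
  have h := congrFun (congrFun hmat j) k
  rw [Matrix.sub_apply, Matrix.neg_apply, Matrix.add_apply, Matrix.mul_apply,
    Matrix.mul_apply, ← Finset.sum_add_distrib] at h
  have h2 : ∑ l, ((mR g a b x).transpose j l * Tm x l k + Tm x j l * mR g a b x l k) =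
      ∑ l, (rup g a b l j x * T l k x + rup g a b l k x * T j l x) := by
    refine Finset.sum_congr rfl fun l _ => ?_
    change rup g a b l j x * T l k x + T j l x * rup g a b l k x = _
    ring
  rw [h2] at h
  linarith

/-! ### symmetries of the curvature -/

/-- `R_{ij}ᵀ g + g R_{ij} = 0` -/
theorem mR_metric (hD : RelOpen D) (hg : GOk D g) {x : E n} (hx : x ∈ D) (a b : Fin n) :
    (mR g a b x).transpose * g x + g x * mR g a b x = 0 := by
  have sΓ := h1_sm_mchr hD hg
  have sg : SmM g D := hg.smG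
  have hm : ∀ i, ∀ y ∈ D, pdM i g y = (mchr g i y).transpose * g y + g y * mchr g i y :=
    fun i y hy => chr_metric hD hg.pos hy i
  have h2 : ∀ a b, pdM a (pdM b g) x =
      ((pdM a (mchr g b) x).transpose * g x + (mchr g b x).transpose * pdM a g x) +
      (pdM a g x * mchr g b x + g x * pdM a (mchr g b) x) := by
    intro a b
    rw [Chr_pdM_congr hD (hm b) hx a,
      h1_pdM_add hD (Chr_sm_mul (Chr_sm_transpose (sΓ b)) sg) (Chr_sm_mul sg (sΓ b)) hx a,
      Chr_pdM_mul hD (Chr_sm_transpose (sΓ b)) sg hx a, Chr_pdM_mul hD sg (sΓ b) hx a,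
      h1_pdM_transpose]
  have h3 := h1_pdM_comm hD sg hx a b
  rw [h2, h2, hm a x hx, hm b x hx] at h3
  have h4 := sub_eq_zero.2 h3
  rw [← h4, mR_eq]
  simp only [Matrix.transpose_add, Matrix.transpose_sub, Matrix.transpose_mul]
  noncomm_ring

theorem g_transpose (hg : GOk D g) {x : E n} (hx : x ∈ D) : (g x).transpose = g x := by
  ext a b
  exact hg.symm x hx b a

theorem ginv_transpose (hg : GOk D g) {x : E n} (hx : x ∈ D) :
    ((g x)⁻¹).transpose = (g x)⁻¹ := by
  rw [Matrix.transpose_nonsing_inv, g_transpose hg hx]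

theorem g_unit (hg : GOk D g) {x : E n} (hx : x ∈ D) : IsUnit (g x).det :=
  (hg.pos x hx).det_pos.ne'.isUnit

/-- `R_{ij} g⁻¹` is antisymmetric -/
theorem mR_inv_skew (hD : RelOpen D) (hg : GOk D g) {x : E n} (hx : x ∈ D) (a b : Fin n) :
    (mR g a b x * (g x)⁻¹).transpose = - (mR g a b x * (g x)⁻¹) := by
  have h := mR_metric hD hg hx a b
  have hu := g_unit hg hx
  have h1 : (mR g a b x).transpose = - (g x * mR g a b x * (g x)⁻¹) := by
    have h2 : (mR g a b x).transpose * g x = - (g x * mR g a b x) := eq_neg_of_add_eq_zero_left h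
    have h3 : (mR g a b x).transpose * g x * (g x)⁻¹ = (mR g a b x).transpose := by
      rw [Matrix.mul_assoc, Matrix.mul_nonsing_inv _ hu, Matrix.mul_one]
    rw [← h3, h2, Matrix.neg_mul]
  rw [Matrix.transpose_mul, ginv_transpose hg hx, h1, Matrix.mul_neg, Matrix.mul_assoc,
    ← Matrix.mul_assoc, Matrix.nonsing_inv_mul _ hu, Matrix.one_mul]

theorem mR_trace (hD : RelOpen D) (hg : GOk D g) {x : E n} (hx : x ∈ D) (a b : Fin n) :
    ∑ l, rup g a b l l x = 0 := by
  have h := mR_metric hD hg hx a b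
  have hu := g_unit hg hx
  have h1 : Matrix.trace (mR g a b x) = - Matrix.trace (mR g a b x) := by
    have h2 : g x * mR g a b x = - ((mR g a b x).transpose * g x) :=
      eq_neg_of_add_eq_zero_right h
    have h3 : mR g a b x = - ((g x)⁻¹ * ((mR g a b x).transpose * g x)) := by
      rw [← Matrix.mul_neg, ← h2, ← Matrix.mul_assoc, Matrix.nonsing_inv_mul _ hu, Matrix.one_mul]
    have h4 : Matrix.trace ((g x)⁻¹ * ((mR g a b x).transpose * g x)) =
        Matrix.trace (mR g a b x) := by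
      rw [Matrix.trace_mul_comm, Matrix.mul_assoc, Matrix.mul_nonsing_inv _ hu, Matrix.mul_one,
        Matrix.trace_transpose]
    calc Matrix.trace (mR g a b x)
        = Matrix.trace (- ((g x)⁻¹ * ((mR g a b x).transpose * g x))) := by rw [← h3]
      _ = _ := by rw [Matrix.trace_neg, h4]
  have h5 : Matrix.trace (mR g a b x) = ∑ l, rup g a b l l x := rfl
  rw [h5] at h1
  linarith

/-- first Bianchi identity -/
theorem bianchi_one (hD : RelOpen D) (hg : GOk D g) {x : E n} (hx : x ∈ D) (a b c l : Fin n) :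
    rup g a b l c x + rup g b c l a x + rup g c a l b x = 0 := by
  have hs : ∀ k i j, ∀ y ∈ D, chr g k i j y = chr g k j i y :=
    fun k i j y hy => chr_symm hD hg.pos hy k i j
  have hp : ∀ p k i j, pd p (chr g k i j) x = pd p (chr g k j i) x :=
    fun p k i j => hD.pd_congr (fun y hy => hs k i j y hy) hx p
  unfold rup
  rw [hp b l c a, hp c l b a, hp a l c b]
  have e : (∑ m, (chr g l a m x * chr g m b c x - chr g l b m x * chr g m a c x)) +
      (∑ m, (chr g l b m x * chr g m c a x - chr g l c m x * chr g m b a x)) +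
      (∑ m, (chr g l c m x * chr g m a b x - chr g l a m x * chr g m c b x)) = 0 := by
    rw [← Finset.sum_add_distrib, ← Finset.sum_add_distrib]
    refine Finset.sum_eq_zero fun m _ => ?_
    rw [hs m c a x hx, hs m b a x hx, hs m c b x hx]
    ring
  linarith

theorem ric_symm (hD : RelOpen D) (hg : GOk D g) {x : E n} (hx : x ∈ D) (b c : Fin n) :
    ric g b c x = ric g c b x := by
  rw [ric_eq_rup, ric_eq_rup]
  have h : ∑ a, (rup g a b a c x + rup g b c a a x + rup g c a a b x) = 0 :=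
    Finset.sum_eq_zero fun a _ => bianchi_one hD hg hx a b c a
  rw [Finset.sum_add_distrib, Finset.sum_add_distrib, mR_trace hD hg hx b c] at h
  have h2 : ∑ a, rup g c a a b x = - ∑ a, rup g a c a b x := by
    rw [← Finset.sum_neg_distrib]
    exact Finset.sum_congr rfl fun a _ => rup_skew g c a a b x
  rw [h2] at h
  linarith

theorem sm_ric (hD : RelOpen D) (hg : GOk D g) (j k : Fin n) : ContDiffOn ℝ ∞ (ric g j k) D := by
  have h : ric g j k = fun x => ∑ i, rup g i j i k x := funext fun x => ric_eq_rup g j k x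
  rw [h]
  exact ContDiffOn.sum fun i _ => sm_mR hD hg i j i k

/-! ### second Bianchi identity -/

/-- `(∇_a R_{bc})^l_m`, without the form indices -/
def DR (g : E n → Matrix (Fin n) (Fin n) ℝ) (a b c : Fin n) (x : E n) :
    Matrix (Fin n) (Fin n) ℝ :=
  pdM a (mR g b c) x + mchr g a x * mR g b c x - mR g b c x * mchr g a x

/-- `(∇_a R_{bc})^l_m` -/
def nabR (g : E n → Matrix (Fin n) (Fin n) ℝ) (a b c : Fin n) (x : E n) :
    Matrix (Fin n) (Fin n) ℝ :=
  DR g a b c x - ∑ d, (chr g d a b x • mR g d c x + chr g d a c x • mR g b d x)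

theorem DR_cyclic (hD : RelOpen D) (hg : GOk D g) {x : E n} (hx : x ∈ D) (a b c : Fin n) :
    DR g a b c x + DR g b c a x + DR g c a b x = 0 := by
  have sΓ := h1_sm_mchr hD hg
  have h : ∀ a b c, pdM a (mR g b c) x = pdM a (pdM b (mchr g c)) x - pdM a (pdM c (mchr g b)) x +
      ((pdM a (mchr g b) x * mchr g c x + mchr g b x * pdM a (mchr g c) x) -
        (pdM a (mchr g c) x * mchr g b x + mchr g c x * pdM a (mchr g b) x)) := by
    intro a b c
    have h1 : mR g b c = fun x => (pdM b (mchr g c) x - pdM c (mchr g b) x) +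
      (mchr g b x * mchr g c x - mchr g c x * mchr g b x) := funext fun x => mR_eq g b c x
    rw [h1, h1_pdM_add hD (h1_sm_sub (h1_sm_pdM hD (sΓ c) b) (h1_sm_pdM hD (sΓ b) c))
      (h1_sm_sub (Chr_sm_mul (sΓ b) (sΓ c)) (Chr_sm_mul (sΓ c) (sΓ b))) hx a,
      h1_pdM_sub hD (h1_sm_pdM hD (sΓ c) b) (h1_sm_pdM hD (sΓ b) c) hx a,
      h1_pdM_sub hD (Chr_sm_mul (sΓ b) (sΓ c)) (Chr_sm_mul (sΓ c) (sΓ b)) hx a,
      Chr_pdM_mul hD (sΓ b) (sΓ c) hx a, Chr_pdM_mul hD (sΓ c) (sΓ b) hx a]
  unfold DR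
  rw [h, h, h, h1_pdM_comm hD (sΓ a) hx b c, h1_pdM_comm hD (sΓ b) hx a c,
    h1_pdM_comm hD (sΓ c) hx a b, mR_eq, mR_eq, mR_eq]
  noncomm_ring

theorem nabR_cyclic (hD : RelOpen D) (hg : GOk D g) {x : E n} (hx : x ∈ D) (a b c : Fin n) :
    nabR g a b c x + nabR g b c a x + nabR g c a b x = 0 := by
  have h := DR_cyclic hD hg hx a b c
  have hs : ∀ k i j, chr g k i j x = chr g k j i x := fun k i j => chr_symm hD hg.pos hx k i j
  have e : (∑ d, (chr g d a b x • mR g d c x + chr g d a c x • mR g b d x)) +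
      (∑ d, (chr g d b c x • mR g d a x + chr g d b a x • mR g c d x)) +
      (∑ d, (chr g d c a x • mR g d b x + chr g d c b x • mR g a d x)) = 0 := by
    rw [← Finset.sum_add_distrib, ← Finset.sum_add_distrib]
    refine Finset.sum_eq_zero fun d _ => ?_
    rw [hs d b a, hs d c a, hs d c b, mR_skew g c d, mR_skew g b d, mR_skew g a d]
    simp only [smul_neg]
    abel
  unfold nabR
  have e2 : ∀ X Y Z U V W : Matrix (Fin n) (Fin n) ℝ, X + Y + Z = 0 → U + V + W = 0 →
      (X - U) + (Y - V) + (Z - W) = 0 := by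
    intro X Y Z U V W h1 h2
    have : (X - U) + (Y - V) + (Z - W) = (X + Y + Z) - (U + V + W) := by abel
    rw [this, h1, h2, sub_zero]
  exact e2 _ _ _ _ _ _ h e

theorem nabR_skew (hD : RelOpen D) (hg : GOk D g) {x : E n} (hx : x ∈ D) (a b c : Fin n) :
    nabR g a b c x = - nabR g a c b x := by
  have h1 : mR g b c = fun y => -mR g c b y := funext fun y => mR_skew g b c y
  have h2 : pdM a (mR g b c) x = - pdM a (mR g c b) x := by
    rw [h1]
    exact h1_pdM_neg hD (sm_mR hD hg c b) hx a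
  unfold nabR DR
  rw [h2, mR_skew g b c]
  have e : ∑ d, (chr g d a b x • mR g d c x + chr g d a c x • mR g b d x) =
      - ∑ d, (chr g d a c x • mR g d b x + chr g d a b x • mR g c d x) := by
    rw [← Finset.sum_neg_distrib]
    refine Finset.sum_congr rfl fun d _ => ?_
    rw [mR_skew g d c, mR_skew g b d]
    simp only [smul_neg]
    abel
  rw [e]
  simp only [Matrix.mul_neg, Matrix.neg_mul]
  abel

/-- contraction of `∇ R` -/
theorem nabR_contr (hD : RelOpen D) (hg : GOk D g) {x : E n} (hx : x ∈ D) (c b m : Fin n) :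
    ∑ a, nabR g c a b x a m = dric g c b m x := by
  have h1 : ∀ a, nabR g c a b x a m = pd c (fun y => rup g a b a m y) x +
      ∑ e, chr g a c e x * rup g a b e m x - ∑ e, rup g a b a e x * chr g e c m x -
      ∑ d, (chr g d c a x * rup g d b a m x + chr g d c b x * rup g a d a m x) := by
    intro a
    unfold nabR DR
    rw [Matrix.sub_apply, Matrix.sub_apply, Matrix.add_apply, Matrix.sum_apply, Matrix.mul_apply,
      Matrix.mul_apply]
    rfl
  rw [Finset.sum_congr rfl fun a _ => h1 a, Finset.sum_sub_distrib, Finset.sum_sub_distrib,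
    Finset.sum_add_distrib]
  have e1 : ∑ a, pd c (fun y => rup g a b a m y) x = pd c (ric g b m) x := by
    have h2 : ric g b m = fun x => ∑ i, rup g i b i m x := funext fun x => ric_eq_rup g b m x
    have h3 := hD.pd_sum (f := fun i => rup g i b i m) Finset.univ
      (fun i _ => sm_mR hD hg i b i m) hx c
    rw [h2]
    exact h3.symm
  have e2 : ∑ a, ∑ e, rup g a b a e x * chr g e c m x = ∑ e, chr g e c m x * ric g b e x := by
    rw [Finset.sum_comm]
    refine Finset.sum_congr rfl fun e _ => ?_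
    rw [ric_eq_rup, Finset.mul_sum]
    exact Finset.sum_congr rfl fun a _ => mul_comm _ _
  have e3 : ∑ a, ∑ d, (chr g d c a x * rup g d b a m x + chr g d c b x * rup g a d a m x) =
      ∑ a, ∑ e, chr g a c e x * rup g a b e m x + ∑ d, chr g d c b x * ric g d m x := by
    simp only [Finset.sum_add_distrib]
    congr 1
    · rw [Finset.sum_comm]
    · rw [Finset.sum_comm]
      refine Finset.sum_congr rfl fun d _ => ?_
      rw [ric_eq_rup, Finset.mul_sum]
  rw [e1, e2, e3]
  unfold dric nab2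
  rw [Finset.sum_add_distrib]
  ring

/-- contracted second Bianchi identity -/
theorem nabR_div (hD : RelOpen D) (hg : GOk D g) {x : E n} (hx : x ∈ D) (b c m : Fin n) :
    ∑ a, nabR g a b c x a m = dric g b c m x - dric g c b m x := by
  have h : ∑ a, (nabR g a b c x a m + nabR g b c a x a m + nabR g c a b x a m) = 0 := by
    refine Finset.sum_eq_zero fun a _ => ?_
    have := congrFun (congrFun (nabR_cyclic hD hg hx a b c) a) m
    exact this
  rw [Finset.sum_add_distrib, Finset.sum_add_distrib, nabR_contr hD hg hx c b m] at h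
  have h2 : ∑ a, nabR g b c a x a m = - dric g b c m x := by
    rw [← nabR_contr hD hg hx b c m, ← Finset.sum_neg_distrib]
    refine Finset.sum_congr rfl fun a _ => ?_
    exact congrFun (congrFun (nabR_skew hD hg hx b c a) a) m
  rw [h2] at h
  linarith

/-- derivative of the inverse metric -/
theorem pdM_inv (hD : RelOpen D) (hg : GOk D g) {x : E n} (hx : x ∈ D) (a : Fin n) :
    pdM a (fun y => (g y)⁻¹) x =
      -(mchr g a x * (g x)⁻¹ + (g x)⁻¹ * (mchr g a x).transpose) := by
  have hu := g_unit hg hx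
  have h1 : pdM a (fun y => (g y)⁻¹) x = -((g x)⁻¹ * pdM a g x * (g x)⁻¹) := by
    ext p q
    have := hD.pd_minv hg.smG hg.pos hx a p q
    change pd a (fun y => (g y)⁻¹ p q) x = _
    rw [this, Matrix.neg_apply, Matrix.mul_apply, Finset.sum_comm]
    congr 1
    refine Finset.sum_congr rfl fun d _ => ?_
    rw [Matrix.mul_apply, Finset.sum_mul]
    rfl
  rw [h1, chr_metric hD hg.pos hx a, Matrix.mul_add, Matrix.add_mul]
  congr 1
  rw [add_comm]
  congr 1
  · rw [← Matrix.mul_assoc, Matrix.nonsing_inv_mul _ hu, Matrix.one_mul]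
  · rw [Matrix.mul_assoc, Matrix.mul_assoc, Matrix.mul_nonsing_inv _ hu, Matrix.mul_one]

/-- `(∇_a R_{bc}) g⁻¹` is antisymmetric -/
theorem nabR_inv_skew (hD : RelOpen D) (hg : GOk D g) {x : E n} (hx : x ∈ D) (a b c : Fin n) :
    (nabR g a b c x * (g x)⁻¹).transpose = - (nabR g a b c x * (g x)⁻¹) := by
  have hsk : ∀ b c, (mR g b c x * (g x)⁻¹).transpose = - (mR g b c x * (g x)⁻¹) :=
    fun b c => mR_inv_skew hD hg hx b c
  have sN : SmM (fun y => mR g b c y * (g y)⁻¹) D :=
    Chr_sm_mul (sm_mR hD hg b c) (hD.smM_inv hg.smG hg.pos)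
  have h1 : DR g a b c x * (g x)⁻¹ = pdM a (fun y => mR g b c y * (g y)⁻¹) x +
      mchr g a x * (mR g b c x * (g x)⁻¹) +
      (mR g b c x * (g x)⁻¹) * (mchr g a x).transpose := by
    rw [Chr_pdM_mul hD (sm_mR hD hg b c) (hD.smM_inv hg.smG hg.pos) hx a, pdM_inv hD hg hx a]
    unfold DR
    noncomm_ring
  have h2 : (pdM a (fun y => mR g b c y * (g y)⁻¹) x).transpose =
      - pdM a (fun y => mR g b c y * (g y)⁻¹) x := by
    rw [← h1_pdM_transpose]
    have : pdM a (fun y => (mR g b c y * (g y)⁻¹).transpose) x =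
        pdM a (fun y => -(mR g b c y * (g y)⁻¹)) x :=
      Chr_pdM_congr hD (fun y hy => mR_inv_skew hD hg hy b c) hx a
    rw [this]
    exact h1_pdM_neg hD sN hx a
  have h3 : (DR g a b c x * (g x)⁻¹).transpose = - (DR g a b c x * (g x)⁻¹) := by
    have h5 := hsk b c
    rw [h1]
    generalize mR g b c x * (g x)⁻¹ = Nn at h5 ⊢
    rw [Matrix.transpose_add, Matrix.transpose_add, Matrix.transpose_mul,
      Matrix.transpose_mul, h2, h5, Matrix.transpose_transpose]
    noncomm_ring
  unfold nabR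
  rw [Matrix.sub_mul, Matrix.transpose_sub, h3, Matrix.sum_mul, Matrix.transpose_sum]
  have h4 : ∑ d, ((chr g d a b x • mR g d c x + chr g d a c x • mR g b d x) * (g x)⁻¹).transpose =
      - ∑ d, (chr g d a b x • mR g d c x + chr g d a c x • mR g b d x) * (g x)⁻¹ := by
    rw [← Finset.sum_neg_distrib]
    refine Finset.sum_congr rfl fun d _ => ?_
    rw [Matrix.add_mul, Matrix.smul_mul, Matrix.smul_mul, Matrix.transpose_add,
      Matrix.transpose_smul, Matrix.transpose_smul, hsk, hsk]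
    simp only [smul_neg]
    abel
  rw [h4]
  abel

theorem dric_symm (hD : RelOpen D) (hg : GOk D g) {x : E n} (hx : x ∈ D) (a j m : Fin n) :
    dric g a j m x = dric g a m j x := by
  unfold dric nab2
  rw [hD.pd_congr (fun y hy => ric_symm hD hg hy j m) hx a]
  congr 1
  refine Finset.sum_congr rfl fun l _ => ?_
  rw [ric_symm hD hg hx l m, ric_symm hD hg hx j l]
  ring

/-- double contraction of `∇ R` -/
theorem nabR_double (hD : RelOpen D) (hg : GOk D g) {x : E n} (hx : x ∈ D) (k : Fin n) :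
    ∑ c, ∑ m, (g x)⁻¹ m c * (dric g k c m x - dric g c k m x) =
      ∑ a, ∑ b, (g x)⁻¹ a b * dric g a b k x := by
  have h1 : ∑ a, ∑ c, (nabR g a k c x * (g x)⁻¹) a c =
      ∑ c, ∑ m, (g x)⁻¹ m c * (dric g k c m x - dric g c k m x) := by
    have : ∀ a, ∑ c, (nabR g a k c x * (g x)⁻¹) a c =
        ∑ c, ∑ m, nabR g a k c x a m * (g x)⁻¹ m c := fun a =>
      Finset.sum_congr rfl fun c _ => Matrix.mul_apply
    rw [Finset.sum_congr rfl fun a _ => this a, Finset.sum_comm]
    refine Finset.sum_congr rfl fun c _ => ?_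
    rw [Finset.sum_comm]
    refine Finset.sum_congr rfl fun m _ => ?_
    rw [← Finset.sum_mul, nabR_div hD hg hx k c m, mul_comm]
  have h2 : ∀ a c, (nabR g a k c x * (g x)⁻¹) a c = (nabR g a c k x * (g x)⁻¹) c a := by
    intro a c
    have e1 := congrFun (congrFun (nabR_inv_skew hD hg hx a k c) c) a
    rw [Matrix.transpose_apply, Matrix.neg_apply] at e1
    rw [e1, nabR_skew hD hg hx a k c, Matrix.neg_mul, Matrix.neg_apply, neg_neg]
  have h3 : ∑ a, ∑ c, (nabR g a k c x * (g x)⁻¹) a c =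
      ∑ a, ∑ m, (g x)⁻¹ m a * dric g a k m x := by
    refine Finset.sum_congr rfl fun a _ => ?_
    have : ∀ c, (nabR g a k c x * (g x)⁻¹) a c = ∑ m, nabR g a c k x c m * (g x)⁻¹ m a :=
      fun c => by rw [h2 a c, Matrix.mul_apply]
    rw [Finset.sum_congr rfl fun c _ => this c, Finset.sum_comm]
    refine Finset.sum_congr rfl fun m _ => ?_
    rw [← Finset.sum_mul, nabR_contr hD hg hx a k m, mul_comm]
  rw [← h1, h3]
  refine Finset.sum_congr rfl fun a _ => Finset.sum_congr rfl fun b _ => ?_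
  have e : (g x)⁻¹ b a = (g x)⁻¹ a b := congrFun (congrFun (ginv_transpose hg hx) a) b
  rw [e, dric_symm hD hg hx a b k]

/-- (H2) harmonic curvature: the Ricci tensor has divergence zero. -/
theorem harm_div (hD : RelOpen D) (hg : GOk D g)
    (hcod : ∀ x ∈ D, ∀ a j k, dric g a j k x = dric g j a k x) {x : E n} (hx : x ∈ D)
    (k : Fin n) : ∑ a, ∑ b, (g x)⁻¹ a b * dric g a b k x = 0 := by
  rw [← nabR_double hD hg hx k]
  refine Finset.sum_eq_zero fun c _ => Finset.sum_eq_zero fun m _ => ?_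
  rw [hcod x hx k c m, sub_self, mul_zero]

/-- `∂_j (g^{ab} T_{ab}) = g^{ab} ∇_j T_{ab}` -/
theorem pd_trace (hD : RelOpen D) (hg : GOk D g) {T : Fin n → Fin n → E n → ℝ}
    (hT : ∀ a b, ContDiffOn ℝ ∞ (T a b) D) {x : E n} (hx : x ∈ D) (j : Fin n) :
    pd j (fun y => ∑ a, ∑ b, (g y)⁻¹ a b * T a b y) x =
      ∑ a, ∑ b, (g x)⁻¹ a b * nab2 g T j a b x := by
  have sG := hD.smM_inv hg.smG hg.pos
  have h2 : pd j (fun y => ∑ a, ∑ b, (g y)⁻¹ a b * T a b y) x =
      ∑ a, ∑ b, ((g x)⁻¹ a b * pd j (T a b) x + pd j (fun y => (g y)⁻¹ a b) x * T a b x) := by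
    rw [hD.pd_sum _ (fun a _ => ContDiffOn.sum fun b _ => (sG a b).mul (hT a b)) hx j]
    refine Finset.sum_congr rfl fun a _ => ?_
    rw [hD.pd_sum _ (fun b _ => (sG a b).mul (hT a b)) hx j]
    refine Finset.sum_congr rfl fun b _ => ?_
    exact hD.pd_mul (sG a b) (hT a b) hx j
  have h3 : ∀ a b, pd j (fun y => (g y)⁻¹ a b) x =
      -(∑ l, chr g a j l x * (g x)⁻¹ l b + ∑ l, (g x)⁻¹ a l * chr g b j l x) := by
    intro a b
    have := congrFun (congrFun (pdM_inv hD hg hx j) a) b
    rw [Matrix.neg_apply, Matrix.add_apply, Matrix.mul_apply, Matrix.mul_apply] at this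
    exact this
  have e1 : ∑ a, ∑ b, (g x)⁻¹ a b * ∑ l, chr g l j a x * T l b x =
      ∑ a, ∑ b, (∑ l, chr g a j l x * (g x)⁻¹ l b) * T a b x := by
    simp only [Finset.mul_sum, Finset.sum_mul]
    rw [Finset.sum_comm]
    rw [Finset.sum_comm (f := fun a b => ∑ l, chr g a j l x * (g x)⁻¹ l b * T a b x)]
    refine Finset.sum_congr rfl fun b _ => ?_
    rw [Finset.sum_comm]
    refine Finset.sum_congr rfl fun a _ => Finset.sum_congr rfl fun l _ => ?_
    ring
  have e2 : ∑ a, ∑ b, (g x)⁻¹ a b * ∑ l, chr g l j b x * T a l x =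
      ∑ a, ∑ b, (∑ l, (g x)⁻¹ a l * chr g b j l x) * T a b x := by
    simp only [Finset.mul_sum, Finset.sum_mul]
    refine Finset.sum_congr rfl fun a _ => ?_
    rw [Finset.sum_comm]
    refine Finset.sum_congr rfl fun b _ => Finset.sum_congr rfl fun l _ => ?_
    ring
  have h4 : ∑ a, ∑ b, (g x)⁻¹ a b * nab2 g T j a b x =
      ∑ a, ∑ b, (g x)⁻¹ a b * pd j (T a b) x -
      ∑ a, ∑ b, (g x)⁻¹ a b * ∑ l, chr g l j a x * T l b x -
      ∑ a, ∑ b, (g x)⁻¹ a b * ∑ l, chr g l j b x * T a l x := by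
    simp only [← Finset.sum_sub_distrib]
    refine Finset.sum_congr rfl fun a _ => Finset.sum_congr rfl fun b _ => ?_
    unfold nab2
    rw [Finset.sum_add_distrib]
    ring
  have h5 : ∑ a, ∑ b, ((g x)⁻¹ a b * pd j (T a b) x +
      pd j (fun y => (g y)⁻¹ a b) x * T a b x) =
      ∑ a, ∑ b, (g x)⁻¹ a b * pd j (T a b) x -
      ∑ a, ∑ b, (∑ l, chr g a j l x * (g x)⁻¹ l b) * T a b x -
      ∑ a, ∑ b, (∑ l, (g x)⁻¹ a l * chr g b j l x) * T a b x := by
    simp only [← Finset.sum_sub_distrib]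
    refine Finset.sum_congr rfl fun a _ => Finset.sum_congr rfl fun b _ => ?_
    rw [h3 a b]
    ring
  rw [h2, h5, h4, e1, e2]

/-- the contracted second Bianchi identity -/
theorem cbianchi (hD : RelOpen D) (hg : GOk D g) {x : E n} (hx : x ∈ D) (k : Fin n) :
    2 * ∑ a, ∑ b, (g x)⁻¹ a b * dric g a b k x = pd k (sca g) x := by
  have h1 := nabR_double hD hg hx k
  have h2 : pd k (sca g) x = ∑ a, ∑ b, (g x)⁻¹ a b * dric g k a b x :=
    pd_trace hD hg (T := ric g) (sm_ric hD hg) hx k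
  have hsy : ∀ a b, (g x)⁻¹ b a = (g x)⁻¹ a b := fun a b =>
    congrFun (congrFun (ginv_transpose hg hx) a) b
  have h3 : ∑ c, ∑ m, (g x)⁻¹ m c * (dric g k c m x - dric g c k m x) =
      ∑ a, ∑ b, (g x)⁻¹ a b * dric g k a b x - ∑ a, ∑ b, (g x)⁻¹ a b * dric g a b k x := by
    simp only [← Finset.sum_sub_distrib]
    refine Finset.sum_congr rfl fun c _ => Finset.sum_congr rfl fun m _ => ?_
    rw [hsy c m, dric_symm hD hg hx c k m]
    ring
  rw [h2]
  rw [h3] at h1
  linarith

/-! ### (H3a) the Laplacian of the Ricci tensor -/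

/-- `g^{ab} ∇_j` of a `3`-tensor with vanishing `g`-trace vanishes. -/
theorem trace_nab3 (hD : RelOpen D) (hg : GOk D g) {S : Fin n → Fin n → Fin n → E n → ℝ}
    (hS : ∀ a b k, ContDiffOn ℝ ∞ (S a b k) D)
    (h0 : ∀ x ∈ D, ∀ k, ∑ a, ∑ b, (g x)⁻¹ a b * S a b k x = 0) {x : E n} (hx : x ∈ D)
    (j k : Fin n) : ∑ a, ∑ b, (g x)⁻¹ a b * nab3 g S j a b k x = 0 := by
  have sG := hD.smM_inv hg.smG hg.pos
  have h1 : pd j (fun y => ∑ a, ∑ b, (g y)⁻¹ a b * S a b k y) x = 0 := by
    rw [hD.pd_congr (g := fun _ => (0 : ℝ)) (fun y hy => h0 y hy k) hx j, pd_const]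
  have h2 : pd j (fun y => ∑ a, ∑ b, (g y)⁻¹ a b * S a b k y) x =
      ∑ a, ∑ b, ((g x)⁻¹ a b * pd j (S a b k) x + pd j (fun y => (g y)⁻¹ a b) x * S a b k x) := by
    rw [hD.pd_sum _ (fun a _ => ContDiffOn.sum fun b _ => (sG a b).mul (hS a b k)) hx j]
    refine Finset.sum_congr rfl fun a _ => ?_
    rw [hD.pd_sum _ (fun b _ => (sG a b).mul (hS a b k)) hx j]
    refine Finset.sum_congr rfl fun b _ => ?_
    exact hD.pd_mul (sG a b) (hS a b k) hx j
  have h3 : ∀ a b, pd j (fun y => (g y)⁻¹ a b) x =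
      -(∑ l, chr g a j l x * (g x)⁻¹ l b + ∑ l, (g x)⁻¹ a l * chr g b j l x) := by
    intro a b
    have := congrFun (congrFun (pdM_inv hD hg hx j) a) b
    rw [Matrix.neg_apply, Matrix.add_apply, Matrix.mul_apply, Matrix.mul_apply] at this
    exact this
  have e1 : ∑ a, ∑ b, (g x)⁻¹ a b * ∑ l, chr g l j a x * S l b k x =
      ∑ a, ∑ b, (∑ l, chr g a j l x * (g x)⁻¹ l b) * S a b k x := by
    simp only [Finset.mul_sum, Finset.sum_mul]
    rw [Finset.sum_comm]
    rw [Finset.sum_comm (f := fun a b => ∑ l, chr g a j l x * (g x)⁻¹ l b * S a b k x)]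
    refine Finset.sum_congr rfl fun b _ => ?_
    rw [Finset.sum_comm]
    refine Finset.sum_congr rfl fun a _ => Finset.sum_congr rfl fun l _ => ?_
    ring
  have e2 : ∑ a, ∑ b, (g x)⁻¹ a b * ∑ l, chr g l j b x * S a l k x =
      ∑ a, ∑ b, (∑ l, (g x)⁻¹ a l * chr g b j l x) * S a b k x := by
    simp only [Finset.mul_sum, Finset.sum_mul]
    refine Finset.sum_congr rfl fun a _ => ?_
    rw [Finset.sum_comm]
    refine Finset.sum_congr rfl fun b _ => Finset.sum_congr rfl fun l _ => ?_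
    ring
  have e3 : ∑ a, ∑ b, (g x)⁻¹ a b * ∑ l, chr g l j k x * S a b l x = 0 := by
    simp only [Finset.mul_sum]
    have : ∀ a, ∑ b, ∑ l, (g x)⁻¹ a b * (chr g l j k x * S a b l x) =
        ∑ l, chr g l j k x * ∑ b, (g x)⁻¹ a b * S a b l x := by
      intro a
      rw [Finset.sum_comm]
      refine Finset.sum_congr rfl fun l _ => ?_
      rw [Finset.mul_sum]
      exact Finset.sum_congr rfl fun b _ => by ring
    rw [Finset.sum_congr rfl fun a _ => this a, Finset.sum_comm]
    refine Finset.sum_eq_zero fun l _ => ?_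
    rw [← Finset.mul_sum, h0 x hx l, mul_zero]
  have h4 : ∑ a, ∑ b, (g x)⁻¹ a b * nab3 g S j a b k x =
      ∑ a, ∑ b, (g x)⁻¹ a b * pd j (S a b k) x -
      ∑ a, ∑ b, (g x)⁻¹ a b * ∑ l, chr g l j a x * S l b k x -
      ∑ a, ∑ b, (g x)⁻¹ a b * ∑ l, chr g l j b x * S a l k x -
      ∑ a, ∑ b, (g x)⁻¹ a b * ∑ l, chr g l j k x * S a b l x := by
    simp only [← Finset.sum_sub_distrib]
    refine Finset.sum_congr rfl fun a _ => Finset.sum_congr rfl fun b _ => ?_
    unfold nab3
    rw [Finset.sum_add_distrib, Finset.sum_add_distrib]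
    ring
  have h5 : ∑ a, ∑ b, ((g x)⁻¹ a b * pd j (S a b k) x +
      pd j (fun y => (g y)⁻¹ a b) x * S a b k x) =
      ∑ a, ∑ b, (g x)⁻¹ a b * pd j (S a b k) x -
      ∑ a, ∑ b, (∑ l, chr g a j l x * (g x)⁻¹ l b) * S a b k x -
      ∑ a, ∑ b, (∑ l, (g x)⁻¹ a l * chr g b j l x) * S a b k x := by
    simp only [← Finset.sum_sub_distrib]
    refine Finset.sum_congr rfl fun a _ => Finset.sum_congr rfl fun b _ => ?_
    rw [h3 a b]
    ring
  rw [h4, e1, e2, e3, sub_zero, ← h5, ← h2, h1]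

theorem sm_dric (hD : RelOpen D) (hg : GOk D g) (a j k : Fin n) :
    ContDiffOn ℝ ∞ (dric g a j k) D := by
  unfold dric nab2
  refine (hD.pd_smooth (sm_ric hD hg j k) a).sub (ContDiffOn.sum fun l _ => ?_)
  exact ((Ric_chr_smooth hD hg.smG hg.pos l a j).mul (sm_ric hD hg l k)).add
    ((Ric_chr_smooth hD hg.smG hg.pos l a k).mul (sm_ric hD hg j l))

/-- `g^{ab} ∇_a ∇_j R_{bk}` for metrics whose Ricci tensor has divergence zero -/
theorem divcomm_of_div (hD : RelOpen D) (hg : GOk D g)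
    (hdiv : ∀ x ∈ D, ∀ k, ∑ a, ∑ b, (g x)⁻¹ a b * dric g a b k x = 0) {x : E n} (hx : x ∈ D)
    (j k : Fin n) : ∑ a, ∑ b, (g x)⁻¹ a b * nab3 g (dric g) a j b k x = comR g j k x := by
  have h2 : ∀ a b, nab3 g (dric g) a j b k x = nab3 g (dric g) j a b k x -
      ∑ l, (rup g a j l b x * ric g l k x + rup g a j l k x * ric g b l x) := by
    intro a b
    have := ricci_id hD hg (T := ric g) (sm_ric hD hg) hx a j b k
    have e : nab2 g (ric g) = dric g := rfl
    rw [e] at this
    linarith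
  have h3 := trace_nab3 hD hg (S := dric g) (sm_dric hD hg) hdiv hx j k
  have h4 : ∑ a, ∑ b, (g x)⁻¹ a b * nab3 g (dric g) a j b k x =
      ∑ a, ∑ b, (g x)⁻¹ a b * nab3 g (dric g) j a b k x -
      ∑ a, ∑ b, (g x)⁻¹ a b * ∑ l, (rup g a j l b x * ric g l k x +
        rup g a j l k x * ric g b l x) := by
    simp only [← Finset.sum_sub_distrib]
    refine Finset.sum_congr rfl fun a _ => Finset.sum_congr rfl fun b _ => ?_
    rw [h2 a b]
    ring
  rw [h4, h3, zero_sub]
  rfl

/-- `g^{ab} ∇_a ∇_j R_{bk}` for metrics of constant scalar curvature -/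
theorem divcomm (hD : RelOpen D) (hg : GOk D g) {s : ℝ} (hs : ∀ x ∈ D, sca g x = s) {x : E n}
    (hx : x ∈ D) (j k : Fin n) :
    ∑ a, ∑ b, (g x)⁻¹ a b * nab3 g (dric g) a j b k x = comR g j k x := by
  refine divcomm_of_div hD hg (fun y hy k => ?_) hx j k
  have h1 := cbianchi hD hg hy k
  rw [hD.pd_congr (g := fun _ => s) (fun z hz => hs z hz) hy k, pd_const] at h1
  linarith

/-- (H3a) the Laplacian of the Ricci tensor of a metric with harmonic curvature -/
theorem harm_lap_eq (hD : RelOpen D) (hg : GOk D g)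
    (hcod : ∀ x ∈ D, ∀ a j k, dric g a j k x = dric g j a k x) {x : E n} (hx : x ∈ D)
    (j k : Fin n) : lapRic g j k x = comR g j k x := by
  rw [← divcomm_of_div hD hg (fun y hy k => harm_div hD hg hcod hy k) hx j k]
  unfold lapRic
  refine Finset.sum_congr rfl fun a _ => Finset.sum_congr rfl fun b _ => ?_
  congr 1
  unfold nab3
  rw [hD.pd_congr (fun y hy => hcod y hy b j k) hx a]
  congr 1
  refine Finset.sum_congr rfl fun l _ => ?_
  rw [hcod x hx l j k, hcod x hx b l k, hcod x hx b j l]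
  ring

end Main

theorem ricciId : RicciId_statement := by
  intro n _ D g T hD hg hT x hx a b j k
  exact ricci_id hD hg hT hx a b j k

theorem cBianchi : CBianchi_statement := by
  intro n _ D g hD hg x hx k
  exact cbianchi hD hg hx k

theorem harmLap : HarmLap_statement := by
  intro n _ D g hD hg hcod x hx j k
  exact harm_lap_eq hD hg hcod hx j k

end Vale.Agent.P088.EYM.H

end

end
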