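import Vale.Agent.P088.E.St

/-!
# P088: natural equations for the Laplacian of the Ricci tensor
-/

open Manifold MeasureTheory Set
open scoped ContDiff Matrix

noncomputable section

namespace Vale.Agent.P088.B

universe u

variable {n N : ℕ} {M : Type u} {Z : At n M}

/-- The connection matrices `(Γ_a)^b_c = Γ^b_{ac}` of the Levi-Civita connection. -/
def lc (g : V n → Matrix (Fin n) (Fin n) ℝ) (a : Fin n) (y : V n) : Matrix (Fin n) (Fin n) ℝ :=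
  fun b c => chris g b a c y

/-- The curvature tensor `R_{ijbc} = g_{bl} R_{ij}^l_c`, where `R_{ij}^l_c` is
`∂_i Γ^l_{jc} - ∂_j Γ^l_{ic} + Γ^l_{im} Γ^m_{jc} - Γ^l_{jm} Γ^m_{ic}`. -/
def Rm (g : V n → Matrix (Fin n) (Fin n) ℝ) (i j : Fin n) (y : V n) :
    Matrix (Fin n) (Fin n) ℝ := g y * curv (lc g) i j y

/-- The Ricci tensor `R_{jk} = R_{ij}^i_k`, as in `Eqs`. -/
def Ric (g : V n → Matrix (Fin n) (Fin n) ℝ) (y : V n) : Matrix (Fin n) (Fin n) ℝ :=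
  fun j k => ∑ i, curv (lc g) i j y i k

/-- The covariant derivative `∇_a T_{jk} = ∂_a T_{jk} - Γ^l_{aj} T_{lk} - Γ^l_{ak} T_{jl}`. -/
def cd (g T : V n → Matrix (Fin n) (Fin n) ℝ) (a : Fin n) (y : V n) :
    Matrix (Fin n) (Fin n) ℝ :=
  dM T y a - (lc g a y)ᵀ * T y - T y * lc g a y

/-- The second covariant derivative `∇_a ∇_b T_{jk}`. -/
def cdd (g T : V n → Matrix (Fin n) (Fin n) ℝ) (a b : Fin n) (y : V n) :
    Matrix (Fin n) (Fin n) ℝ :=
  dM (cd g T b) y a - (lc g a y)ᵀ * cd g T b y - cd g T b y * lc g a y -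
    ∑ l, chris g l a b y • cd g T l y

/-- `∇_a F_{ij} = ∂_a F_{ij} + [A_a, F_{ij}] - Γ^l_{ai} F_{lj} - Γ^l_{aj} F_{il}`, where `F` is the
curvature of `A`. -/
def cdF (g : V n → Matrix (Fin n) (Fin n) ℝ) (A : Fin n → V n → Matrix (Fin N) (Fin N) ℂ)
    (a i j : Fin n) (y : V n) : Matrix (Fin N) (Fin N) ℂ :=
  dM (curv A i j) y a + ⁅A a y, curv A i j y⁆ -
    ∑ l, (chris g l a i y • curv A l j y + chris g l a j y • curv A i l y)

/-- The type of the right hand sides: 2-tensors `Φ(g, Rm, ∇Ric, F, ∇F)` which depend on the values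
of the metric, of its curvature tensor, of `∇Ric`, of the curvature `F` of the connection and of
`∇F` at a point. -/
abbrev Rhs (n N : ℕ) := Matrix (Fin n) (Fin n) ℝ → (Fin n → Fin n → Matrix (Fin n) (Fin n) ℝ) →
  (Fin n → Matrix (Fin n) (Fin n) ℝ) → (Fin n → Fin n → Matrix (Fin N) (Fin N) ℂ) →
  (Fin n → Fin n → Fin n → Matrix (Fin N) (Fin N) ℂ) → Matrix (Fin n) (Fin n) ℝ

/-- `Jᵀ X J` -/
def cgr4 (J X : Matrix (Fin n) (Fin n) ℝ) : Matrix (Fin n) (Fin n) ℝ := Jᵀ * X * J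

/-- `∑_a J_{ai} X_a` -/
def pr4 (J : Matrix (Fin n) (Fin n) ℝ) (X : Fin n → Matrix (Fin n) (Fin n) ℝ) (i : Fin n) :
    Matrix (Fin n) (Fin n) ℝ := ∑ a, J a i • X a

/-- `∑_a J_{ai} X_a` -/
def pc4 (J : Matrix (Fin n) (Fin n) ℝ) (X : Fin n → Matrix (Fin N) (Fin N) ℂ) (i : Fin n) :
    Matrix (Fin N) (Fin N) ℂ := ∑ a, J a i • X a

/-- `U^* X U` -/
def cu4 (U X : Matrix (Fin N) (Fin N) ℂ) : Matrix (Fin N) (Fin N) ℂ := Uᴴ * X * U

/-- `Φ` is natural: covariant under changes of coordinates (with Jacobian matrix `J`), invariant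
under unitary changes of frame, and locally Lipschitz. -/
structure Nat4 (Φ : Rhs n N) : Prop where
  cov : ∀ G K R F D J, G.PosDef → IsUnit J →
    Φ (cgr4 J G) (fun i j => pr4 J (fun a => pr4 J (fun b => cgr4 J (K a b)) j) i)
      (pr4 J (fun a => cgr4 J (R a))) (fun i j => pc4 J (fun a => pc4 J (F a) j) i)
      (fun k i j => pc4 J (fun c => pc4 J (fun a => pc4 J (D c a) j) i) k) = cgr4 J (Φ G K R F D)
  inv : ∀ G K R F D U, G.PosDef → Uᴴ * U = 1 →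
    Φ G K R (fun i j => cu4 U (F i j)) (fun k i j => cu4 U (D k i j)) = Φ G K R F D
  lip : ∀ j k, LocallyLipschitzOn
    {x : Fin n → Fin n → ℝ × (Fin n → Fin n → ℝ) × (Fin n → ℝ) × (Fin N → Fin N → ℂ) ×
      (Fin n → Fin N → Fin N → ℂ) | Matrix.PosDef (fun i j => (x i j).1)}
    (fun x => Φ (fun i j => (x i j).1) (fun i j => (x i j).2.1) (fun a i j => (x i j).2.2.1 a)
      (fun i j => (x i j).2.2.2.1) (fun a i j => (x i j).2.2.2.2 a) j k)

/-- The equations at the point `y` in a chart: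
`g^{ab} ∇_a ∇_b R_{jk} = Φ_{jk}(g, Rm, ∇Ric, F, ∇F)`, and `d_A^* F = 0`, that is
`g^{ij} ∇_i F_{jk} = 0`. -/
def Eqs4 (Φ : Rhs n N) (g : V n → Matrix (Fin n) (Fin n) ℝ)
    (A : Fin n → V n → Matrix (Fin N) (Fin N) ℂ) (y : V n) : Prop :=
  ∑ a, ∑ b, (g y)⁻¹ a b • cdd g (Ric g) a b y =
    Φ (g y) (fun i j => Rm g i j y) (fun a => cd g (Ric g) a y) (fun i j => curv A i j y)
      (fun a i j => cdF g A a i j y) ∧
  ∀ k, ∑ i, ∑ j, (g y)⁻¹ i j • cdF g A i j k y = 0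

/-- The equations hold at the points of `W`, in every chart. -/
def Sat4 (Φ : Rhs n N) (W : Set M) (P : Pair Z N) : Prop :=
  ∀ p, ∀ x ∈ Z.src p ∩ W, Eqs4 Φ (gch Z P.g p) (ach Z P.A p) (Z.ch p x)

end Vale.Agent.P088.B
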