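import Vale.Agent.P088.TM.StU
import Vale.Agent.P088.H4.St4

/-!
# P088: one manifold, from two manifolds
-/

open Manifold MeasureTheory Set
open scoped ContDiff Matrix

noncomputable section

namespace Vale.Agent.P088.B2

open Vale.Agent.P088.B

universe u

variable {n N : ℕ} {M : Type u} {Z : At n M}

theorem corr_refl {Γ : Set M} {f : M → Fin N → ℂ} (h : Data Z Γ f) : Corr Z Z Γ Γ id f f :=
  ⟨h, h, fun _ _ => rfl⟩

theorem iden_id (Γ : Set M) : Iden N Z Z Γ Γ id :=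
  ⟨bijOn_id Γ, fun f h => ⟨f, corr_refl h⟩, fun f h => ⟨f, corr_refl h⟩⟩

theorem data_off {Γ : Set M} {f : M → Fin N → ℂ} (h : Data Z Γ f) {x : M} (hx : x ∈ bd Z)
    (hΓ : x ∉ Γ) : f x = 0 := by
  by_contra hne
  apply hΓ
  refine h.2 (@subset_closure M Z.top _ x ⟨hx, ?_⟩)
  by_contra hcon
  push Not at hcon
  exact hne (funext fun a => hcon a)

theorem corr_eq {Γ : Set M} {f₁ f₂ : M → Fin N → ℂ} (h : Corr Z Z Γ Γ id f₁ f₂) {x : M}
    (hx : x ∈ bd Z) : f₂ x = f₁ x := by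
  by_cases hΓ : x ∈ Γ
  · exact h.2.2 x hΓ
  · rw [data_off h.1 hx hΓ, data_off h.2.1 hx hΓ]

theorem harm_congr {P : Pair Z N} {f₁ f₂ u : M → Fin N → ℂ} (h : Harm P f₁ u)
    (he : ∀ x ∈ bd Z, f₂ x = f₁ x) : Harm P f₂ u :=
  ⟨h.1, fun x hx => (h.2.1 x hx).trans (he x hx).symm, h.2.2⟩

/-- Equal data on one manifold are equal data for `ψ = Id`. -/
theorem sameData_id {Γ : Set M} {P Q : Pair Z N} (h : SameData Γ P Q) :
    SameData₂ Γ Γ id P Q := by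
  intro f₁ f₂ h₁ h₂ hf hh
  obtain ⟨u, v, u', v', a, b, c, d, e⟩ := h f₁ h₁ hf.1 hh.1
  exact ⟨u, v, u', v', a, b, harm_congr c fun x hx => corr_eq hf hx,
    harm_congr d fun x hx => corr_eq hh hx, e⟩

/-- The conclusion of Q1, from the conclusion for two manifolds. -/
theorem related_of_uniqueRel {Γ : Set M} {P Q : Pair Z N} (h : UniqueRel₂ Γ Γ id P Q) :
    Related Γ P Q := by
  obtain ⟨Φ, Ψ, U, ⟨h1, h2, h3, h4, h5, h6, h7, h8⟩, -, -⟩ := h
  exact ⟨Φ, Ψ, U, h1, h2, fun x => ⟨h3 x, h4 x⟩, h5, h6, h7, h8⟩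

end Vale.Agent.P088.B2
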