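import Vale.Agent.P088.H4.H823G

/-!
# P088, (C1): transport of the fourth order equations
-/

set_option linter.all false

open MeasureTheory Set Filter Topology
open scoped ContDiff

noncomputable section

namespace Vale.Agent.P088.EYM.H

variable {n N : ℕ} [NeZero n]

section Smooth

variable {D : Set (E n)} {g : E n → Matrix (Fin n) (Fin n) ℝ}

theorem pu_sm_ric (hD : RelOpen D) (hg : SmM g D) (hp : ∀ x ∈ D, (g x).PosDef) (j k : Fin n) :
    ContDiffOn ℝ ∞ (ric g j k) D := by
  have hc := fun k i j => Ric_chr_smooth hD hg hp k i j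
  unfold ric
  refine ContDiffOn.sum fun i _ => ((hD.pd_smooth (hc i j k) i).sub
    (hD.pd_smooth (hc i i k) j)).add (ContDiffOn.sum fun l _ => ?_)
  exact ((hc i i l).mul (hc l j k)).sub ((hc i j l).mul (hc l i k))

theorem sm_nab2 (hD : RelOpen D) (hg : SmM g D) (hp : ∀ x ∈ D, (g x).PosDef)
    {T : Fin n → Fin n → E n → ℝ} (hT : ∀ j k, ContDiffOn ℝ ∞ (T j k) D) (a j k : Fin n) :
    ContDiffOn ℝ ∞ (nab2 g T a j k) D := by
  have hc := fun k i j => Ric_chr_smooth hD hg hp k i j
  unfold nab2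
  refine (hD.pd_smooth (hT j k) a).sub (ContDiffOn.sum fun l _ => ?_)
  exact ((hc l a j).mul (hT l k)).add ((hc l a k).mul (hT j l))

theorem pu_sm_dric (hD : RelOpen D) (hg : SmM g D) (hp : ∀ x ∈ D, (g x).PosDef) (a j k : Fin n) :
    ContDiffOn ℝ ∞ (dric g a j k) D :=
  sm_nab2 hD hg hp (fun j k => pu_sm_ric hD hg hp j k) a j k

end Smooth

section Met

variable {D D' : Set (E n)} {X : E n → E n} {g g' : E n → Matrix (Fin n) (Fin n) ℝ}

theorem dric_pull (hD : RelOpen D) (hD' : RelOpen D') (hX : ContDiffOn ℝ ∞ X D)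
    (hm : MapsTo X D D') (hg : SmM g D) (hg' : SmM g' D') (hp : ∀ x ∈ D, (g x).PosDef)
    (hp' : ∀ x ∈ D', (g' x).PosDef) (h : GPull g g' D X) {x : E n} (hx : x ∈ D) (a j k : Fin n) :
    dric g a j k x = ∑ o, ∑ p, ∑ q, Jac X x o a * Jac X x p j * Jac X x q k *
      dric g' o p q (X x) :=
  nab2_pull hD hD' hX hm hg' hp hp' h (fun p q => pu_sm_ric hD' hg' hp' p q)
    (fun j k x hx => ric_pull hD hD' hm hX hg hg' hp hp' h hx j k) hx a j k

theorem ddric_pull (hD : RelOpen D) (hD' : RelOpen D') (hX : ContDiffOn ℝ ∞ X D)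
    (hm : MapsTo X D D') (hg : SmM g D) (hg' : SmM g' D') (hp : ∀ x ∈ D, (g x).PosDef)
    (hp' : ∀ x ∈ D', (g' x).PosDef) (h : GPull g g' D X) {x : E n} (hx : x ∈ D) (a b j k : Fin n) :
    nab3 g (dric g) a b j k x = ∑ o, ∑ p, ∑ q, ∑ r, Jac X x o a * Jac X x p b * Jac X x q j *
      Jac X x r k * nab3 g' (dric g') o p q r (X x) :=
  nab3_pull hD hD' hX hm hg' hp hp' h (fun p q r => pu_sm_dric hD' hg' hp' p q r)
    (fun i j k x hx => dric_pull hD hD' hX hm hg hg' hp hp' h hx i j k) hx a b j k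

theorem contr_inv (hp : ∀ x ∈ D, (g x).PosDef) (h : GPull g g' D X) {x : E n} (hx : x ∈ D)
    (l m : Fin n) :
    ∑ a, ∑ b, (g x)⁻¹ a b * (Jac X x l a * Jac X x m b) = (g' (X x))⁻¹ l m := by
  have hu : IsUnit (Jac X x).det :=
    (Matrix.isUnit_iff_isUnit_det _).1 (Ric_jac_unit (D' := D) hp h hx)
  have hut : IsUnit (Jac X x).transpose.det := by rw [Matrix.det_transpose]; exact hu
  have e : Jac X x * (g x)⁻¹ * (Jac X x).transpose = (g' (X x))⁻¹ := by
    rw [h x hx, Matrix.mul_inv_rev, Matrix.mul_inv_rev, ← Matrix.mul_assoc,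
      Matrix.mul_nonsing_inv _ hu, Matrix.one_mul, Matrix.mul_assoc, Matrix.nonsing_inv_mul _ hut,
      Matrix.mul_one]
  rw [← e, Matrix.mul_apply]
  simp only [Matrix.mul_apply, Matrix.transpose_apply, Finset.sum_mul]
  rw [Finset.sum_comm]
  refine Finset.sum_congr rfl fun a _ => Finset.sum_congr rfl fun b _ => ?_
  ring

theorem lapRic_pull (hD : RelOpen D) (hD' : RelOpen D') (hX : ContDiffOn ℝ ∞ X D)
    (hm : MapsTo X D D') (hg : SmM g D) (hg' : SmM g' D') (hp : ∀ x ∈ D, (g x).PosDef)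
    (hp' : ∀ x ∈ D', (g' x).PosDef) (h : GPull g g' D X) {x : E n} (hx : x ∈ D) (j k : Fin n) :
    lapRic g j k x = ∑ q, ∑ r, Jac X x q j * Jac X x r k * lapRic g' q r (X x) := by
  have e1 : lapRic g j k x = ∑ a, ∑ b, (g x)⁻¹ a b • ∑ o, ∑ p, (Jac X x o a * Jac X x p b) •
      ∑ q, ∑ r, Jac X x q j * Jac X x r k * nab3 g' (dric g') o p q r (X x) := by
    unfold lapRic
    refine Finset.sum_congr rfl fun a _ => Finset.sum_congr rfl fun b _ => ?_
    rw [ddric_pull hD hD' hX hm hg hg' hp hp' h hx a b j k, smul_eq_mul]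
    congr 1
    refine Finset.sum_congr rfl fun o _ => Finset.sum_congr rfl fun p _ => ?_
    rw [smul_eq_mul, Finset.mul_sum]
    refine Finset.sum_congr rfl fun q _ => ?_
    rw [Finset.mul_sum]
    refine Finset.sum_congr rfl fun r _ => ?_
    ring
  rw [e1, Ym_contrV (fun l m => contr_inv hp h hx l m)]
  simp only [smul_eq_mul, Finset.mul_sum, lapRic]
  rw [Ym_swap4]
  refine Finset.sum_congr rfl fun q _ => Finset.sum_congr rfl fun r _ =>
    Finset.sum_congr rfl fun o _ => Finset.sum_congr rfl fun p _ => ?_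
  ring

section Rm

attribute [local instance] Matrix.linftyOpNormedRing Matrix.linftyOpNormedAlgebra

theorem rm_eq (hD : RelOpen D) (hg : SmM g D) (hp : ∀ x ∈ D, (g x).PosDef) {x : E n} (hx : x ∈ D)
    (i j b c : Fin n) : rm g i j b c x = (g x * curv (mchr g) i j x) b c := by
  have h1 : ∀ i j (l c : Fin n), pd i (mchr g j) x l c = pd i (chr g l j c) x := fun i j l c =>
    Ric_pd_entry hD (Ric_mchr_smooth hD hg hp j) hx i l c
  rw [Matrix.mul_apply]
  unfold rm
  refine Finset.sum_congr rfl fun l _ => ?_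
  congr 1
  unfold curv
  simp only [Matrix.sub_apply, Matrix.add_apply, Matrix.mul_apply, h1, Finset.sum_sub_distrib]
  simp only [mchr, Matrix.of_apply]
  ring

theorem rm_pull (hD : RelOpen D) (hD' : RelOpen D') (hX : ContDiffOn ℝ ∞ X D)
    (hm : MapsTo X D D') (hg : SmM g D) (hg' : SmM g' D') (hp : ∀ x ∈ D, (g x).PosDef)
    (hp' : ∀ x ∈ D', (g' x).PosDef) (h : GPull g g' D X) {x : E n} (hx : x ∈ D)
    (i j b c : Fin n) :
    rm g i j b c x = ∑ p, ∑ q, ∑ r, ∑ s, Jac X x p i * Jac X x q j * Jac X x r b * Jac X x s c *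
      rm g' p q r s (X x) := by
  have hu : IsUnit (Jac X x).det :=
    (Matrix.isUnit_iff_isUnit_det _).1 (Ric_jac_unit (D' := D') hp h hx)
  rw [rm_eq hD hg hp hx, Ric_curv_pull hD hD' hm hX hg hg' hp hp' h hx i j, h x hx]
  have hJJ : Jac X x * (Jac X x)⁻¹ = 1 := Matrix.mul_nonsing_inv _ hu
  set J := Jac X x with hJ
  have e1 : J.transpose * g' (X x) * J * (J⁻¹ * (∑ p, ∑ q, (J p i * J q j) •
      curv (mchr g') p q (X x)) * J) = ∑ p, ∑ q, (J p i * J q j) •
        (J.transpose * (g' (X x) * curv (mchr g') p q (X x)) * J) := by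
    calc J.transpose * g' (X x) * J * (J⁻¹ * (∑ p, ∑ q, (J p i * J q j) •
          curv (mchr g') p q (X x)) * J)
        = J.transpose * g' (X x) * (J * J⁻¹) * (∑ p, ∑ q, (J p i * J q j) •
          curv (mchr g') p q (X x)) * J := by simp only [Matrix.mul_assoc]
      _ = J.transpose * g' (X x) * (∑ p, ∑ q, (J p i * J q j) •
          curv (mchr g') p q (X x)) * J := by rw [hJJ, Matrix.mul_one]
      _ = _ := by
          simp only [Matrix.mul_sum, Matrix.sum_mul, Matrix.mul_smul, Matrix.smul_mul,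
            Matrix.mul_assoc]
  rw [e1]
  simp only [Matrix.sum_apply, Matrix.smul_apply, smul_eq_mul]
  refine Finset.sum_congr rfl fun p _ => Finset.sum_congr rfl fun q _ => ?_
  have e2 : (J.transpose * (g' (X x) * curv (mchr g') p q (X x)) * J) b c =
      ∑ r, ∑ s, J r b * J s c * rm g' p q r s (X x) := by
    rw [Matrix.mul_apply]
    simp only [Matrix.mul_apply (M := J.transpose), Matrix.transpose_apply, Finset.sum_mul]
    rw [Finset.sum_comm]
    refine Finset.sum_congr rfl fun r _ => Finset.sum_congr rfl fun s _ => ?_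
    rw [rm_eq hD' hg' hp' (hm hx)]
    ring
  rw [e2, Finset.mul_sum]
  refine Finset.sum_congr rfl fun r _ => ?_
  rw [Finset.mul_sum]
  refine Finset.sum_congr rfl fun s _ => ?_
  ring

end Rm

end Met

theorem inv_mulE {A B : EndF N} (hA : IsUnit A) (hB : IsUnit B) :
    Ring.inverse (A * B) = Ring.inverse B * Ring.inverse A := by
  have hT : IsUnit (A * B) := hA.mul hB
  have e0 : (A * B) * (Ring.inverse B * Ring.inverse A) = 1 := by
    calc (A * B) * (Ring.inverse B * Ring.inverse A) =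
        A * (B * Ring.inverse B) * Ring.inverse A := by noncomm_ring
      _ = 1 := by rw [Ring.mul_inverse_cancel _ hB, mul_one, Ring.mul_inverse_cancel _ hA]
  calc Ring.inverse (A * B) = Ring.inverse (A * B) * ((A * B) *
        (Ring.inverse B * Ring.inverse A)) := by rw [e0, mul_one]
    _ = (Ring.inverse (A * B) * (A * B)) * (Ring.inverse B * Ring.inverse A) := by noncomm_ring
    _ = _ := by rw [Ring.inverse_mul_cancel _ hT, one_mul]

theorem nabF_eq (L : LD n N) (a i j : Fin n) (x : E n) : nabF L a i j x = covF L a i j x := by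
  unfold nabF covF
  abel

theorem nabS_pull {L L' : LD n N} {D D' : Set (E n)} {X Y : E n → E n} {S : E n → EndF N}
    (hD : RelOpen D) (hD' : RelOpen D') (hL : L.Ok D) (hL' : L'.Ok D')
    (h : IsPull L L' D D' X Y S) {x : E n} (hx : x ∈ D) {S' : EndF N} (hS' : IsUnit S')
    (a i j : Fin n) :
    nabS L S' x a i j = ∑ o, ∑ p, ∑ q, (Jac X x o a * Jac X x p i * Jac X x q j) •
      nabS L' (S' * S x) (X x) o p q := by
  unfold nabS
  rw [nabF_eq, covF_pull hD hD' hL hL' h hx a i j, inv_mulE hS' (h.unit x hx)]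
  simp only [nabF_eq, mul_assoc]
  simp only [Finset.mul_sum, Finset.sum_mul, mul_smul_comm, smul_mul_assoc, mul_assoc]

theorem eq4_pull {L L' : LD n N} {D D' : Set (E n)} {X Y : E n → E n} {S : E n → EndF N}
    (hD : RelOpen D) (hD' : RelOpen D') (hL : L.Ok D) (hL' : L'.Ok D')
    (h : IsPull L L' D D' X Y S) {Φ : Cpl4 n N} (he : Eq4 Φ L' D') : Eq4 Φ L D := by
  refine ⟨fun x hx S' hS' hSh j k => ?_, fun x hx k => ?_⟩
  · have hX := h.diffeo.mapsX hx
    have hadjm : ∀ A B : EndF N, ContinuousLinearMap.adjoint (A * B) =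
        ContinuousLinearMap.adjoint B * ContinuousLinearMap.adjoint A := fun A B =>
      ContinuousLinearMap.adjoint_comp A B
    have hu := h.unit x hx
    have hT : IsUnit (S' * S x) := hS'.mul hu
    have hTh : ContinuousLinearMap.adjoint (S' * S x) * (S' * S x) = L'.h (X x) := by
      rw [hadjm, ← h.h_eq x hx, ← hSh]
      noncomm_ring
    have hF : G.curS L S' x = fun i j => ∑ p, ∑ q, (Jac X x p i * Jac X x q j) •
        G.curS L' (S' * S x) (X x) p q := by
      funext i j
      unfold G.curS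
      rw [cur_pull hD hD' hL' h hx i j, inv_mulE hS' hu]
      simp only [mul_assoc]
      simp only [Finset.mul_sum, Finset.sum_mul, mul_smul_comm, smul_mul_assoc, mul_assoc]
    have hF' : nabS L S' x = fun a i j => ∑ o, ∑ p, ∑ q,
        (Jac X x o a * Jac X x p i * Jac X x q j) • nabS L' (S' * S x) (X x) o p q := by
      funext a i j
      exact nabS_pull hD hD' hL hL' h hx hS' a i j
    have hK : (fun i j b c => rm L.g i j b c x) = fun i j b c => ∑ p, ∑ q, ∑ r, ∑ s,
        Jac X x p i * Jac X x q j * Jac X x r b * Jac X x s c * rm L'.g p q r s (X x) := by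
      funext i j b c
      exact rm_pull hD hD' h.diffeo.smX h.diffeo.mapsX hL.g_smooth hL'.g_smooth hL.g_pos
        hL'.g_pos h.g_eq hx i j b c
    have hR : (fun a j k => dric L.g a j k x) = fun a j k => ∑ o, ∑ p, ∑ q,
        Jac X x o a * Jac X x p j * Jac X x q k * dric L'.g o p q (X x) := by
      funext a j k
      exact dric_pull hD hD' h.diffeo.smX h.diffeo.mapsX hL.g_smooth hL'.g_smooth hL.g_pos
        hL'.g_pos h.g_eq hx a j k
    have hJ : IsUnit (Jac X x) := Ric_jac_unit (D' := D') hL.g_pos h.g_eq hx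
    have hgx : L.g x = (Jac X x).transpose * L'.g (X x) * Jac X x := h.g_eq x hx
    have hnat := Φ.nat (L'.g (X x)) (Jac X x) (fun i j b c => rm L'.g i j b c (X x))
      (fun a j k => dric L'.g a j k (X x)) (G.curS L' (S' * S x) (X x))
      (nabS L' (S' * S x) (X x)) (hL'.g_pos _ hX) hJ j k
    rw [hF, hF', hK, hR, hgx, hnat,
      lapRic_pull hD hD' h.diffeo.smX h.diffeo.mapsX hL.g_smooth hL'.g_smooth hL.g_pos
        hL'.g_pos h.g_eq hx j k]
    refine Finset.sum_congr rfl fun p _ => Finset.sum_congr rfl fun q _ => ?_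
    rw [he.lap _ hX (S' * S x) hT hTh p q]
  · have hX := h.diffeo.mapsX hx
    have h1 : ymE L k x = ∑ i, ∑ j, (L.g x)⁻¹ i j • covF L i j k x := rfl
    have h2 : ∀ q, ymE L' q (X x) = ∑ o, ∑ p, (L'.g (X x))⁻¹ o p • covF L' o p q (X x) :=
      fun q => rfl
    have h3 : ∀ i j, covF L i j k x = S x * (∑ o, ∑ p, (Jac X x o i * Jac X x p j) •
        ∑ q, Jac X x q k • covF L' o p q (X x)) * Ring.inverse (S x) := by
      intro i j
      rw [covF_pull hD hD' hL hL' h hx i j k]
      simp only [Finset.smul_sum, smul_smul]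
    have h4 : ymE L k x = S x * (∑ i, ∑ j, (L.g x)⁻¹ i j • ∑ o, ∑ p,
        (Jac X x o i * Jac X x p j) • ∑ q, Jac X x q k • covF L' o p q (X x)) *
          Ring.inverse (S x) := by
      rw [h1]
      simp only [h3]
      rw [Finset.mul_sum, Finset.sum_mul]
      refine Finset.sum_congr rfl fun i _ => ?_
      rw [Finset.mul_sum, Finset.sum_mul]
      refine Finset.sum_congr rfl fun j _ => ?_
      rw [mul_smul_comm, smul_mul_assoc]
    have h6 : ∑ i, ∑ j, (L.g x)⁻¹ i j • ∑ o, ∑ p,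
        (Jac X x o i * Jac X x p j) • ∑ q, Jac X x q k • covF L' o p q (X x) =
        ∑ o, ∑ p, (L'.g (X x))⁻¹ o p • ∑ q, Jac X x q k • covF L' o p q (X x) :=
      Ym_contrV (Ym_contr hL h hx) (fun o p => ∑ q, Jac X x q k • covF L' o p q (X x))
    rw [h4, h6]
    have h5 : ∑ o, ∑ p, (L'.g (X x))⁻¹ o p • ∑ q, Jac X x q k • covF L' o p q (X x) =
        ∑ q, Jac X x q k • ymE L' q (X x) := by
      simp only [Finset.smul_sum, smul_smul, h2]
      calc ∑ o, ∑ p, ∑ q, ((L'.g (X x))⁻¹ o p * Jac X x q k) • covF L' o p q (X x)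
          = ∑ o, ∑ q, ∑ p, ((L'.g (X x))⁻¹ o p * Jac X x q k) • covF L' o p q (X x) :=
            Finset.sum_congr rfl fun o _ => Finset.sum_comm
        _ = ∑ q, ∑ o, ∑ p, ((L'.g (X x))⁻¹ o p * Jac X x q k) • covF L' o p q (X x) :=
            Finset.sum_comm
        _ = _ := by
            refine Finset.sum_congr rfl fun q _ => Finset.sum_congr rfl fun o _ =>
              Finset.sum_congr rfl fun p _ => ?_
            rw [mul_comm]
    rw [h5, Ym_sum0 (fun q => Jac X x q k) (fun q => ymE L' q (X x)) (he.ym _ hX), mul_zero,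
      zero_mul]

/-- (C1) transport of the equations. -/
theorem push4 : Push4_statement := by
  intro n N _ Φ L L' D D' X Y S hD hD' hL hL' h he
  exact eq4_pull hD' hD hL' hL (bSymm n N L L' D D' X Y S hD hD' h) he

end Vale.Agent.P088.EYM.H
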