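import Vale.Agent.P088.H4.Harm2
import Vale.Agent.P088.H4.HDefs

/-!
# P088, fourth order class: the natural right hand sides `c comΦ + d pwΦ`
-/

open Manifold MeasureTheory Set Filter Topology
open scoped ContDiff Matrix

noncomputable section

set_option synthInstance.maxSize 4000

namespace Vale.Agent.P088.B

variable {n N : ℕ}

/-- `-g^{ab} (R_{aj}{}^l{}_b R_{lk} + R_{aj}{}^l{}_k R_{bl})` -/
def comΦ (G : Matrix (Fin n) (Fin n) ℝ) (K : Fin n → Fin n → Matrix (Fin n) (Fin n) ℝ) :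
    Matrix (Fin n) (Fin n) ℝ :=
  -(trc (fun i j => G⁻¹ * (upK G K i j)ᵀ) * trc (upK G K) +
    trc fun i j => G⁻¹ * trc (upK G K) * upK G K i j)

/-- the scalar curvature -/
def scΦ (G : Matrix (Fin n) (Fin n) ℝ) (K : Fin n → Fin n → Matrix (Fin n) (Fin n) ℝ) : ℝ :=
  ((G⁻¹)ᵀ * trc (upK G K)).trace

/-- the Schouten tensor -/
def schΦ (G : Matrix (Fin n) (Fin n) ℝ) (K : Fin n → Fin n → Matrix (Fin n) (Fin n) ℝ) :
    Matrix (Fin n) (Fin n) ℝ :=
  ((n : ℝ) - 2)⁻¹ • (trc (upK G K) - (scΦ G K / (2 * ((n : ℝ) - 1))) • G)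

/-- `A_{ib} B_{jc}` -/
def tp (A B : Matrix (Fin n) (Fin n) ℝ) (i j : Fin n) : Matrix (Fin n) (Fin n) ℝ :=
  fun b c => A i b * B j c

/-- the Weyl tensor -/
def weyΦ (G : Matrix (Fin n) (Fin n) ℝ) (K : Fin n → Fin n → Matrix (Fin n) (Fin n) ℝ)
    (i j : Fin n) : Matrix (Fin n) (Fin n) ℝ :=
  K i j - (tp (schΦ G K) G i j + tp G (schΦ G K) i j - tp (schΦ G K) G j i -
    tp G (schΦ G K) j i)

/-- `P^{il} W_{ijlk}` -/
def pwΦ (G : Matrix (Fin n) (Fin n) ℝ) (K : Fin n → Fin n → Matrix (Fin n) (Fin n) ℝ) :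
    Matrix (Fin n) (Fin n) ℝ :=
  trc fun i j => ((G⁻¹)ᵀ * schΦ G K * G⁻¹) * weyΦ G K i j

/-- The transformation of `R_{ijbc}`. -/
def act (J : Matrix (Fin n) (Fin n) ℝ) (K : Fin n → Fin n → Matrix (Fin n) (Fin n) ℝ)
    (i j : Fin n) : Matrix (Fin n) (Fin n) ℝ := ∑ a, ∑ b, (J a i * J b j) • (Jᵀ * K a b * J)

/-! ### covariance -/

section Cov

variable {J : Matrix (Fin n) (Fin n) ℝ}

theorem act_def (J : Matrix (Fin n) (Fin n) ℝ) (K : Fin n → Fin n → Matrix (Fin n) (Fin n) ℝ) :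
    (fun i j => ∑ a, ∑ b, (J a i * J b j) • (Jᵀ * K a b * J)) = act J K := rfl

theorem comΦ_cov (hJ : IsUnit J) (G : Matrix (Fin n) (Fin n) ℝ)
    (K : Fin n → Fin n → Matrix (Fin n) (Fin n) ℝ) :
    comΦ (Jᵀ * G * J) (act J K) = Jᵀ * comΦ G K * J :=
  harmRhs_cov (N := 0) G K hJ 0 0 0 0 0 0

theorem ric_cov (hJ : IsUnit J) (G : Matrix (Fin n) (Fin n) ℝ)
    (K : Fin n → Fin n → Matrix (Fin n) (Fin n) ℝ) :
    trc (upK (Jᵀ * G * J) (act J K)) = Jᵀ * trc (upK G K) * J := by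
  rw [← act_def, upK_cov G K hJ, trc_cov hJ]

theorem invT_cov (G : Matrix (Fin n) (Fin n) ℝ) :
    ((Jᵀ * G * J)⁻¹)ᵀ = J⁻¹ * (G⁻¹)ᵀ * (Jᵀ)⁻¹ := by
  rw [inv_cov]
  simp only [Matrix.transpose_mul, Matrix.transpose_nonsing_inv, Matrix.transpose_transpose,
    Matrix.mul_assoc]

theorem mid_cov (hJ : IsUnit J) (A B : Matrix (Fin n) (Fin n) ℝ) :
    (J⁻¹ * A * (Jᵀ)⁻¹) * (Jᵀ * B * J) = J⁻¹ * (A * B) * J := by
  have hdT : IsUnit Jᵀ.det := by
    rw [Matrix.det_transpose]; exact (Matrix.isUnit_iff_isUnit_det J).1 hJ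
  calc (J⁻¹ * A * (Jᵀ)⁻¹) * (Jᵀ * B * J) = J⁻¹ * A * ((Jᵀ)⁻¹ * Jᵀ) * B * J := by
        simp only [Matrix.mul_assoc]
    _ = _ := by
        rw [Matrix.nonsing_inv_mul _ hdT]
        simp only [Matrix.mul_assoc, Matrix.one_mul]

theorem mid_cov' (hJ : IsUnit J) (A B : Matrix (Fin n) (Fin n) ℝ) :
    (J⁻¹ * A * J) * (J⁻¹ * B * (Jᵀ)⁻¹) = J⁻¹ * (A * B) * (Jᵀ)⁻¹ := by
  have hdet : IsUnit J.det := (Matrix.isUnit_iff_isUnit_det J).1 hJ
  calc (J⁻¹ * A * J) * (J⁻¹ * B * (Jᵀ)⁻¹) = J⁻¹ * A * (J * J⁻¹) * B * (Jᵀ)⁻¹ := by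
        simp only [Matrix.mul_assoc]
    _ = _ := by
        rw [Matrix.mul_nonsing_inv _ hdet]
        simp only [Matrix.mul_assoc, Matrix.one_mul]

theorem scΦ_cov (hJ : IsUnit J) (G : Matrix (Fin n) (Fin n) ℝ)
    (K : Fin n → Fin n → Matrix (Fin n) (Fin n) ℝ) :
    scΦ (Jᵀ * G * J) (act J K) = scΦ G K := by
  have hdet : IsUnit J.det := (Matrix.isUnit_iff_isUnit_det J).1 hJ
  unfold scΦ
  rw [ric_cov hJ, invT_cov, mid_cov hJ, Matrix.trace_mul_comm, ← Matrix.mul_assoc,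
    Matrix.mul_nonsing_inv _ hdet, Matrix.one_mul]

theorem schΦ_cov (hJ : IsUnit J) (G : Matrix (Fin n) (Fin n) ℝ)
    (K : Fin n → Fin n → Matrix (Fin n) (Fin n) ℝ) :
    schΦ (Jᵀ * G * J) (act J K) = Jᵀ * schΦ G K * J := by
  unfold schΦ
  rw [ric_cov hJ, scΦ_cov hJ, Matrix.mul_smul, Matrix.smul_mul, Matrix.mul_sub, Matrix.sub_mul,
    Matrix.mul_smul, Matrix.smul_mul]

theorem tp_cov (A B : Matrix (Fin n) (Fin n) ℝ) (i j : Fin n) :
    tp (Jᵀ * A * J) (Jᵀ * B * J) i j = ∑ a, ∑ b, (J a i * J b j) • (Jᵀ * tp A B a b * J) := by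
  have hc : ∀ (C : Matrix (Fin n) (Fin n) ℝ) (i b : Fin n), (Jᵀ * C * J) i b =
      ∑ p, J p i * ∑ r, C p r * J r b := by
    intro C i b
    rw [Matrix.mul_assoc, Matrix.mul_apply]
    refine Finset.sum_congr rfl fun p _ => ?_
    rw [Matrix.transpose_apply, Matrix.mul_apply]
  ext b c
  simp only [Matrix.sum_apply, Matrix.smul_apply, smul_eq_mul]
  have h1 : tp (Jᵀ * A * J) (Jᵀ * B * J) i j b c = (Jᵀ * A * J) i b * (Jᵀ * B * J) j c := rfl
  rw [h1, hc, hc, Finset.sum_mul]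
  refine Finset.sum_congr rfl fun p _ => ?_
  rw [Finset.mul_sum]
  refine Finset.sum_congr rfl fun q _ => ?_
  have h2 : (Jᵀ * tp A B p q * J) b c = (∑ r, A p r * J r b) * ∑ s, B q s * J s c := by
    rw [hc, Finset.sum_mul]
    refine Finset.sum_congr rfl fun r _ => ?_
    rw [Finset.mul_sum, Finset.mul_sum]
    refine Finset.sum_congr rfl fun s _ => ?_
    unfold tp
    ring
  rw [h2]
  ring

theorem tp_cov' (A B : Matrix (Fin n) (Fin n) ℝ) (i j : Fin n) :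
    tp (Jᵀ * A * J) (Jᵀ * B * J) j i = ∑ a, ∑ b, (J a i * J b j) • (Jᵀ * tp A B b a * J) := by
  rw [tp_cov, Finset.sum_comm]
  refine Finset.sum_congr rfl fun a _ => Finset.sum_congr rfl fun b _ => ?_
  rw [mul_comm (J b j)]

theorem weyΦ_cov (hJ : IsUnit J) (G : Matrix (Fin n) (Fin n) ℝ)
    (K : Fin n → Fin n → Matrix (Fin n) (Fin n) ℝ) :
    weyΦ (Jᵀ * G * J) (act J K) = act J (weyΦ G K) := by
  funext i j
  unfold weyΦ act
  have h0 := schΦ_cov hJ G K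
  unfold act at h0
  rw [h0, tp_cov, tp_cov, tp_cov', tp_cov']
  simp only [← Finset.sum_add_distrib, ← Finset.sum_sub_distrib, ← smul_add, ← smul_sub,
    mul_add, mul_sub, add_mul, sub_mul]

theorem pwΦ_cov (hJ : IsUnit J) (G : Matrix (Fin n) (Fin n) ℝ)
    (K : Fin n → Fin n → Matrix (Fin n) (Fin n) ℝ) :
    pwΦ (Jᵀ * G * J) (act J K) = Jᵀ * pwΦ G K * J := by
  unfold pwΦ
  rw [weyΦ_cov hJ, schΦ_cov hJ, invT_cov, inv_cov, mid_cov hJ, mid_cov' hJ, ← trc_cov hJ]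
  congr 1
  funext i j
  unfold act
  rw [Finset.mul_sum]
  refine Finset.sum_congr rfl fun a _ => ?_
  rw [Finset.mul_sum]
  refine Finset.sum_congr rfl fun b _ => ?_
  rw [mul_smul_comm, mid_cov hJ]

end Cov

/-! ### smoothness -/

/-- `φ(g, Rm)` is natural and smooth. -/
structure NatPhi (φ : Matrix (Fin n) (Fin n) ℝ →
    (Fin n → Fin n → Matrix (Fin n) (Fin n) ℝ) → Matrix (Fin n) (Fin n) ℝ) : Prop where
  cov : ∀ G K J, IsUnit J → φ (Jᵀ * G * J) (act J K) = Jᵀ * φ G K * J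
  smooth : ∀ (n' N' : ℕ) (O : Set (BV n' N')) (G : BV n' N' → Matrix (Fin n) (Fin n) ℝ)
    (K : BV n' N' → Fin n → Fin n → Matrix (Fin n) (Fin n) ℝ),
    (∀ i j, ContDiffOn ℝ ∞ (fun x => G x i j) O) →
    (∀ i j l c, ContDiffOn ℝ ∞ (fun x => K x i j l c) O) →
    (∀ x ∈ O, (G x).det ≠ 0) → ∀ j k, ContDiffOn ℝ ∞ (fun x => φ (G x) (K x) j k) O

theorem NatPhi.natural {φ : Matrix (Fin n) (Fin n) ℝ →
    (Fin n → Fin n → Matrix (Fin n) (Fin n) ℝ) → Matrix (Fin n) (Fin n) ℝ} (h : NatPhi φ) :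
    Natural4 (N := N) (fun G K _ _ _ => φ G K) where
  cov := fun G K R F D J _ hJ => h.cov G K J hJ
  inv := fun G K R F D U _ _ => rfl
  lip := by
    intro j k
    set O : Set (BV n N) := {x | (mG x).det ≠ 0} with hO
    have hG : ∀ i j, ContDiff ℝ ∞ (fun x : BV n N => mG x i j) := bv_smooth_fst
    have hK : ∀ i j b c, ContDiff ℝ ∞ (fun x : BV n N => mK x i j b c) := bv_smooth_K
    have hdet : Continuous (fun x : BV n N => (mG x).det) := by
      have := contDiffOn_det (s := univ) (fun i j => (hG i j).contDiffOn)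
      exact (contDiffOn_univ.1 this).continuous
    have hOo : IsOpen O := isOpen_ne_fun hdet continuous_const
    have hsO : {x : BV n N | Matrix.PosDef (fun i j => (x i j).1)} ⊆ O :=
      fun x hx => (Matrix.PosDef.det_pos hx).ne'
    have h := h.smooth n N O mG mK (fun i j => (hG i j).contDiffOn)
      (fun i j b c => (hK i j b c).contDiffOn) (fun x (hx : x ∈ O) => hx) j k
    exact ll_of_smooth hOo hsO h

theorem NatPhi.lin {φ ψ : Matrix (Fin n) (Fin n) ℝ →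
    (Fin n → Fin n → Matrix (Fin n) (Fin n) ℝ) → Matrix (Fin n) (Fin n) ℝ} (h : NatPhi φ)
    (h' : NatPhi ψ) (c d : ℝ) : NatPhi (fun G K => c • φ G K + d • ψ G K) where
  cov := fun G K J hJ => by
    rw [h.cov G K J hJ, h'.cov G K J hJ, mul_add, add_mul, mul_smul_comm, smul_mul_assoc,
      mul_smul_comm, smul_mul_assoc]
  smooth := fun _ _ _ _ _ hG hK hd j k =>
    (contDiffOn_const.mul (h.smooth _ _ _ _ _ hG hK hd j k)).add
      (contDiffOn_const.mul (h'.smooth _ _ _ _ _ hG hK hd j k))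

theorem natPhi_com : NatPhi (n := n) comΦ where
  cov := fun G K _ hJ => comΦ_cov hJ G K
  smooth := fun _ _ _ _ _ hG hK hd j k => smooth_harm (N := 0) hG hK hd 0 0 0 j k

theorem natPhi_pw : NatPhi (n := n) pwΦ where
  cov := fun G K _ hJ => pwΦ_cov hJ G K
  smooth := fun _ _ O G K hG hK hd j k => by
    have hi : ∀ i j, ContDiffOn ℝ ∞ (fun x => (G x)⁻¹ i j) O := contDiffOn_inv_entry hG hd
    have hiT : ∀ i j, ContDiffOn ℝ ∞ (fun x => ((G x)⁻¹)ᵀ i j) O := fun i j => hi j i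
    have hU : ∀ i j l c, ContDiffOn ℝ ∞ (fun x => upK (G x) (K x) i j l c) O := fun i j =>
      smooth_mul hi (hK i j)
    have hT : ∀ i j, ContDiffOn ℝ ∞ (fun x => trc (upK (G x) (K x)) i j) O := smooth_trc hU
    have hs : ContDiffOn ℝ ∞ (fun x => scΦ (G x) (K x)) O := by
      unfold scΦ
      simp only [Matrix.trace, Matrix.diag_apply]
      exact ContDiffOn.sum fun i _ => smooth_mul hiT hT i i
    have hP : ∀ i j, ContDiffOn ℝ ∞ (fun x => schΦ (G x) (K x) i j) O := by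
      intro i j
      exact contDiffOn_const.mul ((hT i j).sub ((hs.div_const _).mul (hG i j)))
    have hW : ∀ i j b c, ContDiffOn ℝ ∞ (fun x => weyΦ (G x) (K x) i j b c) O := by
      intro i j b c
      exact (hK i j b c).sub (((((hP i b).mul (hG j c)).add ((hG i b).mul (hP j c))).sub
        ((hP j b).mul (hG i c))).sub ((hG j b).mul (hP i c)))
    exact smooth_trc (fun i j => smooth_mul (smooth_mul (smooth_mul hiT hP) hi) (hW i j)) j k

/-- All the right hand sides `c comΦ + d pwΦ` are natural. -/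
theorem natural4_lin (c d : ℝ) :
    Natural4 (N := N) (fun G K _ _ _ => c • comΦ (n := n) G K + d • pwΦ G K) :=
  (natPhi_com.lin natPhi_pw c d).natural

end Vale.Agent.P088.B

namespace Vale.Agent.P088.EYM.H

variable {n : ℕ} [NeZero n]

theorem rup_eqH (g : E n → Matrix (Fin n) (Fin n) ℝ) (i j l c : Fin n) (x : E n) :
    rup g i j l c x = rupH g i j l c x := rfl

theorem comR_eq {g : E n → Matrix (Fin n) (Fin n) ℝ} {x : E n} (hx : (g x).PosDef)
    (j k : Fin n) : comR g j k x = B.comΦ (g x) (fun i j b c => rm g i j b c x) j k :=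
  (harmPhi_eq (N := 0) hx 0 0 0 j k).symm

theorem sca_eq {g : E n → Matrix (Fin n) (Fin n) ℝ} {x : E n} (hx : (g x).PosDef) :
    B.scΦ (g x) (rmM g x) = sca g x := by
  unfold B.scΦ sca
  rw [upK_rm hx, Matrix.trace, Finset.sum_comm]
  refine Finset.sum_congr rfl fun k _ => ?_
  rw [Matrix.diag_apply, Matrix.mul_apply]
  rfl

theorem sch_eq {g : E n → Matrix (Fin n) (Fin n) ℝ} {x : E n} (hx : (g x).PosDef)
    (j k : Fin n) : B.schΦ (g x) (rmM g x) j k = sch g j k x := by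
  unfold B.schΦ sch
  rw [sca_eq hx, upK_rm hx, Matrix.smul_apply, Matrix.sub_apply, Matrix.smul_apply, smul_eq_mul,
    smul_eq_mul, trc_rup, div_eq_inv_mul (_ - _)]

theorem wey_eq {g : E n → Matrix (Fin n) (Fin n) ℝ} {x : E n} (hx : (g x).PosDef)
    (i j b c : Fin n) : B.weyΦ (g x) (rmM g x) i j b c = wey g i j b c x := by
  have h : B.weyΦ (g x) (rmM g x) i j b c = rm g i j b c x -
      (B.schΦ (g x) (rmM g x) i b * g x j c + g x i b * B.schΦ (g x) (rmM g x) j c -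
        B.schΦ (g x) (rmM g x) j b * g x i c - g x j b * B.schΦ (g x) (rmM g x) i c) := rfl
  rw [h]
  simp only [sch_eq hx]
  rfl

theorem pw_eq {g : E n → Matrix (Fin n) (Fin n) ℝ} {x : E n} (hx : (g x).PosDef)
    (j k : Fin n) : pw g j k x = B.pwΦ (g x) (fun i j b c => rm g i j b c x) j k := by
  have h : B.pwΦ (g x) (fun i j b c => rm g i j b c x) j k =
      ∑ i, ((((g x)⁻¹)ᵀ * B.schΦ (g x) (rmM g x) * (g x)⁻¹) *
        B.weyΦ (g x) (rmM g x) i j) i k := rfl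
  rw [h]
  have h1 : ∀ i, ((((g x)⁻¹)ᵀ * B.schΦ (g x) (rmM g x) * (g x)⁻¹) *
      B.weyΦ (g x) (rmM g x) i j) i k =
      ∑ l, ∑ a, ∑ b, (g x)⁻¹ a i * (g x)⁻¹ b l * sch g a b x * wey g i j l k x := by
    intro i
    rw [Matrix.mul_apply]
    refine Finset.sum_congr rfl fun l _ => ?_
    rw [wey_eq hx, Matrix.mul_apply, Finset.sum_mul, Finset.sum_comm]
    refine Finset.sum_congr rfl fun b _ => ?_
    rw [Matrix.mul_apply, Finset.sum_mul, Finset.sum_mul]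
    refine Finset.sum_congr rfl fun a _ => ?_
    rw [sch_eq hx, Matrix.transpose_apply]
    ring
  rw [Finset.sum_congr rfl fun i _ => h1 i]
  unfold pw
  have h2 : ∀ a, (∑ b, ∑ i, ∑ l, (g x)⁻¹ a i * (g x)⁻¹ b l * sch g a b x * wey g i j l k x) =
      ∑ i, ∑ l, ∑ b, (g x)⁻¹ a i * (g x)⁻¹ b l * sch g a b x * wey g i j l k x := by
    intro a
    rw [Finset.sum_comm]
    exact Finset.sum_congr rfl fun i _ => Finset.sum_comm
  rw [Finset.sum_congr rfl fun a _ => h2 a, Finset.sum_comm]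
  refine Finset.sum_congr rfl fun i _ => ?_
  rw [Finset.sum_comm]

end Vale.Agent.P088.EYM.H
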