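import Vale.Agent.P088.H4.Same
import Vale.Agent.P088.H4.Phi

/-!
# P088, fourth order class: the right hand side for Bach flat metrics
-/

open Manifold MeasureTheory Set Filter Topology
open scoped ContDiff Matrix

noncomputable section

namespace Vale.Agent.P088.B

universe u

variable {n N : ℕ} [NeZero n]

open Vale.Agent.P088.EYM

theorem bachRhs (n N : ℕ) [NeZero n] :
    BachRhs n N (fun G K => (1 : ℝ) • comΦ G K + (-((n : ℝ) - 2)) • pwΦ G K) := by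
  refine ⟨natural4_lin 1 _, fun g x hx j k => ?_⟩
  rw [H.comR_eq hx, H.pw_eq hx]
  show (1 : ℝ) * comΦ _ _ j k + (-((n : ℝ) - 2)) * pwΦ _ _ j k = _
  ring

/-- All the cases of `Same4` are natural fourth order systems. -/
theorem same4_ex (hH : H.HarmLap_statement) (hK : H.KahLap_statement) (hB : H.BachLap_statement)
    (hn : 3 ≤ n)
    {M₁ M₂ : Type u} [TopologicalSpace M₁] [ChartedSpace (EuclideanHalfSpace n) M₁]
    [IsManifold (𝓡∂ n) ∞ M₁] [TopologicalSpace M₂] [ChartedSpace (EuclideanHalfSpace n) M₂]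
    [IsManifold (𝓡∂ n) ∞ M₂] {Z₁ : At n M₁} (hZ₁ : Z₁ = at_ n M₁) {Z₂ : At n M₂}
    (hZ₂ : Z₂ = at_ n M₂) {W₁ : Set M₁} {W₂ : Set M₂} (hW₁ : IsOpen W₁)
    (hW₂ : IsOpen W₂) {P : Pair Z₁ N} {Q : Pair Z₂ N} (h : Same4 W₁ W₂ P Q) :
    ∃ Φ : Rhs n N, Natural4 Φ ∧ Sat4 Φ W₁ P ∧ Sat4 Φ W₂ Q :=
  same4_ex' hH hK hB (bachRhs n N) hn hZ₁ hZ₂ hW₁ hW₂ h

end Vale.Agent.P088.B
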