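import Vale.Agent.P088.H4.Glue
import Vale.Agent.P088.H4.H823F
import Vale.Agent.P088.H4.Push
import Vale.Agent.P088.H4.Same2
import Vale.Agent.P088.H4.One
import Vale.Agent.P088.H4.Harm1
import Vale.Agent.P088.H4.Bach

/-!
# P088: natural fourth order systems, the final clauses
-/

open Bundle Manifold MeasureTheory Set Filter
open scoped ContDiff Matrix Topology ENNReal

noncomputable section

set_option linter.all false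

namespace Vale.Agent.P088.B2

open Vale.Agent.P088 Vale.Agent.P088.B

universe u

/-- The blocks which are used. -/
structure Blocks : Prop where
  rigInt : EYM.H.Rig4Int_statement
  rigBd : EYM.H.Rig4Bd_statement
  kah : EYM.H.KahLap_statement

theorem fin_two (b : Blocks) {n N : ℕ} [NeZero n] (hn : 3 ≤ n) (hN : 1 ≤ N) {M₁ M₂ : Type u}
    [TopologicalSpace M₁] [ChartedSpace (EuclideanHalfSpace n) M₁] [IsManifold (𝓡∂ n) ∞ M₁]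
    [T2Space M₁] [CompactSpace M₁] [ConnectedSpace M₁]
    [TopologicalSpace M₂] [ChartedSpace (EuclideanHalfSpace n) M₂] [IsManifold (𝓡∂ n) ∞ M₂]
    [T2Space M₂] [CompactSpace M₂] [ConnectedSpace M₂]
    (Z₁ : At n M₁) (hZ₁ : Z₁ = at_ n M₁) (Z₂ : At n M₂) (hZ₂ : Z₂ = at_ n M₂)
    (Γ₁ O₁ : Set M₁) (hO₁ : IsOpen O₁) (hΓ₁ : Γ₁ = O₁ ∩ bd Z₁) (hne : Γ₁.Nonempty)
    (Γ₂ O₂ : Set M₂) (hO₂ : IsOpen O₂) (hΓ₂ : Γ₂ = O₂ ∩ bd Z₂) (ψ : M₂ → M₁)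
    (hψ : Iden N Z₁ Z₂ Γ₁ Γ₂ ψ) (P : Pair Z₁ N) (Q : Pair Z₂ N)
    (hdata : SameData₂ Γ₁ Γ₂ ψ P Q) :
    (Same4 univ univ P Q → UniqueRel₂ Γ₁ Γ₂ ψ P Q) ∧
    ∀ (W₁ : Set M₁) (_ : IsOpen W₁) (W₂ : Set M₂) (_ : IsOpen W₂) (x : M₂)
      (_ : x ∈ Γ₂ ∩ W₂) (_ : ψ x ∈ W₁) (_ : Same4 W₁ W₂ P Q),
      (∃ W ⊆ W₂, IsOpen W ∧ (W ∩ Γ₂).Nonempty ∧ RelatedOn W Γ₁ Γ₂ ψ P Q) ∧
        (W₁ = univ → IsPreconnected W₂ → RelatedOn W₂ Γ₁ Γ₂ ψ P Q) := by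
  refine ⟨fun h => ?_, fun W₁ hW₁ W₂ hW₂ x hx hx₁ h => ?_⟩
  · obtain ⟨Φ, hΦ, hP, hQ⟩ := same4_ex EYM.H.harmLap b.kah (EYM.H.bachLap EYM.H.ricciId EYM.H.cBianchi) hn hZ₁ hZ₂ isOpen_univ
      isOpen_univ h
    exact main4_unique EYM.H.dAll EYM.H.push4 b.rigInt b.rigBd hn hN Z₁ hZ₁ Z₂ hZ₂ Γ₁ O₁ hO₁ hΓ₁
      hne Γ₂ O₂ hO₂ hΓ₂ ψ hψ hΦ P Q hP hQ hdata
  · obtain ⟨Φ, hΦ, hP, hQ⟩ := same4_ex EYM.H.harmLap b.kah (EYM.H.bachLap EYM.H.ricciId EYM.H.cBianchi) hn hZ₁ hZ₂ hW₁ hW₂ h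
    exact main4_open EYM.H.dAll EYM.H.push4 b.rigInt b.rigBd hn hN hΦ Z₁ hZ₁ Z₂ hZ₂ Γ₁ O₁ hO₁ hΓ₁
      Γ₂ O₂ hO₂ hΓ₂ ψ hψ P Q hdata W₁ hW₁ W₂ hW₂ x hx hx₁ hP hQ

theorem fin_one (b : Blocks) {n N : ℕ} [NeZero n] (hn : 3 ≤ n) (hN : 1 ≤ N) {M : Type u}
    [TopologicalSpace M] [ChartedSpace (EuclideanHalfSpace n) M] [IsManifold (𝓡∂ n) ∞ M]
    [T2Space M] [CompactSpace M] [ConnectedSpace M]
    (Z : At n M) (hZ : Z = at_ n M) (Γ O : Set M) (hO : IsOpen O) (hΓ : Γ = O ∩ bd Z)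
    (hne : Γ.Nonempty) (P Q : Pair Z N) (h : Same4 univ univ P Q) (hd : B.SameData Γ P Q) :
    UniqueRel₂ Γ Γ id P Q :=
  (fin_two b hn hN Z hZ Z hZ Γ O hO hΓ hne Γ O hO hΓ id (iden_id Γ) P Q (sameData_id hd)).1 h

end Vale.Agent.P088.B2
end
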