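import Vale.Agent.P088.TM.Q.Asm
import Vale.Agent.P088.TM.Q.H332N
import Vale.Agent.P088.TM.Br4
import Vale.Agent.P088.TM.Br5
import Vale.Agent.P088.Q.OfH
import Vale.Agent.P088.H4.Bd5

/-!
# P088: natural fourth order equations, two manifolds, from the local statements
-/

open Bundle Manifold MeasureTheory Set Filter
open scoped ContDiff Matrix Topology ENNReal

noncomputable section

set_option linter.all false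

namespace Vale.Agent.P088.B2

open Vale.Agent.P088 Vale.Agent.P088.B

universe u

/-- The fourth order class, from transport and rigidity. -/
def cls4 {n N : ℕ} [NeZero n] (hP : EYM.H.Push4_statement) (hI : EYM.H.Rig4Int_statement)
    (hB : EYM.H.Rig4Bd_statement) (Φ : EYM.H.Cpl4 n N) : EYM.H.Cls n N where
  eq := EYM.H.Eq4 Φ
  mono := fun h hs => ⟨fun x hx => h.lap x (hs hx), fun x hx => h.ym x (hs hx)⟩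
  push := fun {L L' D D' X Y S} h1 h2 h3 h4 h5 h6 => hP n N Φ L L' D D' X Y S h1 h2 h3 h4 h5 h6
  rigInt := fun j0 W₁ W₂ D => hI n N Φ j0 W₁ W₂ D
  rigBd := fun j0 W₁ W₂ z r => hB n N Φ j0 W₁ W₂ z r

/-- Two manifolds, natural fourth order equations: the data determine the manifold, the metric and
the connection, with exactly one diffeomorphism and one gauge transformation. -/
theorem main4_unique (hA : EYM.H.DAll_statement) (hPu : EYM.H.Push4_statement)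
    (hI : EYM.H.Rig4Int_statement) (hB : EYM.H.Rig4Bd_statement)
    {n N : ℕ} [NeZero n] (hn : 3 ≤ n) (hN : 1 ≤ N) {M₁ M₂ : Type u}
    [TopologicalSpace M₁] [ChartedSpace (EuclideanHalfSpace n) M₁] [IsManifold (𝓡∂ n) ∞ M₁]
    [T2Space M₁] [CompactSpace M₁] [ConnectedSpace M₁]
    [TopologicalSpace M₂] [ChartedSpace (EuclideanHalfSpace n) M₂] [IsManifold (𝓡∂ n) ∞ M₂]
    [T2Space M₂] [CompactSpace M₂] [ConnectedSpace M₂]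
    (Z₁ : At n M₁) (hZ₁ : Z₁ = at_ n M₁) (Z₂ : At n M₂) (hZ₂ : Z₂ = at_ n M₂)
    (Γ₁ O₁ : Set M₁) (hO₁ : IsOpen O₁) (hΓ₁ : Γ₁ = O₁ ∩ bd Z₁) (hne : Γ₁.Nonempty)
    (Γ₂ O₂ : Set M₂) (hO₂ : IsOpen O₂) (hΓ₂ : Γ₂ = O₂ ∩ bd Z₂) (ψ : M₂ → M₁)
    (hψ : Iden N Z₁ Z₂ Γ₁ Γ₂ ψ) {Φ : Rhs n N} (hΦ : Natural4 Φ)
    (P : Pair Z₁ N) (Q : Pair Z₂ N)
    (hP : Sat4 Φ univ P) (hQ : Sat4 Φ univ Q) (hdata : SameData₂ Γ₁ Γ₂ ψ P Q) :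
    UniqueRel₂ Γ₁ Γ₂ ψ P Q := by
  have hne₂ : Γ₂.Nonempty := by
    obtain ⟨x, hx⟩ := hne
    obtain ⟨y, hy, -⟩ := hψ.1.surjOn hx
    exact ⟨y, hy⟩
  have key : Related₂ Γ₁ Γ₂ ψ P Q := by
    subst hZ₁ hZ₂
    obtain ⟨χ, hOk, hS⟩ := setup_of Γ₁ O₁ hO₁ hΓ₁ Γ₂ O₂ hO₂ hΓ₂ hne₂ ψ hψ P Q hdata
    let _ : MeasurableSpace M₁ := borel M₁
    have _ : BorelSpace M₁ := ⟨rfl⟩
    let _ : MeasurableSpace M₂ := borel M₂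
    have _ : BorelSpace M₂ := ⟨rfl⟩
    exact related₂_of (TM.Q.fMain n N M₁ M₂ (one P) (one Q) ⟨Γ₁, Γ₂, ψ, χ⟩
      (EYM.Q.ofH hA (cls4 hPu hI hB (rhsOf hΦ))) hn hN hOk hS (bridge4 hΦ hP) (bridge4 hΦ hQ))
  exact uniqueRel_of (by omega) hN Z₁ hZ₁ Z₂ hZ₂ Γ₁ O₁ hO₁ hΓ₁ hne Γ₂ O₂ hO₂ hΓ₂ ψ hψ P Q
    hdata key

/-- Determination on open sets, natural fourth order equations. -/
theorem main4_open (hA : EYM.H.DAll_statement) (hPu : EYM.H.Push4_statement)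
    (hI : EYM.H.Rig4Int_statement) (hB : EYM.H.Rig4Bd_statement)
    {n N : ℕ} [NeZero n] (hn : 3 ≤ n) (hN : 1 ≤ N)
    {Φ : Rhs n N} (hΦ : Natural4 Φ) {M₁ M₂ : Type u}
    [TopologicalSpace M₁] [ChartedSpace (EuclideanHalfSpace n) M₁] [IsManifold (𝓡∂ n) ∞ M₁]
    [T2Space M₁] [CompactSpace M₁] [ConnectedSpace M₁]
    [TopologicalSpace M₂] [ChartedSpace (EuclideanHalfSpace n) M₂] [IsManifold (𝓡∂ n) ∞ M₂]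
    [T2Space M₂] [CompactSpace M₂] [ConnectedSpace M₂]
    (Z₁ : At n M₁) (hZ₁ : Z₁ = at_ n M₁) (Z₂ : At n M₂) (hZ₂ : Z₂ = at_ n M₂)
    (Γ₁ O₁ : Set M₁) (hO₁ : IsOpen O₁) (hΓ₁ : Γ₁ = O₁ ∩ bd Z₁)
    (Γ₂ O₂ : Set M₂) (hO₂ : IsOpen O₂) (hΓ₂ : Γ₂ = O₂ ∩ bd Z₂) (ψ : M₂ → M₁)
    (hψ : Iden N Z₁ Z₂ Γ₁ Γ₂ ψ) (P : Pair Z₁ N) (Q : Pair Z₂ N)
    (hdata : SameData₂ Γ₁ Γ₂ ψ P Q) (W₁ : Set M₁) (hW₁ : IsOpen W₁) (W₂ : Set M₂)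
    (hW₂ : IsOpen W₂) (x : M₂) (hx : x ∈ Γ₂ ∩ W₂) (hx₁ : ψ x ∈ W₁)
    (hP : Sat4 Φ W₁ P) (hQ : Sat4 Φ W₂ Q) :
    (∃ W ⊆ W₂, IsOpen W ∧ (W ∩ Γ₂).Nonempty ∧ RelatedOn W Γ₁ Γ₂ ψ P Q) ∧
      (W₁ = univ → IsPreconnected W₂ → RelatedOn W₂ Γ₁ Γ₂ ψ P Q) := by
  subst hZ₁ hZ₂
  obtain ⟨χ, hOk, hS⟩ := setup_of Γ₁ O₁ hO₁ hΓ₁ Γ₂ O₂ hO₂ hΓ₂ ⟨x, hx.1⟩ ψ hψ P Q hdata
  let _ : MeasurableSpace M₁ := borel M₁
  have _ : BorelSpace M₁ := ⟨rfl⟩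
  let _ : MeasurableSpace M₂ := borel M₂
  have _ : BorelSpace M₂ := ⟨rfl⟩
  set K := EYM.Q.ofH hA (cls4 hPu hI hB (rhsOf hΦ)) with hK
  have hPw : TM.Q.EYMw K (one P) W₁ := fun p => bridge4_on hΦ hP p
  have hQw : TM.Q.EYMw K (one Q) W₂ := fun p => bridge4_on hΦ hQ p
  obtain ⟨W, hWs, hWo, hWne, F, H, hM⟩ := TM.Q.wLocal' (one P) (one Q) ⟨Γ₁, Γ₂, ψ, χ⟩
    K hn hN hOk hS hW₁ hW₂ hPw hQw hx.1 hx.2 hx₁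
  refine ⟨⟨W, hWs, hWo, hWne, relatedOn_of (by omega) hN hOk hS hWo hM⟩, ?_⟩
  intro h1 hc
  subst h1
  obtain ⟨F, H, hM⟩ := TM.Q.wMain' (one P) (one Q) ⟨Γ₁, Γ₂, ψ, χ⟩ K hn hN hOk hS
    hW₂ hc ⟨x, hx.2, hx.1⟩ hPw hQw
  exact relatedOn_of (by omega) hN hOk hS hW₂ hM

end Vale.Agent.P088.B2
end
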