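import Vale.Agent.P088.H4.Spec
import Vale.Agent.P088.H820.G3

/-!
# P088, fourth order class: the calculus of similarity to second order
-/

open MeasureTheory Set Filter Topology Asymptotics
open scoped ContDiff

noncomputable section

namespace Vale.Agent.P088.EYM.H

set_option linter.unusedSectionVars false

variable {n N : ℕ} [NeZero n]
variable {V V' : Type*} [NormedAddCommGroup V] [NormedSpace ℝ V] [NormedAddCommGroup V']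
  [NormedSpace ℝ V'] {w : E n → ℝ} {f₁ f₂ h₁ h₂ : E n → V}
  {𝔸 : Type*} [NormedRing 𝔸] [NormedSpace ℝ 𝔸] [IsScalarTower ℝ 𝔸 𝔸] [SMulCommClass ℝ 𝔸 𝔸]
  {D : Set (E n)} {z : E n}

/-- `(f₁, f₂)` and `(∂_m f₁, ∂_m f₂)` are similar to first order. -/
structure Sim2 (D : Set (E n)) (z : E n) (w : E n → ℝ) (f₁ f₂ : E n → V) : Prop where
  s : Sim1 D z w f₁ f₂
  d : ∀ m, Sim1 D z w (pd m f₁) (pd m f₂)

theorem Sim2.add (hD : RelOpen D) (hz : z ∈ D) (hf : Sim2 D z w f₁ f₂) (hh : Sim2 D z w h₁ h₂) :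
    Sim2 D z w (fun x => f₁ x + h₁ x) (fun x => f₂ x + h₂ x) :=
  ⟨hf.s.add hD hz hh.s, fun m => Sim1.congr hD hz ((hf.d m).add hD hz (hh.d m))
    (fun _ hx => (hD.pd_add hf.s.s₁ hh.s.s₁ hx m).symm)
    (fun _ hx => (hD.pd_add hf.s.s₂ hh.s.s₂ hx m).symm)⟩

theorem Sim2.sub (hD : RelOpen D) (hz : z ∈ D) (hf : Sim2 D z w f₁ f₂) (hh : Sim2 D z w h₁ h₂) :
    Sim2 D z w (fun x => f₁ x - h₁ x) (fun x => f₂ x - h₂ x) :=
  ⟨hf.s.sub hD hz hh.s, fun m => Sim1.congr hD hz ((hf.d m).sub hD hz (hh.d m))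
    (fun _ hx => (hD.pd_sub hf.s.s₁ hh.s.s₁ hx m).symm)
    (fun _ hx => (hD.pd_sub hf.s.s₂ hh.s.s₂ hx m).symm)⟩

theorem Sim2.const (hD : RelOpen D) (hz : z ∈ D) (c : V) :
    Sim2 D z w (fun _ => c) (fun _ => c) :=
  ⟨Sim1.const c, fun m => Sim1.congr hD hz (Sim1.const (0 : V))
    (fun x _ => (pd_const c x m).symm) (fun x _ => (pd_const c x m).symm)⟩

theorem Sim2.sum (hD : RelOpen D) (hz : z ∈ D) {ι : Type*} (s : Finset ι) {F₁ F₂ : ι → E n → V}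
    (h : ∀ i ∈ s, Sim2 D z w (F₁ i) (F₂ i)) :
    Sim2 D z w (fun x => ∑ i ∈ s, F₁ i x) (fun x => ∑ i ∈ s, F₂ i x) :=
  ⟨Sim1.sum hD hz s fun i hi => (h i hi).s, fun m =>
    Sim1.congr hD hz (Sim1.sum hD hz s fun i hi => (h i hi).d m)
      (fun _ hx => (hD.pd_sum s (fun i hi => (h i hi).s.s₁) hx m).symm)
      (fun _ hx => (hD.pd_sum s (fun i hi => (h i hi).s.s₂) hx m).symm)⟩

theorem Sim2.clm (hD : RelOpen D) (hz : z ∈ D) (T : V →L[ℝ] V') (hf : Sim2 D z w f₁ f₂) :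
    Sim2 D z w (fun x => T (f₁ x)) (fun x => T (f₂ x)) :=
  ⟨hf.s.clm hD hz T, fun m => Sim1.congr hD hz ((hf.d m).clm hD hz T)
    (fun _ hx => (hD.pd_clm T hf.s.s₁ hx m).symm)
    (fun _ hx => (hD.pd_clm T hf.s.s₂ hx m).symm)⟩

theorem Sim2.smul (hD : RelOpen D) (hz : z ∈ D) {a₁ a₂ : E n → ℝ} (ha : Sim2 D z w a₁ a₂)
    (hf : Sim2 D z w f₁ f₂) : Sim2 D z w (fun x => a₁ x • f₁ x) (fun x => a₂ x • f₂ x) :=
  ⟨ha.s.smul hD hz hf.s, fun m =>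
    Sim1.congr hD hz ((ha.s.smul hD hz (hf.d m)).add hD hz ((ha.d m).smul hD hz hf.s))
      (fun _ hx => (hD.pd_smul ha.s.s₁ hf.s.s₁ hx m).symm)
      (fun _ hx => (hD.pd_smul ha.s.s₂ hf.s.s₂ hx m).symm)⟩

theorem Sim2.mul (hD : RelOpen D) (hz : z ∈ D) {a₁ a₂ b₁ b₂ : E n → 𝔸} (ha : Sim2 D z w a₁ a₂)
    (hb : Sim2 D z w b₁ b₂) : Sim2 D z w (fun x => a₁ x * b₁ x) (fun x => a₂ x * b₂ x) :=
  ⟨ha.s.mul hD hz hb.s, fun m =>
    Sim1.congr hD hz ((ha.s.mul hD hz (hb.d m)).add hD hz ((ha.d m).mul hD hz hb.s))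
      (fun _ hx => (hD.pd_mul ha.s.s₁ hb.s.s₁ hx m).symm)
      (fun _ hx => (hD.pd_mul ha.s.s₂ hb.s.s₂ hx m).symm)⟩

theorem Sim2.eval (hD : RelOpen D) (hz : z ∈ D) {a₁ a₂ : E n → EndF N} {c₁ c₂ : E n → Fib N}
    (ha : Sim2 D z w a₁ a₂) (hc : Sim2 D z w c₁ c₂) :
    Sim2 D z w (fun x => a₁ x (c₁ x)) (fun x => a₂ x (c₂ x)) :=
  ⟨ha.s.eval hD hz hc.s, fun m =>
    Sim1.congr hD hz ((ha.s.eval hD hz (hc.d m)).add hD hz ((ha.d m).eval hD hz hc.s))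
      (fun _ hx => (hD.pd_eval ha.s.s₁ hc.s.s₁ (by simp) (by simp) hx m).symm)
      (fun _ hx => (hD.pd_eval ha.s.s₂ hc.s.s₂ (by simp) (by simp) hx m).symm)⟩

theorem Sim2.congr (hD : RelOpen D) (hz : z ∈ D) {f₁' f₂' : E n → V} (hf : Sim2 D z w f₁ f₂)
    (h1 : EqOn f₁ f₁' D) (h2 : EqOn f₂ f₂' D) : Sim2 D z w f₁' f₂' :=
  ⟨hf.s.congr hD hz h1 h2, fun m => Sim1.congr hD hz (hf.d m)
    (fun _ hx => hD.pd_congr h1 hx m) (fun _ hx => hD.pd_congr h2 hx m)⟩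

theorem Sim2.rsmul (hD : RelOpen D) (hz : z ∈ D) (r : ℝ) (hf : Sim2 D z w f₁ f₂) :
    Sim2 D z w (fun x => r • f₁ x) (fun x => r • f₂ x) :=
  Sim2.smul hD hz (Sim2.const hD hz r) hf

theorem Sim1.neg (hD : RelOpen D) (hz : z ∈ D) (hf : Sim1 D z w f₁ f₂) :
    Sim1 D z w (fun x => -f₁ x) (fun x => -f₂ x) :=
  Sim1.congr hD hz (Sim1.rsmul hD hz (-1) hf) (fun x _ => by simp) (fun x _ => by simp)

/-- the entries of the inverse matrix -/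
theorem Sim2.minv (hD : RelOpen D) (hz : z ∈ D) {g₁ g₂ : E n → Matrix (Fin n) (Fin n) ℝ}
    (hp₁ : ∀ x ∈ D, (g₁ x).PosDef) (hp₂ : ∀ x ∈ D, (g₂ x).PosDef)
    (h : ∀ i j, Sim2 D z w (fun x => g₁ x i j) (fun x => g₂ x i j)) (i j : Fin n) :
    Sim2 D z w (fun x => (g₁ x)⁻¹ i j) (fun x => (g₂ x)⁻¹ i j) := by
  have hi := fun i j => Sim1.minv hD hz hp₁ hp₂ (fun i j => (h i j).s) i j
  refine ⟨hi i j, fun m => Sim1.congr hD hz (Sim1.neg hD hz (Sim1.sum hD hz Finset.univ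
    fun c _ => Sim1.sum hD hz Finset.univ fun d _ =>
      ((hi i c).mul hD hz ((h c d).d m)).mul hD hz (hi d j))) ?_ ?_⟩
  · intro x hx
    exact (hD.pd_minv (fun i j => (h i j).s.s₁) hp₁ hx m i j).symm
  · intro x hx
    exact (hD.pd_minv (fun i j => (h i j).s.s₂) hp₂ hx m i j).symm

end Vale.Agent.P088.EYM.H

end
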