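import Vale.Agent.P088.H4.H332A

/-!
# P088, fourth order equations: models and the calculus of similarity
(adapted from `Vale.Agent.P088.H820.G2`)
-/

open MeasureTheory Set Filter Topology Asymptotics

open scoped ContDiff

noncomputable section

namespace Vale.Agent.P088.EYM.H

set_option linter.unusedSectionVars false

variable {n N : ℕ} [NeZero n]

/-- Models of the fourth order class. -/
structure M4 (cp : Cpl4 n N) (j0 : Fin N) (W : Model n N) (D : Set (E n)) : Prop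
    extends IsMod j0 W D where
  eqs : Eq4 cp W.toLD D

section Mod

/-- `∑ g^{ij} Γ^a_{ij} = H^a` -/
theorem model_harm {cp : Cpl4 n N} {j0 : Fin N} {W : Model n N} {D : Set (E n)} (hD : RelOpen D)
    (hW : M4 cp j0 W D) {x : E n} (hx : x ∈ D) (a : Fin n) :
    ∑ i, ∑ j, (W.g x)⁻¹ i j * chr W.g a i j x = Hco W j0 a x := by
  have hf : ∀ v : Fib N, Lop W.toLD (fun _ => v) x = 0 := fun v => (hW.frame v).2 x hx
  have hc := (hW.sol a).1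
  have h1 := eqs_c hD hW.ok hf hc ((hW.sol a).2 x hx) hx
  have hT : EqOn (fun y => eqsRe j0 (W.c a y)) (fun y => y a) D := fun y hy => hW.re a y hy
  have hT1 : ∀ k, ∀ y ∈ D, eqsRe j0 (pd k (W.c a) y) = if k = a then 1 else 0 := by
    intro k y hy
    rw [← hD.pd_clm (eqsRe j0) hc hy k, hD.pd_congr hT hy k, eqs_pd_coord (hD.subset hy)]
  have hT2 : ∀ j k, eqsRe j0 (pd j (pd k (W.c a)) x) = 0 := by
    intro j k
    rw [← hD.pd_clm (eqsRe j0) (hD.pd_smooth hc k) hx j]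
    have h2 : EqOn (fun y => eqsRe j0 (pd k (W.c a) y)) (fun _ => if k = a then (1 : ℝ) else 0) D :=
      fun y hy => hT1 k y hy
    rw [hD.pd_congr h2 hx j, pd_const]
  have h3 := congrArg (eqsRe j0) h1
  rw [map_sub] at h3
  simp only [map_sum, map_smul, hT2, hT1 _ x hx, smul_eq_mul, mul_zero, Finset.sum_const_zero,
    mul_ite, mul_one, Finset.sum_ite_eq', Finset.mem_univ, if_true] at h3
  rw [Hco, ← eqsRe_apply]
  simp only [map_sum, map_smul, smul_eq_mul]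
  change eqsH W.g a x = _
  (clear cp D hD hW hx hf hc h1 hT hT1 hT2; linarith)

theorem model_c {cp : Cpl4 n N} {j0 : Fin N} {W : Model n N} {D : Set (E n)} (hD : RelOpen D)
    (hW : M4 cp j0 W D) {x : E n} (hx : x ∈ D) (a : Fin n) :
    ∑ j, ∑ k, (W.g x)⁻¹ j k • pd j (pd k (W.c a)) x =
      ∑ k, Hco W j0 k x • pd k (W.c a) x -
        ∑ j, ∑ k, (2 * (W.g x)⁻¹ j k) • W.B j x (pd k (W.c a) x) := by
  have hf : ∀ v : Fib N, Lop W.toLD (fun _ => v) x = 0 := fun v => (hW.frame v).2 x hx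
  have h1 := eqs_c hD hW.ok hf (hW.sol a).1 ((hW.sol a).2 x hx) hx
  rw [h1]
  congr 1
  exact Finset.sum_congr rfl fun k _ => by
    rw [← model_harm hD hW hx k]
    rfl

theorem model_B {cp : Cpl4 n N} {j0 : Fin N} {W : Model n N} {D : Set (E n)} (hD : RelOpen D)
    (hW : M4 cp j0 W D) {x : E n} (hx : x ∈ D) :
    ∑ j, ∑ k, (W.g x)⁻¹ j k • pd j (W.B k) x =
      ∑ k, Hco W j0 k x • W.B k x - ∑ j, ∑ k, (W.g x)⁻¹ j k • (W.B j x * W.B k x) := by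
  have hL := hW.ok
  ext1 v
  have h1 : Lop W.toLD (fun _ => v) x = 0 := (hW.frame v).2 x hx
  rw [eqs_frame hD hL v hx] at h1
  simp only [Finset.sum_add_distrib] at h1
  have hs := eqs_sqrt_pos (hL.g_pos x hx)
  set s := Real.sqrt (W.g x).det with hs'
  have e1 : ∑ j, ∑ k, gg W.g j k x • pd j (W.B k) x v =
      s • ∑ j, ∑ k, (W.g x)⁻¹ j k • pd j (W.B k) x v := by
    simp only [Finset.smul_sum, smul_smul]
    rfl
  have e2 : ∑ j, ∑ k, pd j (gg W.g j k) x • W.B k x v =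
      -(s • ∑ k, Hco W j0 k x • W.B k x v) := by
    rw [Finset.sum_comm]
    simp only [← Finset.sum_smul, hD.sum_pd_gg hL.g_smooth hL.g_pos hx, model_harm hD hW hx,
      Finset.smul_sum, smul_smul, ← Finset.sum_neg_distrib, ← neg_smul]
    rfl
  have e3 : ∑ j, ∑ k, gg W.g j k x • W.B j x (W.B k x v) =
      s • ∑ j, ∑ k, (W.g x)⁻¹ j k • W.B j x (W.B k x v) := by
    simp only [Finset.smul_sum, smul_smul]
    rfl
  rw [e1, e2, e3, ← smul_neg, ← smul_add, ← smul_add] at h1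
  have h2 := (smul_eq_zero.1 h1).resolve_left hs.ne'
  simp only [sum_apply, smul_apply, sub_apply, mul_apply_eq_comp]
  rw [← sub_eq_zero, ← h2]
  abel

end Mod

variable {V V' : Type*} [NormedAddCommGroup V] [NormedSpace ℝ V] [NormedAddCommGroup V']
  [NormedSpace ℝ V']

theorem Wv_smooth {cp : Cpl4 n N} {j0 : Fin N} {W : Model n N} {D : Set (E n)} (hD : RelOpen D)
    (hW : M4 cp j0 W D) : ContDiffOn ℝ ∞ (Wv W) D := by
  refine ContDiffOn.prodMk (contDiffOn_pi.2 fun i => contDiffOn_pi.2 fun j => hW.ok.g_smooth i j)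
    (ContDiffOn.prodMk (contDiffOn_pi.2 fun i => hW.ok.B_smooth i)
    (ContDiffOn.prodMk hW.ok.h_smooth (ContDiffOn.prodMk (contDiffOn_pi.2 fun a => (hW.sol a).1)
      (contDiffOn_pi.2 fun a => contDiffOn_pi.2 fun k => hD.pd_smooth (hW.sol a).1 k))))

theorem diffWv_smooth {cp : Cpl4 n N} {j0 : Fin N} {W₁ W₂ : Model n N} {D : Set (E n)} (hD : RelOpen D)
    (h₁ : M4 cp j0 W₁ D) (h₂ : M4 cp j0 W₂ D) :
    ContDiffOn ℝ ∞ (fun y => Wv W₁ y - Wv W₂ y) D := (Wv_smooth hD h₁).sub (Wv_smooth hD h₂)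


theorem ric_smooth {D : Set (E n)} (hD : RelOpen D) {g : E n → Matrix (Fin n) (Fin n) ℝ}
    (hg : SmM g D) (hp : ∀ x ∈ D, (g x).PosDef) (j k : Fin n) : ContDiffOn ℝ ∞ (ric g j k) D := by
  have hc := fun a b c => Ric_chr_smooth hD hg hp a b c
  unfold ric
  exact ContDiffOn.sum fun i _ => ((hD.pd_smooth (hc _ _ _) _).sub (hD.pd_smooth (hc _ _ _) _)).add
    (ContDiffOn.sum fun l _ => ((hc _ _ _).mul (hc _ _ _)).sub ((hc _ _ _).mul (hc _ _ _)))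


/-- The space of the values of `(∂W, Ric)`. -/
abbrev VV2 (n N : ℕ) : Type := (Fin n → VV n N) × (Fin n → Fin n → ℝ)

/-- The space of the values of `(W, ∂W, Ric)`. -/
abbrev UU (n N : ℕ) : Type := VV n N × VV2 n N

scoped instance instVV1 : NormedAddCommGroup (VV n N) := inferInstance
scoped instance instVV2 : NormedSpace ℝ (VV n N) := inferInstance
scoped instance instVV3 : NormedAddCommGroup (VV2 n N) := inferInstance
scoped instance instVV4 : NormedSpace ℝ (VV2 n N) := inferInstance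

/-- `(W, ∂W, Ric)` -/
def Uv (W : Model n N) (x : E n) : UU n N :=
  (Wv W x, fun i => pd i (Wv W) x, fun j k => ric W.g j k x)

/-- The size of the difference of `(W, ∂W, Ric)` and of its first derivatives. -/
def om2 (W₁ W₂ : Model n N) (x : E n) : ℝ :=
  ‖Uv W₁ x - Uv W₂ x‖ + ∑ j, ‖pd j (fun y => Uv W₁ y - Uv W₂ y) x‖

theorem om2_nonneg (W₁ W₂ : Model n N) (x : E n) : 0 ≤ om2 W₁ W₂ x := by
  unfold om2; positivity

theorem Uv_smooth {cp : Cpl4 n N} {j0 : Fin N} {W : Model n N} {D : Set (E n)} (hD : RelOpen D)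
    (hW : M4 cp j0 W D) : ContDiffOn ℝ ∞ (Uv W) D :=
  ContDiffOn.prodMk (Wv_smooth hD hW) (ContDiffOn.prodMk
    (contDiffOn_pi.2 fun i => hD.pd_smooth (Wv_smooth hD hW) i)
    (contDiffOn_pi.2 fun j => contDiffOn_pi.2 fun k =>
      ric_smooth hD hW.ok.g_smooth hW.ok.g_pos j k))

theorem diffUv_smooth {cp : Cpl4 n N} {j0 : Fin N} {W₁ W₂ : Model n N} {D : Set (E n)}
    (hD : RelOpen D) (h₁ : M4 cp j0 W₁ D) (h₂ : M4 cp j0 W₂ D) :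
    ContDiffOn ℝ ∞ (fun y => Uv W₁ y - Uv W₂ y) D := (Uv_smooth hD h₁).sub (Uv_smooth hD h₂)

/-- every linear component of `(W, ∂W, Ric)` is similar to first order -/
theorem s1_comp {cp : Cpl4 n N} {j0 : Fin N} {W₁ W₂ : Model n N} {D : Set (E n)} (hD : RelOpen D)
    (h₁ : M4 cp j0 W₁ D) (h₂ : M4 cp j0 W₂ D) {z : E n} (hz : z ∈ D)
    (T : UU n N →L[ℝ] V) :
    Sim1 D z (om2 W₁ W₂) (fun x => T (Uv W₁ x)) (fun x => T (Uv W₂ x)) :=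
  sim1_gen hD hz (Uv_smooth hD h₁) (Uv_smooth hD h₂) T

/-- every linear component of `W` is similar to second order -/
theorem s2_comp {cp : Cpl4 n N} {j0 : Fin N} {W₁ W₂ : Model n N} {D : Set (E n)} (hD : RelOpen D)
    (h₁ : M4 cp j0 W₁ D) (h₂ : M4 cp j0 W₂ D) {z : E n} (hz : z ∈ D)
    (T : VV n N →L[ℝ] V) :
    Sim2 D z (om2 W₁ W₂) (fun x => T (Wv W₁ x)) (fun x => T (Wv W₂ x)) := by
  refine ⟨s1_comp hD h₁ h₂ hz (T.comp (ContinuousLinearMap.fst ℝ _ _)), fun m => ?_⟩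
  have h := s1_comp hD h₁ h₂ hz (T.comp
    ((ContinuousLinearMap.proj (R := ℝ) (φ := fun _ : Fin n => VV n N) m).comp
      ((ContinuousLinearMap.fst ℝ _ _).comp (ContinuousLinearMap.snd ℝ _ _))))
  exact Sim1.congr hD hz h (fun x hx => (hD.pd_clm T (Wv_smooth hD h₁) hx m).symm)
    (fun x hx => (hD.pd_clm T (Wv_smooth hD h₂) hx m).symm)

section Comp

variable {cp : Cpl4 n N} {j0 : Fin N} {W₁ W₂ : Model n N} {D : Set (E n)} {z : E n}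

theorem s1_ric (hD : RelOpen D)
    (h₁ : M4 cp j0 W₁ D) (h₂ : M4 cp j0 W₂ D) (hz : z ∈ D) (j k : Fin n) :
    Sim1 D z (om2 W₁ W₂) (ric W₁.g j k) (ric W₂.g j k) :=
  s1_comp hD h₁ h₂ hz ((ContinuousLinearMap.proj (R := ℝ) (φ := fun _ : Fin n => ℝ) k).comp
    ((ContinuousLinearMap.proj (R := ℝ) (φ := fun _ : Fin n => Fin n → ℝ) j).comp
    ((ContinuousLinearMap.snd ℝ _ _).comp (ContinuousLinearMap.snd ℝ _ _))))

theorem s2_g (hD : RelOpen D)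
    (h₁ : M4 cp j0 W₁ D) (h₂ : M4 cp j0 W₂ D) (hz : z ∈ D) (i j : Fin n) :
    Sim2 D z (om2 W₁ W₂) (fun x => W₁.g x i j) (fun x => W₂.g x i j) :=
  s2_comp hD h₁ h₂ hz ((ContinuousLinearMap.proj (R := ℝ) (φ := fun _ : Fin n => ℝ) j).comp
    ((ContinuousLinearMap.proj (R := ℝ) (φ := fun _ : Fin n => Fin n → ℝ) i).comp
      (ContinuousLinearMap.fst ℝ _ _)))

theorem s2_B (hD : RelOpen D)
    (h₁ : M4 cp j0 W₁ D) (h₂ : M4 cp j0 W₂ D) (hz : z ∈ D) (i : Fin n) :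
    Sim2 D z (om2 W₁ W₂) (W₁.B i) (W₂.B i) :=
  s2_comp hD h₁ h₂ hz ((ContinuousLinearMap.proj (R := ℝ) (φ := fun _ : Fin n => EndF N) i).comp
    ((ContinuousLinearMap.fst ℝ _ _).comp (ContinuousLinearMap.snd ℝ _ _)))

theorem s2_h (hD : RelOpen D)
    (h₁ : M4 cp j0 W₁ D) (h₂ : M4 cp j0 W₂ D) (hz : z ∈ D) :
    Sim2 D z (om2 W₁ W₂) W₁.h W₂.h :=
  s2_comp hD h₁ h₂ hz ((ContinuousLinearMap.fst ℝ _ _).comp
    ((ContinuousLinearMap.snd ℝ _ _).comp (ContinuousLinearMap.snd ℝ _ _)))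

theorem s2_p (hD : RelOpen D)
    (h₁ : M4 cp j0 W₁ D) (h₂ : M4 cp j0 W₂ D) (hz : z ∈ D) (a k : Fin n) :
    Sim2 D z (om2 W₁ W₂) (pd k (W₁.c a)) (pd k (W₂.c a)) :=
  s2_comp hD h₁ h₂ hz ((ContinuousLinearMap.proj (R := ℝ) (φ := fun _ : Fin n => Fib N) k).comp
    ((ContinuousLinearMap.proj (R := ℝ) (φ := fun _ : Fin n => Fin n → Fib N) a).comp
    ((ContinuousLinearMap.snd ℝ _ _).comp ((ContinuousLinearMap.snd ℝ _ _).comp
    ((ContinuousLinearMap.snd ℝ _ _).comp (ContinuousLinearMap.snd ℝ _ _))))))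

theorem s2_gi (hD : RelOpen D)
    (h₁ : M4 cp j0 W₁ D) (h₂ : M4 cp j0 W₂ D) (hz : z ∈ D) (i j : Fin n) :
    Sim2 D z (om2 W₁ W₂) (fun x => (W₁.g x)⁻¹ i j) (fun x => (W₂.g x)⁻¹ i j) :=
  Sim2.minv hD hz h₁.ok.g_pos h₂.ok.g_pos (fun i j => s2_g hD h₁ h₂ hz i j) i j

theorem s2_twoB (hD : RelOpen D)
    (h₁ : M4 cp j0 W₁ D) (h₂ : M4 cp j0 W₂ D) (hz : z ∈ D) (a : Fin n) :
    Sim2 D z (om2 W₁ W₂) (fun x => ∑ j, ∑ k, (2 * (W₁.g x)⁻¹ j k) • W₁.B j x (pd k (W₁.c a) x))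
      (fun x => ∑ j, ∑ k, (2 * (W₂.g x)⁻¹ j k) • W₂.B j x (pd k (W₂.c a) x)) :=
  Sim2.sum hD hz _ fun j _ => Sim2.sum hD hz _ fun k _ =>
    Sim2.smul hD hz (Sim2.rsmul hD hz 2 (s2_gi hD h₁ h₂ hz j k))
      (Sim2.eval hD hz (s2_B hD h₁ h₂ hz j) (s2_p hD h₁ h₂ hz a k))

theorem s2_H (hD : RelOpen D)
    (h₁ : M4 cp j0 W₁ D) (h₂ : M4 cp j0 W₂ D) (hz : z ∈ D) (a : Fin n) :
    Sim2 D z (om2 W₁ W₂) (Hco W₁ j0 a) (Hco W₂ j0 a) :=
  Sim2.clm hD hz (dfReC j0) (s2_twoB hD h₁ h₂ hz a)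

theorem s2_Rc (hD : RelOpen D)
    (h₁ : M4 cp j0 W₁ D) (h₂ : M4 cp j0 W₂ D) (hz : z ∈ D) (a : Fin n) :
    Sim2 D z (om2 W₁ W₂) (DfRc W₁ j0 a) (DfRc W₂ j0 a) :=
  Sim2.sub hD hz (Sim2.sum hD hz _ fun k _ => Sim2.smul hD hz (s2_H hD h₁ h₂ hz k)
    (s2_p hD h₁ h₂ hz a k)) (s2_twoB hD h₁ h₂ hz a)

theorem s2_RB (hD : RelOpen D)
    (h₁ : M4 cp j0 W₁ D) (h₂ : M4 cp j0 W₂ D) (hz : z ∈ D) :
    Sim2 D z (om2 W₁ W₂) (DfRB W₁ j0) (DfRB W₂ j0) :=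
  Sim2.sub hD hz (Sim2.sum hD hz _ fun k _ => Sim2.smul hD hz (s2_H hD h₁ h₂ hz k)
    (s2_B hD h₁ h₂ hz k)) (Sim2.sum hD hz _ fun j _ => Sim2.sum hD hz _ fun k _ =>
      Sim2.smul hD hz (s2_gi hD h₁ h₂ hz j k) (Sim2.mul hD hz (s2_B hD h₁ h₂ hz j)
        (s2_B hD h₁ h₂ hz k)))


theorem c_smooth (h₁ : M4 cp j0 W₁ D) (a : Fin n) : ContDiffOn ℝ ∞ (W₁.c a) D :=
  (h₁.sol a).1

theorem PP_c_eq (hD : RelOpen D) (h₁ : M4 cp j0 W₁ D) (a : Fin n) :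
    EqOn (DfP W₁.g (W₁.c a)) (DfRc W₁ j0 a) D := fun x hx => model_c hD h₁ hx a

/-- derivative of the principal part -/
theorem pd_PP (hD : RelOpen D) (h₁ : M4 cp j0 W₁ D) {f : E n → V}
    (hf : ContDiffOn ℝ ∞ f D) {x : E n} (hx : x ∈ D) (m : Fin n) :
    DfP W₁.g (pd m f) x = pd m (DfP W₁.g f) x -
      ∑ j, ∑ k, pd m (fun y => (W₁.g y)⁻¹ j k) x • pd j (pd k f) x := by
  have hi : ∀ j k, ContDiffOn ℝ ∞ (fun y => (W₁.g y)⁻¹ j k) D :=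
    fun j k => hD.smM_inv h₁.ok.g_smooth h₁.ok.g_pos j k
  have hs : ∀ j k, ContDiffOn ℝ ∞ (fun y => (W₁.g y)⁻¹ j k • pd j (pd k f) y) D := fun j k =>
    (hi j k).smul (hD.pd_smooth (hD.pd_smooth hf k) j)
  have e1 : pd m (DfP W₁.g f) x = ∑ j, ∑ k, ((W₁.g x)⁻¹ j k • pd m (pd j (pd k f)) x +
      pd m (fun y => (W₁.g y)⁻¹ j k) x • pd j (pd k f) x) := by
    have e2 : pd m (DfP W₁.g f) x = ∑ j, pd m (fun y => ∑ k, (W₁.g y)⁻¹ j k • pd j (pd k f) y) x :=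
      hD.pd_sum _ (fun j _ => ContDiffOn.sum fun k _ => hs j k) hx m
    rw [e2]
    refine Finset.sum_congr rfl fun j _ => ?_
    have e3 : pd m (fun y => ∑ k, (W₁.g y)⁻¹ j k • pd j (pd k f) y) x =
        ∑ k, pd m (fun y => (W₁.g y)⁻¹ j k • pd j (pd k f) y) x :=
      hD.pd_sum _ (fun k _ => hs j k) hx m
    rw [e3]
    exact Finset.sum_congr rfl fun k _ => hD.pd_smul (hi j k) (hD.pd_smooth (hD.pd_smooth hf k) j) hx m
  rw [e1]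
  simp only [Finset.sum_add_distrib, add_sub_cancel_right]
  unfold DfP
  refine Finset.sum_congr rfl fun j _ => Finset.sum_congr rfl fun k _ => ?_
  have e2 : pd j (pd k (pd m f)) x = pd m (pd j (pd k f)) x := by
    rw [hD.pd_comm (hD.pd_smooth hf k) hx m j]
    exact hD.pd_congr (fun y hy => hD.pd_comm hf hy k m) hx j
  rw [e2]

theorem B_smooth' (h₁ : M4 cp j0 W₁ D) (i : Fin n) : ContDiffOn ℝ ∞ (W₁.B i) D :=
  h₁.ok.B_smooth i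

theorem PP_B_eq (hD : RelOpen D) (h₁ : M4 cp j0 W₁ D) (k : Fin n) {x : E n} (hx : x ∈ D) :
    DfP W₁.g (W₁.B k) x = DfEB W₁ j0 k x := by
  have hB := fun i => B_smooth' h₁ i
  have hi : ∀ j k, ContDiffOn ℝ ∞ (fun y => (W₁.g y)⁻¹ j k) D :=
    fun j k => hD.smM_inv h₁.ok.g_smooth h₁.ok.g_pos j k
  -- the mixed term
  have e1 : ∑ i, ∑ j, (W₁.g x)⁻¹ i j • pd i (pd k (W₁.B j)) x = pd k (DfRB W₁ j0) x -
      ∑ i, ∑ j, pd k (fun y => (W₁.g y)⁻¹ i j) x • pd i (W₁.B j) x := by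
    have hs : ∀ i j, ContDiffOn ℝ ∞ (fun y => (W₁.g y)⁻¹ i j • pd i (W₁.B j) y) D := fun i j =>
      (hi i j).smul (hD.pd_smooth (hB j) i)
    have h3 : pd k (DfRB W₁ j0) x = pd k (fun y => ∑ i, ∑ j, (W₁.g y)⁻¹ i j • pd i (W₁.B j) y) x :=
      hD.pd_congr (fun y hy => (model_B hD h₁ hy).symm) hx k
    have h4 : pd k (fun y => ∑ i, ∑ j, (W₁.g y)⁻¹ i j • pd i (W₁.B j) y) x =
        ∑ i, pd k (fun y => ∑ j, (W₁.g y)⁻¹ i j • pd i (W₁.B j) y) x :=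
      hD.pd_sum _ (fun i _ => ContDiffOn.sum fun j _ => hs i j) hx k
    have h5 : ∀ i, pd k (fun y => ∑ j, (W₁.g y)⁻¹ i j • pd i (W₁.B j) y) x =
        ∑ j, pd k (fun y => (W₁.g y)⁻¹ i j • pd i (W₁.B j) y) x := fun i =>
      hD.pd_sum _ (fun j _ => hs i j) hx k
    rw [h3, h4, ← Finset.sum_sub_distrib]
    refine Finset.sum_congr rfl fun i _ => ?_
    rw [h5 i, ← Finset.sum_sub_distrib]
    refine Finset.sum_congr rfl fun j _ => ?_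
    rw [hD.pd_smul (hi i j) (hD.pd_smooth (hB j) i) hx k, add_sub_cancel_right,
      hD.pd_comm (hB j) hx i k]
  -- derivative of the curvature
  have e2 : ∀ i j, pd i (cur W₁.B j k) x = pd i (pd j (W₁.B k)) x - pd i (pd k (W₁.B j)) x +
      pd i (fun y => W₁.B j y * W₁.B k y - W₁.B k y * W₁.B j y) x := by
    intro i j
    have a1 := hD.pd_smooth (hB k) j
    have a2 := hD.pd_smooth (hB j) k
    have a3 : ContDiffOn ℝ ∞ (fun y => W₁.B j y * W₁.B k y - W₁.B k y * W₁.B j y) D :=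
      (smooth_mul (hB j) (hB k)).sub (smooth_mul (hB k) (hB j))
    have b1 := hD.pd_add (a1.sub a2) a3 hx i
    rw [← hD.pd_sub a1 a2 hx i]
    exact b1
  have e3 := h₁.eqs.ym x hx k
  unfold ymE at e3
  simp only [e2, smul_add, smul_sub, Finset.sum_add_distrib, Finset.sum_sub_distrib] at e3
  unfold DfP DfEB
  rw [← e1]
  simp only [smul_sub, Finset.sum_sub_distrib] at e3 ⊢
  simp only [Finset.smul_sum, Finset.sum_add_distrib, smul_add] at e3 ⊢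
  refine sub_eq_zero.1 (Eq.trans ?_ e3)
  abel


theorem s1_PPc (hD : RelOpen D)
    (h₁ : M4 cp j0 W₁ D) (h₂ : M4 cp j0 W₂ D) (hz : z ∈ D) (a : Fin n) :
    Sim1 D z (om2 W₁ W₂) (DfP W₁.g (W₁.c a)) (DfP W₂.g (W₂.c a)) :=
  Sim1.congr hD hz (s2_Rc hD h₁ h₂ hz a).s (PP_c_eq hD h₁ a).symm (PP_c_eq hD h₂ a).symm

theorem s1_PPp (hD : RelOpen D)
    (h₁ : M4 cp j0 W₁ D) (h₂ : M4 cp j0 W₂ D) (hz : z ∈ D) (a m : Fin n) :
    Sim1 D z (om2 W₁ W₂) (DfP W₁.g (pd m (W₁.c a))) (DfP W₂.g (pd m (W₂.c a))) := by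
  have key : Sim1 D z (om2 W₁ W₂)
      (fun x => pd m (DfRc W₁ j0 a) x -
        ∑ j, ∑ k, pd m (fun y => (W₁.g y)⁻¹ j k) x • pd j (pd k (W₁.c a)) x)
      (fun x => pd m (DfRc W₂ j0 a) x -
        ∑ j, ∑ k, pd m (fun y => (W₂.g y)⁻¹ j k) x • pd j (pd k (W₂.c a)) x) :=
    Sim1.sub hD hz ((s2_Rc hD h₁ h₂ hz a).d m) (Sim1.sum hD hz _ fun j _ =>
      Sim1.sum hD hz _ fun k _ =>
      Sim1.smul hD hz ((s2_gi hD h₁ h₂ hz j k).d m) ((s2_p hD h₁ h₂ hz a k).d j))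
  refine Sim1.congr hD hz key ?_ ?_
  · intro x hx
    rw [pd_PP hD h₁ (c_smooth h₁ a) hx m, hD.pd_congr (PP_c_eq hD h₁ a) hx m]
  · intro x hx
    rw [pd_PP hD h₂ (c_smooth h₂ a) hx m, hD.pd_congr (PP_c_eq hD h₂ a) hx m]

theorem s1_PPh (hD : RelOpen D)
    (h₁ : M4 cp j0 W₁ D) (h₂ : M4 cp j0 W₂ D) (hz : z ∈ D) :
    Sim1 D z (om2 W₁ W₂) (DfP W₁.g W₁.h) (DfP W₂.g W₂.h) := by
  have hk : ∀ k, Sim2 D z (om2 W₁ W₂)
      (fun x => ContinuousLinearMap.adjoint (W₁.B k x) * W₁.h x + W₁.h x * W₁.B k x)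
      (fun x => ContinuousLinearMap.adjoint (W₂.B k x) * W₂.h x + W₂.h x * W₂.B k x) := fun k =>
    Sim2.add hD hz (Sim2.mul hD hz (Sim2.clm hD hz adjRE (s2_B hD h₁ h₂ hz k))
      (s2_h hD h₁ h₂ hz)) (Sim2.mul hD hz (s2_h hD h₁ h₂ hz) (s2_B hD h₁ h₂ hz k))
  have key := Sim1.sum hD hz (w := om2 W₁ W₂) Finset.univ (F₁ := fun j x => ∑ k, (W₁.g x)⁻¹ j k •
      pd j (fun x => ContinuousLinearMap.adjoint (W₁.B k x) * W₁.h x + W₁.h x * W₁.B k x) x)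
      (F₂ := fun j x => ∑ k, (W₂.g x)⁻¹ j k •
      pd j (fun x => ContinuousLinearMap.adjoint (W₂.B k x) * W₂.h x + W₂.h x * W₂.B k x) x)
      (fun j _ => Sim1.sum hD hz _ fun k _ =>
    Sim1.smul hD hz (s2_gi hD h₁ h₂ hz j k).s ((hk k).d j))
  refine Sim1.congr hD hz key ?_ ?_
  · intro x hx
    refine Finset.sum_congr rfl fun j _ => Finset.sum_congr rfl fun k _ => ?_
    rw [hD.pd_congr (fun y hy => h₁.ok.compat y hy k) hx j]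
  · intro x hx
    refine Finset.sum_congr rfl fun j _ => Finset.sum_congr rfl fun k _ => ?_
    rw [hD.pd_congr (fun y hy => h₂.ok.compat y hy k) hx j]

theorem s1_cur (hD : RelOpen D)
    (h₁ : M4 cp j0 W₁ D) (h₂ : M4 cp j0 W₂ D) (hz : z ∈ D) (j k : Fin n) :
    Sim1 D z (om2 W₁ W₂) (cur W₁.B j k) (cur W₂.B j k) :=
  Sim1.add hD hz (Sim1.sub hD hz ((s2_B hD h₁ h₂ hz k).d j) ((s2_B hD h₁ h₂ hz j).d k))
    (Sim1.sub hD hz (Sim1.mul hD hz (s2_B hD h₁ h₂ hz j).s (s2_B hD h₁ h₂ hz k).s)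
      (Sim1.mul hD hz (s2_B hD h₁ h₂ hz k).s (s2_B hD h₁ h₂ hz j).s))

theorem s1_chr (hD : RelOpen D)
    (h₁ : M4 cp j0 W₁ D) (h₂ : M4 cp j0 W₂ D) (hz : z ∈ D) (k i j : Fin n) :
    Sim1 D z (om2 W₁ W₂) (chr W₁.g k i j) (chr W₂.g k i j) :=
  Sim1.mul hD hz (Sim1.const _) (Sim1.sum hD hz _ fun l _ =>
    Sim1.mul hD hz (s2_gi hD h₁ h₂ hz k l).s
    (Sim1.sub hD hz (Sim1.add hD hz ((s2_g hD h₁ h₂ hz l j).d i) ((s2_g hD h₁ h₂ hz l i).d j))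
      ((s2_g hD h₁ h₂ hz i j).d l)))

theorem s1_EB (hD : RelOpen D)
    (h₁ : M4 cp j0 W₁ D) (h₂ : M4 cp j0 W₂ D) (hz : z ∈ D) (k : Fin n) :
    Sim1 D z (om2 W₁ W₂) (DfEB W₁ j0 k) (DfEB W₂ j0 k) := by
  have hB := fun i => s2_B hD h₁ h₂ hz i
  have hg := fun i j => s2_gi hD h₁ h₂ hz i j
  have hc := fun i j => s1_cur hD h₁ h₂ hz i j
  refine Sim1.sub hD hz (Sim1.add hD hz (Sim1.sub hD hz (Sim1.sub hD hz
    ((s2_RB hD h₁ h₂ hz).d k) ?_) ?_) ?_) ?_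
  · exact Sim1.sum hD hz _ fun i _ => Sim1.sum hD hz _ fun j _ =>
      Sim1.smul hD hz ((hg i j).d k) ((hB j).d i)
  · exact Sim1.sum hD hz _ fun i _ => Sim1.sum hD hz _ fun j _ => Sim1.smul hD hz (hg i j).s
      ((Sim2.sub hD hz (Sim2.mul hD hz (hB j) (hB k)) (Sim2.mul hD hz (hB k) (hB j))).d i)
  · exact Sim1.sum hD hz _ fun i _ => Sim1.sum hD hz _ fun j _ => Sim1.smul hD hz (hg i j).s
      (Sim1.sum hD hz _ fun l _ => Sim1.add hD hz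
        (Sim1.smul hD hz (s1_chr hD h₁ h₂ hz l i j) (hc l k))
        (Sim1.smul hD hz (s1_chr hD h₁ h₂ hz l i k) (hc j l)))
  · exact Sim1.sum hD hz _ fun i _ => Sim1.sum hD hz _ fun j _ => Sim1.smul hD hz (hg i j).s
      (Sim1.sub hD hz (Sim1.mul hD hz (hB i).s (hc j k)) (Sim1.mul hD hz (hc j k) (hB i).s))

theorem s1_PPB (hD : RelOpen D)
    (h₁ : M4 cp j0 W₁ D) (h₂ : M4 cp j0 W₂ D) (hz : z ∈ D) (k : Fin n) :
    Sim1 D z (om2 W₁ W₂) (DfP W₁.g (W₁.B k)) (DfP W₂.g (W₂.B k)) :=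
  Sim1.congr hD hz (s1_EB hD h₁ h₂ hz k) (fun _ hx => (PP_B_eq hD h₁ k hx).symm)
    (fun _ hx => (PP_B_eq hD h₂ k hx).symm)

theorem lchr_eq (hD : RelOpen D) (h₁ : M4 cp j0 W₁ D) (j : Fin n) :
    EqOn (lchr W₁.g j) (DfLH W₁ j0 j) D := by
  intro x hx
  unfold lchr DfLH
  exact Finset.sum_congr rfl fun l _ => by rw [model_harm hD h₁ hx l]

theorem s2_LH (hD : RelOpen D)
    (h₁ : M4 cp j0 W₁ D) (h₂ : M4 cp j0 W₂ D) (hz : z ∈ D) (j : Fin n) :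
    Sim2 D z (om2 W₁ W₂) (DfLH W₁ j0 j) (DfLH W₂ j0 j) :=
  Sim2.sum hD hz _ fun l _ => Sim2.mul hD hz (s2_g hD h₁ h₂ hz j l) (s2_H hD h₁ h₂ hz l)


theorem s1_LO (hD : RelOpen D)
    (h₁ : M4 cp j0 W₁ D) (h₂ : M4 cp j0 W₂ D) (hz : z ∈ D) (j k : Fin n) :
    Sim1 D z (om2 W₁ W₂) (DfLO W₁.g j k) (DfLO W₂.g j k) := by
  have hg := fun i j m => (s2_g hD h₁ h₂ hz i j).d m
  have hi := fun i j m => (s2_gi hD h₁ h₂ hz i j).d m
  have hc := fun a b c => s1_chr hD h₁ h₂ hz a b c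
  have hh : Sim1 D z (om2 W₁ W₂) (fun _ => (1 / 2 : ℝ)) (fun _ => (1 / 2 : ℝ)) := Sim1.const _
  refine Sim1.add hD hz (Sim1.sub hD hz (Sim1.sub hD hz (Sim1.sub hD hz ?_ ?_) ?_) ?_) ?_
  · exact Sim1.sum hD hz _ fun i _ => Sim1.sum hD hz _ fun l _ =>
      Sim1.mul hD hz (Sim1.mul hD hz hh (hi i l i))
      (Sim1.sub hD hz (Sim1.add hD hz (hg l k j) (hg l j k)) (hg j k l))
  · exact Sim1.sum hD hz _ fun i _ => Sim1.sum hD hz _ fun l _ =>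
      Sim1.mul hD hz (Sim1.mul hD hz hh (hi i l j))
      (Sim1.sub hD hz (Sim1.add hD hz (hg l k i) (hg l i k)) (hg i k l))
  · exact Sim1.sum hD hz _ fun a _ => Sim1.sum hD hz _ fun b _ =>
      Sim1.mul hD hz (Sim1.mul hD hz hh (hi a b k))
      (Sim1.sub hD hz (hg j b a) (Sim1.mul hD hz hh (hg a b j)))
  · exact Sim1.sum hD hz _ fun a _ => Sim1.sum hD hz _ fun b _ =>
      Sim1.mul hD hz (Sim1.mul hD hz hh (hi a b j))
      (Sim1.sub hD hz (hg k b a) (Sim1.mul hD hz hh (hg a b k)))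
  · exact Sim1.sum hD hz _ fun i _ => Sim1.sum hD hz _ fun l _ =>
      Sim1.sub hD hz (Sim1.mul hD hz (hc i i l) (hc l j k))
      (Sim1.mul hD hz (hc i j l) (hc l i k))

/-- the right hand side of the equation of `g_{jk}` -/
def DfEg (W : Model n N) (j0 : Fin N) (j k : Fin n) (x : E n) : ℝ :=
  (pd k (DfLH W j0 j) x + pd j (DfLH W j0 k) x) + 2 * DfLO W.g j k x - 2 * ric W.g j k x

theorem PP_g_eq (hD : RelOpen D) (h₁ : M4 cp j0 W₁ D) (j k : Fin n) {x : E n} (hx : x ∈ D) :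
    DfP W₁.g (fun y => W₁.g y j k) x = DfEg W₁ j0 j k x := by
  have e1 := ric_harm hD h₁.ok.g_smooth h₁.ok.g_pos hx j k
  rw [hD.pd_congr (lchr_eq hD h₁ j) hx k, hD.pd_congr (lchr_eq hD h₁ k) hx j] at e1
  unfold DfP DfEg DfLO
  simp only [smul_eq_mul]
  rw [e1]
  ring


theorem s1_PPg (hD : RelOpen D)
    (h₁ : M4 cp j0 W₁ D) (h₂ : M4 cp j0 W₂ D) (hz : z ∈ D) (j k : Fin n) :
    Sim1 D z (om2 W₁ W₂) (DfP W₁.g (fun y => W₁.g y j k)) (DfP W₂.g (fun y => W₂.g y j k)) := by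
  have h2 : Sim1 D z (om2 W₁ W₂) (fun _ => (2 : ℝ)) (fun _ => (2 : ℝ)) := Sim1.const _
  have key : Sim1 D z (om2 W₁ W₂) (DfEg W₁ j0 j k) (DfEg W₂ j0 j k) :=
    Sim1.sub hD hz (Sim1.add hD hz (Sim1.add hD hz ((s2_LH hD h₁ h₂ hz j).d k)
      ((s2_LH hD h₁ h₂ hz k).d j)) (Sim1.mul hD hz h2 (s1_LO hD h₁ h₂ hz j k)))
      (Sim1.mul hD hz h2 (s1_ric hD h₁ h₂ hz j k))
  exact Sim1.congr hD hz key (fun _ hx => (PP_g_eq hD h₁ j k hx).symm)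
    (fun _ hx => (PP_g_eq hD h₂ j k hx).symm)

end Comp

end Vale.Agent.P088.EYM.H

end
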