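import Vale.Agent.P088.H4.H332B

/-!
# P088, fourth order class: the elliptic inequality for two models
(adapted from `Vale.Agent.P088.H820.G2`)
-/

open MeasureTheory Set Filter Topology Asymptotics

open scoped ContDiff

noncomputable section

namespace Vale.Agent.P088.EYM.H

set_option linter.unusedSectionVars false

variable {n N : ℕ} [NeZero n]
variable {V V' : Type*} [NormedAddCommGroup V] [NormedSpace ℝ V] [NormedAddCommGroup V']
  [NormedSpace ℝ V']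

/-- The arguments of the right hand side. -/
abbrev Arg (n N : ℕ) : Type :=
  (Fin n → Fin n → ℝ) × (Fin n → Fin n → Fin n → Fin n → ℝ) × (Fin n → Fin n → Fin n → ℝ) ×
    (Fin n → Fin n → EndF N) × (Fin n → Fin n → Fin n → EndF N)

/-- The right hand side as a function on the space of the arguments. -/
def fA (Φ : Cpl4 n N) (a : Arg n N) : Fin n → Fin n → ℝ :=
  Φ.f (Matrix.of a.1) a.2.1 a.2.2.1 a.2.2.2.1 a.2.2.2.2

theorem nrm2 (a : Fin n → Fin n → V) (i j : Fin n) : ‖a i j‖ ≤ ‖a‖ :=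
  (norm_le_pi_norm (a i) j).trans (norm_le_pi_norm a i)

theorem nrm3 (a : Fin n → Fin n → Fin n → V) (i j k : Fin n) : ‖a i j k‖ ≤ ‖a‖ :=
  (nrm2 (a i) j k).trans (norm_le_pi_norm a i)

theorem nrm4 (a : Fin n → Fin n → Fin n → Fin n → V) (i j k l : Fin n) : ‖a i j k l‖ ≤ ‖a‖ :=
  (nrm3 (a i) j k l).trans (norm_le_pi_norm a i)

theorem fA_lip (Φ : Cpl4 n N) (a : Arg n N) (ha : (Matrix.of a.1).PosDef) :
    ∃ C δ : ℝ, 0 < δ ∧ ∀ b c : Arg n N, (Matrix.of b.1).PosDef → (Matrix.of c.1).PosDef →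
      ‖b - a‖ < δ → ‖c - a‖ < δ → ∀ j k, |fA Φ b j k - fA Φ c j k| ≤ C * ‖b - c‖ := by
  obtain ⟨C, δ, hδ, h⟩ := Φ.lip (Matrix.of a.1) a.2.1 a.2.2.1 a.2.2.2.1 a.2.2.2.2 ha
  have n1 : ∀ (u v : Arg n N) i j, |u.1 i j - v.1 i j| ≤ ‖u - v‖ := fun u v i j =>
    (nrm2 (u.1 - v.1) i j).trans (norm_fst_le (u - v))
  have m2 : ∀ (u v : Arg n N), ‖u.2 - v.2‖ ≤ ‖u - v‖ := fun u v => norm_snd_le (u - v)
  have n2 : ∀ (u v : Arg n N) i j b c, |u.2.1 i j b c - v.2.1 i j b c| ≤ ‖u - v‖ :=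
    fun u v i j b c => ((nrm4 (u.2.1 - v.2.1) i j b c).trans (norm_fst_le (u.2 - v.2))).trans
      (m2 u v)
  have m3 : ∀ (u v : Arg n N), ‖u.2.2 - v.2.2‖ ≤ ‖u - v‖ := fun u v =>
    (norm_snd_le (u.2 - v.2)).trans (m2 u v)
  have n3 : ∀ (u v : Arg n N) i j b, |u.2.2.1 i j b - v.2.2.1 i j b| ≤ ‖u - v‖ :=
    fun u v i j b => ((nrm3 (u.2.2.1 - v.2.2.1) i j b).trans (norm_fst_le (u.2.2 - v.2.2))).trans
      (m3 u v)
  have m4 : ∀ (u v : Arg n N), ‖u.2.2.2 - v.2.2.2‖ ≤ ‖u - v‖ := fun u v =>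
    (norm_snd_le (u.2.2 - v.2.2)).trans (m3 u v)
  have n4 : ∀ (u v : Arg n N) i j, ‖u.2.2.2.1 i j - v.2.2.2.1 i j‖ ≤ ‖u - v‖ :=
    fun u v i j => ((nrm2 (u.2.2.2.1 - v.2.2.2.1) i j).trans
      (norm_fst_le (u.2.2.2 - v.2.2.2))).trans (m4 u v)
  have n5 : ∀ (u v : Arg n N) a i j, ‖u.2.2.2.2 a i j - v.2.2.2.2 a i j‖ ≤ ‖u - v‖ :=
    fun u v a i j => ((nrm3 (u.2.2.2.2 - v.2.2.2.2) a i j).trans
      (norm_snd_le (u.2.2.2 - v.2.2.2))).trans (m4 u v)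
  refine ⟨C, δ, hδ, fun b c hb hc hba hca j k => ?_⟩
  exact h (Matrix.of b.1) (Matrix.of c.1) b.2.1 c.2.1 b.2.2.1 c.2.2.1 b.2.2.2.1 c.2.2.2.1
    b.2.2.2.2 c.2.2.2.2 hb hc
    (fun i j => (n1 b a i j).trans_lt hba) (fun i j => (n1 c a i j).trans_lt hca)
    (fun i j e f => (n2 b a i j e f).trans_lt hba) (fun i j e f => (n2 c a i j e f).trans_lt hca)
    (fun i j e => (n3 b a i j e).trans_lt hba) (fun i j e => (n3 c a i j e).trans_lt hca)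
    (fun i j => (n4 b a i j).trans_lt hba) (fun i j => (n4 c a i j).trans_lt hca)
    (fun e i j => (n5 b a e i j).trans_lt hba) (fun e i j => (n5 c a e i j).trans_lt hca)
    ‖b - c‖ (fun i j => n1 b c i j) (fun i j e f => n2 b c i j e f) (fun i j e => n3 b c i j e)
    (fun i j => n4 b c i j) (fun e i j => n5 b c e i j) j k

/-- The arguments of the local data at `x` in the frame `S`. -/
def arg (L : LD n N) (S : EndF N) (x : E n) : Arg n N :=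
  (fun i j => L.g x i j, fun i j b c => rm L.g i j b c x, fun a j k => dric L.g a j k x,
    fun i j => G.curS L S x i j, fun a i j => nabS L S x a i j)

theorem isBigO_arg {l : Filter (E n)} {w : E n → ℝ} {A : E n → Arg n N}
    (h1 : ∀ i j, (fun x => (A x).1 i j) =O[l] w)
    (h2 : ∀ i j b c, (fun x => (A x).2.1 i j b c) =O[l] w)
    (h3 : ∀ a j k, (fun x => (A x).2.2.1 a j k) =O[l] w)
    (h4 : ∀ i j, (fun x => (A x).2.2.2.1 i j) =O[l] w)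
    (h5 : ∀ a i j, (fun x => (A x).2.2.2.2 a i j) =O[l] w) : A =O[l] w := by
  have k1 : (fun x => (A x).1) =O[l] w := isBigO_pi.2 fun i => isBigO_pi.2 fun j => h1 i j
  have k2 : (fun x => (A x).2.1) =O[l] w := isBigO_pi.2 fun i => isBigO_pi.2 fun j =>
    isBigO_pi.2 fun b => isBigO_pi.2 fun c => h2 i j b c
  have k3 : (fun x => (A x).2.2.1) =O[l] w := isBigO_pi.2 fun i => isBigO_pi.2 fun j =>
    isBigO_pi.2 fun b => h3 i j b
  have k4 : (fun x => (A x).2.2.2.1) =O[l] w := isBigO_pi.2 fun i => isBigO_pi.2 fun j => h4 i j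
  have k5 : (fun x => (A x).2.2.2.2) =O[l] w := isBigO_pi.2 fun i => isBigO_pi.2 fun j =>
    isBigO_pi.2 fun b => h5 i j b
  exact k1.prod_left (k2.prod_left (k3.prod_left (k4.prod_left k5)))

theorem tendsto_arg {l : Filter (E n)} {A : E n → Arg n N} {a : Arg n N}
    (h1 : ∀ i j, Tendsto (fun x => (A x).1 i j) l (𝓝 (a.1 i j)))
    (h2 : ∀ i j b c, Tendsto (fun x => (A x).2.1 i j b c) l (𝓝 (a.2.1 i j b c)))
    (h3 : ∀ i j b, Tendsto (fun x => (A x).2.2.1 i j b) l (𝓝 (a.2.2.1 i j b)))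
    (h4 : ∀ i j, Tendsto (fun x => (A x).2.2.2.1 i j) l (𝓝 (a.2.2.2.1 i j)))
    (h5 : ∀ i j b, Tendsto (fun x => (A x).2.2.2.2 i j b) l (𝓝 (a.2.2.2.2 i j b))) :
    Tendsto A l (𝓝 a) := by
  have k1 : Tendsto (fun x => (A x).1) l (𝓝 a.1) :=
    tendsto_pi_nhds.2 fun i => tendsto_pi_nhds.2 fun j => h1 i j
  have k2 : Tendsto (fun x => (A x).2.1) l (𝓝 a.2.1) :=
    tendsto_pi_nhds.2 fun i => tendsto_pi_nhds.2 fun j => tendsto_pi_nhds.2 fun b =>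
      tendsto_pi_nhds.2 fun c => h2 i j b c
  have k3 : Tendsto (fun x => (A x).2.2.1) l (𝓝 a.2.2.1) :=
    tendsto_pi_nhds.2 fun i => tendsto_pi_nhds.2 fun j => tendsto_pi_nhds.2 fun b => h3 i j b
  have k4 : Tendsto (fun x => (A x).2.2.2.1) l (𝓝 a.2.2.2.1) :=
    tendsto_pi_nhds.2 fun i => tendsto_pi_nhds.2 fun j => h4 i j
  have k5 : Tendsto (fun x => (A x).2.2.2.2) l (𝓝 a.2.2.2.2) :=
    tendsto_pi_nhds.2 fun i => tendsto_pi_nhds.2 fun j => tendsto_pi_nhds.2 fun b => h5 i j b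
  exact k1.prodMk_nhds (k2.prodMk_nhds (k3.prodMk_nhds (k4.prodMk_nhds k5)))

/-! ### smoothness -/

theorem rm_smooth {D : Set (E n)} (hD : RelOpen D) {g : E n → Matrix (Fin n) (Fin n) ℝ}
    (hg : SmM g D) (hp : ∀ x ∈ D, (g x).PosDef) (i j b c : Fin n) :
    ContDiffOn ℝ ∞ (rm g i j b c) D := by
  have hc := fun a b c => Ric_chr_smooth hD hg hp a b c
  unfold rm
  exact ContDiffOn.sum fun l _ => (hg b l).mul (((hD.pd_smooth (hc _ _ _) _).sub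
    (hD.pd_smooth (hc _ _ _) _)).add
    (ContDiffOn.sum fun m _ => ((hc _ _ _).mul (hc _ _ _)).sub ((hc _ _ _).mul (hc _ _ _))))

theorem dric_smooth {D : Set (E n)} (hD : RelOpen D) {g : E n → Matrix (Fin n) (Fin n) ℝ}
    (hg : SmM g D) (hp : ∀ x ∈ D, (g x).PosDef) (a j k : Fin n) :
    ContDiffOn ℝ ∞ (dric g a j k) D := by
  have hc := fun a b c => Ric_chr_smooth hD hg hp a b c
  have hr := fun j k => ric_smooth hD hg hp j k
  unfold dric nab2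
  exact (hD.pd_smooth (hr j k) a).sub (ContDiffOn.sum fun l _ =>
    ((hc _ _ _).mul (hr _ _)).add ((hc _ _ _).mul (hr _ _)))

theorem lapRic_smooth {D : Set (E n)} (hD : RelOpen D) {g : E n → Matrix (Fin n) (Fin n) ℝ}
    (hg : SmM g D) (hp : ∀ x ∈ D, (g x).PosDef) (j k : Fin n) :
    ContDiffOn ℝ ∞ (lapRic g j k) D := by
  have hc := fun a b c => Ric_chr_smooth hD hg hp a b c
  have hd := fun a j k => dric_smooth hD hg hp a j k
  have hi : ∀ j k, ContDiffOn ℝ ∞ (fun y => (g y)⁻¹ j k) D := fun j k => hD.smM_inv hg hp j k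
  unfold lapRic nab3
  exact ContDiffOn.sum fun a _ => ContDiffOn.sum fun b _ => (hi a b).mul
    ((hD.pd_smooth (hd b j k) a).sub (ContDiffOn.sum fun l _ =>
      (((hc _ _ _).mul (hd _ _ _)).add ((hc _ _ _).mul (hd _ _ _))).add
        ((hc _ _ _).mul (hd _ _ _))))

theorem nabF_smooth {D : Set (E n)} (hD : RelOpen D) {L : LD n N} (hL : L.Ok D) (a i j : Fin n) :
    ContDiffOn ℝ ∞ (nabF L a i j) D := by
  have hc := fun a b c => Ric_chr_smooth hD hL.g_smooth hL.g_pos a b c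
  have hF := fun i j => brEq_cur_smooth hD hL.B_smooth i j
  unfold nabF
  exact ((hD.pd_smooth (hF i j) a).add ((smooth_mul (hL.B_smooth a) (hF i j)).sub
    (smooth_mul (hF i j) (hL.B_smooth a)))).sub (ContDiffOn.sum fun l _ =>
      ((hc _ _ _).smul (hF _ _)).add ((hc _ _ _).smul (hF _ _)))

section Comp

variable {cp : Cpl4 n N} {j0 : Fin N} {W₁ W₂ : Model n N} {D : Set (E n)} {z : E n}

/-- frames close to a given one, with the difference controlled -/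
theorem frames (hD : RelOpen D)
    (h₁ : M4 cp j0 W₁ D) (h₂ : M4 cp j0 W₂ D) (hz : z ∈ D) (heq : W₁.h z = W₂.h z) :
    ∃ (S₁ S₂ : E n → EndF N) (S₀ : EndF N), IsUnit S₀ ∧
      (∀ x ∈ D, IsUnit (S₁ x) ∧ ContinuousLinearMap.adjoint (S₁ x) * S₁ x = W₁.h x ∧
        IsUnit (S₂ x) ∧ ContinuousLinearMap.adjoint (S₂ x) * S₂ x = W₂.h x) ∧
      Tendsto S₁ (𝓝[Hs n] z) (𝓝 S₀) ∧ Tendsto S₂ (𝓝[Hs n] z) (𝓝 S₀) ∧
      (fun x => S₁ x - S₂ x) =O[𝓝[Hs n] z] om2 W₁ W₂ := by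
  obtain ⟨S₀, hS₀, hS₀h, -⟩ := G.sq (h₁.ok.h_adj z hz) (h₁.ok.h_pos z hz)
  have e1 : ∀ x, ∃ S : EndF N, x ∈ D → IsUnit S ∧ ContinuousLinearMap.adjoint S * S = W₁.h x ∧
      ‖S - S₀‖ ≤ ‖Ring.inverse S₀‖ ^ 2 * ‖S₀‖ * ‖W₁.h x - W₁.h z‖ := by
    intro x
    by_cases hx : x ∈ D
    · obtain ⟨S, a, b, c⟩ := G.sqrel hS₀ (h₁.ok.h_adj x hx) (h₁.ok.h_pos x hx)
      rw [hS₀h] at c
      exact ⟨S, fun _ => ⟨a, b, c⟩⟩
    · exact ⟨0, fun h => absurd h hx⟩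
  choose S₁ hS₁ using e1
  have e2 : ∀ x, ∃ S : EndF N, x ∈ D → IsUnit S ∧ ContinuousLinearMap.adjoint S * S = W₂.h x ∧
      ‖S - S₁ x‖ ≤ ‖Ring.inverse (S₁ x)‖ ^ 2 * ‖S₁ x‖ * ‖W₂.h x - W₁.h x‖ := by
    intro x
    by_cases hx : x ∈ D
    · obtain ⟨S, a, b, c⟩ := G.sqrel (hS₁ x hx).1 (h₂.ok.h_adj x hx) (h₂.ok.h_pos x hx)
      rw [(hS₁ x hx).2.1] at c
      exact ⟨S, fun _ => ⟨a, b, c⟩⟩
    · exact ⟨0, fun h => absurd h hx⟩
  choose S₂ hS₂ using e2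
  have c1 : Tendsto (fun x => W₁.h x) (𝓝[Hs n] z) (𝓝 (W₁.h z)) :=
    (hD.contDiffWithinAt hz h₁.ok.h_smooth).continuousWithinAt.tendsto
  have c2 : Tendsto (fun x => W₂.h x) (𝓝[Hs n] z) (𝓝 (W₁.h z)) := by
    rw [heq]
    exact (hD.contDiffWithinAt hz h₂.ok.h_smooth).continuousWithinAt.tendsto
  have t1 : Tendsto S₁ (𝓝[Hs n] z) (𝓝 S₀) := by
    rw [tendsto_iff_norm_sub_tendsto_zero]
    have a1 : Tendsto (fun x => ‖Ring.inverse S₀‖ ^ 2 * ‖S₀‖ * ‖W₁.h x - W₁.h z‖)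
        (𝓝[Hs n] z) (𝓝 0) := by
      have := ((tendsto_iff_norm_sub_tendsto_zero.1 c1).const_mul (‖Ring.inverse S₀‖ ^ 2 * ‖S₀‖))
      simpa using this
    refine squeeze_zero' (Eventually.of_forall fun x => norm_nonneg _) ?_ a1
    filter_upwards [hD.mem_nhds hz] with x hx using (hS₁ x hx).2.2
  have t1i : Tendsto (fun x => Ring.inverse (S₁ x)) (𝓝[Hs n] z) (𝓝 (Ring.inverse S₀)) := by
    obtain ⟨u, hu⟩ := hS₀
    have := (NormedRing.inverse_continuousAt u)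
    rw [hu] at this
    exact this.tendsto.comp t1
  have t2' : Tendsto (fun x => ‖Ring.inverse (S₁ x)‖ ^ 2 * ‖S₁ x‖ * ‖W₂.h x - W₁.h x‖)
      (𝓝[Hs n] z) (𝓝 0) := by
    have := ((t1i.norm.pow 2).mul t1.norm).mul (c2.sub c1).norm
    simpa using this
  have t2d : Tendsto (fun x => S₂ x - S₁ x) (𝓝[Hs n] z) (𝓝 0) := by
    rw [tendsto_zero_iff_norm_tendsto_zero]
    refine squeeze_zero' (Eventually.of_forall fun x => norm_nonneg _) ?_ t2'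
    filter_upwards [hD.mem_nhds hz] with x hx using (hS₂ x hx).2.2
  have t2 : Tendsto S₂ (𝓝[Hs n] z) (𝓝 S₀) := by
    have := t2d.add t1
    simpa using this
  refine ⟨S₁, S₂, S₀, hS₀, fun x hx => ⟨(hS₁ x hx).1, (hS₁ x hx).2.1, (hS₂ x hx).1,
    (hS₂ x hx).2.1⟩, t1, t2, ?_⟩
  have b1 : (fun x => ‖Ring.inverse (S₁ x)‖ ^ 2 * ‖S₁ x‖) =O[𝓝[Hs n] z] (fun _ => (1 : ℝ)) :=
    ((t1i.norm.pow 2).mul t1.norm).isBigO_one ℝ
  have b2 : (fun x => ‖W₂.h x - W₁.h x‖) =O[𝓝[Hs n] z] om2 W₁ W₂ := by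
    have := (s2_h hD h₁ h₂ hz).s.sim.d
    refine IsBigO.norm_left ?_
    exact (IsBigO.neg_left this).congr_left fun x => by simp
  have b3 : (fun x => ‖Ring.inverse (S₁ x)‖ ^ 2 * ‖S₁ x‖ * ‖W₂.h x - W₁.h x‖) =O[𝓝[Hs n] z]
      om2 W₁ W₂ := by
    have := b1.mul b2
    simpa only [one_mul] using this
  have b4 : (fun x => S₁ x - S₂ x) =O[𝓝[Hs n] z]
      (fun x => ‖Ring.inverse (S₁ x)‖ ^ 2 * ‖S₁ x‖ * ‖W₂.h x - W₁.h x‖) := by
    refine IsBigO.of_bound 1 ?_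
    filter_upwards [hD.mem_nhds hz] with x hx
    rw [one_mul, norm_sub_rev]
    exact ((hS₂ x hx).2.2).trans (le_abs_self _)
  exact b4.trans b3


theorem om2_cont (hD : RelOpen D)
    (h₁ : M4 cp j0 W₁ D) (h₂ : M4 cp j0 W₂ D) (hz : z ∈ D) :
    Tendsto (om2 W₁ W₂) (𝓝[Hs n] z) (𝓝 (om2 W₁ W₂ z)) := by
  have hs := diffUv_smooth hD h₁ h₂
  have a1 : Tendsto (fun y => Uv W₁ y - Uv W₂ y) (𝓝[Hs n] z) (𝓝 (Uv W₁ z - Uv W₂ z)) :=
    (hD.contDiffWithinAt hz hs).continuousWithinAt.tendsto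
  have a2 : ∀ j, Tendsto (pd j (fun y => Uv W₁ y - Uv W₂ y)) (𝓝[Hs n] z)
      (𝓝 (pd j (fun y => Uv W₁ y - Uv W₂ y) z)) := fun j =>
    (hD.contDiffWithinAt hz (hD.pd_smooth hs j)).continuousWithinAt.tendsto
  exact a1.norm.add (tendsto_finsetSum _ fun j _ => (a2 j).norm)

theorem s_rm (hD : RelOpen D)
    (h₁ : M4 cp j0 W₁ D) (h₂ : M4 cp j0 W₂ D) (hz : z ∈ D) (i j b c : Fin n) :
    Sim (𝓝[Hs n] z) (om2 W₁ W₂) (rm W₁.g i j b c) (rm W₂.g i j b c) := by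
  have hc := fun a b c => s1_chr hD h₁ h₂ hz a b c
  exact Sim.sum _ fun l _ => Sim.mul (s2_g hD h₁ h₂ hz b l).s.sim
    (Sim.add (Sim.sub ((hc _ _ _).dsim _) ((hc _ _ _).dsim _)) (Sim.sum _ fun m _ =>
      Sim.sub (Sim.mul (hc _ _ _).sim (hc _ _ _).sim) (Sim.mul (hc _ _ _).sim (hc _ _ _).sim)))

theorem s_dric (hD : RelOpen D)
    (h₁ : M4 cp j0 W₁ D) (h₂ : M4 cp j0 W₂ D) (hz : z ∈ D) (a j k : Fin n) :
    Sim (𝓝[Hs n] z) (om2 W₁ W₂) (dric W₁.g a j k) (dric W₂.g a j k) := by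
  have hc := fun a b c => (s1_chr hD h₁ h₂ hz a b c).sim
  have hr := fun j k => s1_ric hD h₁ h₂ hz j k
  exact Sim.sub ((hr j k).dsim a) (Sim.sum _ fun l _ =>
    Sim.add (Sim.mul (hc _ _ _) (hr _ _).sim) (Sim.mul (hc _ _ _) (hr _ _).sim))

theorem s_nabF (hD : RelOpen D)
    (h₁ : M4 cp j0 W₁ D) (h₂ : M4 cp j0 W₂ D) (hz : z ∈ D) (a i j : Fin n) :
    Sim (𝓝[Hs n] z) (om2 W₁ W₂) (nabF W₁.toLD a i j) (nabF W₂.toLD a i j) := by
  have hc := fun a b c => (s1_chr hD h₁ h₂ hz a b c).sim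
  have hF := fun i j => s1_cur hD h₁ h₂ hz i j
  have hB := fun i => (s2_B hD h₁ h₂ hz i).s.sim
  exact Sim.sub (Sim.add ((hF i j).dsim a) (Sim.sub (Sim.mul (hB a) (hF i j).sim)
    (Sim.mul (hF i j).sim (hB a)))) (Sim.sum _ fun l _ =>
    Sim.add (Sim.smul (hc _ _ _) (hF _ _).sim) (Sim.smul (hc _ _ _) (hF _ _).sim))

theorem s_lap (hD : RelOpen D)
    (h₁ : M4 cp j0 W₁ D) (h₂ : M4 cp j0 W₂ D) (hz : z ∈ D) (j k : Fin n) :
    Sim (𝓝[Hs n] z) (om2 W₁ W₂) (lapRic W₁.g j k) (lapRic W₂.g j k) := by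
  have r₁ := lapRic_smooth hD h₁.ok.g_smooth h₁.ok.g_pos j k
  have r₂ := lapRic_smooth hD h₂.ok.g_smooth h₂.ok.g_pos j k
  refine ⟨Diff_bdd hD hz r₁, Diff_bdd hD hz r₂, ?_⟩
  have hzH : z ∈ Hs n := hD.subset hz
  by_cases hom : om2 W₁ W₂ z = 0
  swap
  · -- the weight does not vanish
    have hpos : 0 < om2 W₁ W₂ z := lt_of_le_of_ne (om2_nonneg W₁ W₂ z) (Ne.symm hom)
    have h1 : (fun x => lapRic W₁.g j k x - lapRic W₂.g j k x) =O[𝓝[Hs n] z]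
        (fun _ => (1 : ℝ)) :=
      (Diff_bdd hD hz r₁).sub (Diff_bdd hD hz r₂)
    refine h1.trans ?_
    refine IsBigO.of_bound (2 / om2 W₁ W₂ z) ?_
    have h2 := (om2_cont hD h₁ h₂ hz).eventually (lt_mem_nhds (half_lt_self hpos))
    filter_upwards [h2] with x hx
    rw [norm_one, Real.norm_of_nonneg (om2_nonneg W₁ W₂ x), div_mul_eq_mul_div, le_div_iff₀ hpos]
    linarith
  -- the models agree at `z`
  have hzero : ∀ {V : Type} [NormedAddCommGroup V] {f₁ f₂ : E n → V},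
      (fun x => f₁ x - f₂ x) =O[𝓝[Hs n] z] om2 W₁ W₂ → f₁ z = f₂ z := by
    intro V _ f₁ f₂ hf
    obtain ⟨C, hC⟩ := hf.bound
    have := hC.self_of_nhdsWithin hzH
    rw [hom, norm_zero, mul_zero] at this
    exact sub_eq_zero.1 (norm_le_zero_iff.1 this)
  have hhz : W₁.h z = W₂.h z := hzero (s2_h hD h₁ h₂ hz).s.sim.d
  obtain ⟨S₁, S₂, S₀, hS₀, hS, t1, t2, hSd⟩ := frames hD h₁ h₂ hz hhz
  have ti : ∀ {S : E n → EndF N}, Tendsto S (𝓝[Hs n] z) (𝓝 S₀) →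
      Tendsto (fun x => Ring.inverse (S x)) (𝓝[Hs n] z) (𝓝 (Ring.inverse S₀)) := by
    intro S hT
    obtain ⟨u, hu⟩ := hS₀
    have := NormedRing.inverse_continuousAt u
    rw [hu] at this
    exact this.tendsto.comp hT
  have sS : Sim (𝓝[Hs n] z) (om2 W₁ W₂) S₁ S₂ := ⟨t1.isBigO_one ℝ, t2.isBigO_one ℝ, hSd⟩
  have sI : Sim (𝓝[Hs n] z) (om2 W₁ W₂) (fun x => Ring.inverse (S₁ x))
      (fun x => Ring.inverse (S₂ x)) := by
    refine ⟨(ti t1).isBigO_one ℝ, (ti t2).isBigO_one ℝ, ?_⟩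
    have a1 : (fun x => Ring.inverse (S₁ x) * (S₁ x - S₂ x) * Ring.inverse (S₂ x))
        =O[𝓝[Hs n] z] om2 W₁ W₂ := by
      have := (((ti t1).isBigO_one ℝ).mul hSd).mul ((ti t2).isBigO_one ℝ)
      simpa only [one_mul, mul_one] using this
    refine (IsBigO.neg_left a1).congr' ?_ (EventuallyEq.refl _ _)
    filter_upwards [hD.mem_nhds hz] with x hx
    obtain ⟨u1, -, u2, -⟩ := hS x hx
    have e1 : Ring.inverse (S₁ x) * S₁ x = 1 := Ring.inverse_mul_cancel _ u1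
    have e2 : S₂ x * Ring.inverse (S₂ x) = 1 := Ring.mul_inverse_cancel _ u2
    rw [mul_sub, sub_mul, e1, one_mul, mul_assoc, e2, mul_one]
    abel
  set A₁ : E n → Arg n N := fun x => arg W₁.toLD (S₁ x) x with hA₁
  set A₂ : E n → Arg n N := fun x => arg W₂.toLD (S₂ x) x with hA₂
  have hAd : (fun x => A₁ x - A₂ x) =O[𝓝[Hs n] z] om2 W₁ W₂ :=
    isBigO_arg (fun i j => (s2_g hD h₁ h₂ hz i j).s.sim.d)
      (fun i j b c => (s_rm hD h₁ h₂ hz i j b c).d)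
      (fun a j k => (s_dric hD h₁ h₂ hz a j k).d)
      (fun i j => (Sim.mul (Sim.mul sS (s1_cur hD h₁ h₂ hz i j).sim) sI).d)
      (fun a i j => (Sim.mul (Sim.mul sS (s_nabF hD h₁ h₂ hz a i j)) sI).d)
  set a₀ : Arg n N := arg W₁.toLD S₀ z with ha₀
  have hc : ∀ {V : Type} [NormedAddCommGroup V] [NormedSpace ℝ V] {f : E n → V},
      ContDiffOn ℝ ∞ f D → Tendsto f (𝓝[Hs n] z) (𝓝 (f z)) := fun hf =>
    (hD.contDiffWithinAt hz hf).continuousWithinAt.tendsto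
  have l1 : Tendsto A₁ (𝓝[Hs n] z) (𝓝 a₀) :=
    tendsto_arg (fun i j => hc (h₁.ok.g_smooth i j))
      (fun i j b c => hc (rm_smooth hD h₁.ok.g_smooth h₁.ok.g_pos i j b c))
      (fun a j k => hc (dric_smooth hD h₁.ok.g_smooth h₁.ok.g_pos a j k))
      (fun i j => (t1.mul (hc (brEq_cur_smooth hD h₁.ok.B_smooth i j))).mul (ti t1))
      (fun a i j => (t1.mul (hc (nabF_smooth hD h₁.ok a i j))).mul (ti t1))
  have hom0 : Tendsto (om2 W₁ W₂) (𝓝[Hs n] z) (𝓝 0) := by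
    have := om2_cont hD h₁ h₂ hz
    rwa [hom] at this
  have l2 : Tendsto A₂ (𝓝[Hs n] z) (𝓝 a₀) := by
    have := l1.sub (hAd.trans_tendsto hom0)
    simpa using this
  obtain ⟨C, δ, hδ, hlip⟩ := fA_lip cp a₀ (h₁.ok.g_pos z hz)
  have near : ∀ {f : E n → Arg n N}, Tendsto f (𝓝[Hs n] z) (𝓝 a₀) →
      ∀ᶠ x in 𝓝[Hs n] z, ‖f x - a₀‖ < δ := fun hf =>
    (tendsto_iff_norm_sub_tendsto_zero.1 hf).eventually (gt_mem_nhds hδ)
  have hfin : (fun x => lapRic W₁.g j k x - lapRic W₂.g j k x) =O[𝓝[Hs n] z]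
      (fun x => A₁ x - A₂ x) := by
    refine IsBigO.of_bound C ?_
    filter_upwards [near l1, near l2, hD.mem_nhds hz] with x x1 x2 hx
    obtain ⟨u1, v1, u2, v2⟩ := hS x hx
    have e1 : lapRic W₁.g j k x = fA cp (A₁ x) j k := h₁.eqs.lap x hx (S₁ x) u1 v1 j k
    have e2 : lapRic W₂.g j k x = fA cp (A₂ x) j k := h₂.eqs.lap x hx (S₂ x) u2 v2 j k
    rw [e1, e2, Real.norm_eq_abs]
    exact hlip (A₁ x) (A₂ x) (h₁.ok.g_pos x hx) (h₂.ok.g_pos x hx) x1 x2 j k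
  exact hfin.trans hAd

/-- the lower order terms of the equation of the Ricci tensor -/
def lowR (g : E n → Matrix (Fin n) (Fin n) ℝ) (j k : Fin n) (x : E n) : ℝ :=
  ∑ a, ∑ b, (g x)⁻¹ a b * (pd a (fun y => ∑ l, (chr g l b j y * ric g l k y +
      chr g l b k y * ric g j l y)) x +
    ∑ l, (chr g l a b x * dric g l j k x + chr g l a j x * dric g b l k x +
      chr g l a k x * dric g b j l x))

theorem PP_ric_eq {D : Set (E n)} (hD : RelOpen D) {g : E n → Matrix (Fin n) (Fin n) ℝ}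
    (hg : SmM g D) (hp : ∀ x ∈ D, (g x).PosDef) (j k : Fin n) {x : E n} (hx : x ∈ D) :
    DfP g (ric g j k) x = lapRic g j k x + lowR g j k x := by
  have hc := fun a b c => Ric_chr_smooth hD hg hp a b c
  have hr := fun j k => ric_smooth hD hg hp j k
  unfold DfP lapRic lowR
  rw [← Finset.sum_add_distrib]
  refine Finset.sum_congr rfl fun a _ => ?_
  rw [← Finset.sum_add_distrib]
  refine Finset.sum_congr rfl fun b _ => ?_
  have e1 : pd a (dric g b j k) x = pd a (pd b (ric g j k)) x -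
      pd a (fun y => ∑ l, (chr g l b j y * ric g l k y + chr g l b k y * ric g j l y)) x :=
    hD.pd_sub (hD.pd_smooth (hr j k) b) (ContDiffOn.sum fun l _ =>
      ((hc _ _ _).mul (hr _ _)).add ((hc _ _ _).mul (hr _ _))) hx a
  unfold nab3
  rw [e1, smul_eq_mul]
  ring

theorem s_lowR (hD : RelOpen D)
    (h₁ : M4 cp j0 W₁ D) (h₂ : M4 cp j0 W₂ D) (hz : z ∈ D) (j k : Fin n) :
    Sim (𝓝[Hs n] z) (om2 W₁ W₂) (lowR W₁.g j k) (lowR W₂.g j k) := by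
  have hc := fun a b c => s1_chr hD h₁ h₂ hz a b c
  have hr := fun j k => s1_ric hD h₁ h₂ hz j k
  have hd := fun a j k => s_dric hD h₁ h₂ hz a j k
  exact Sim.sum _ fun a _ => Sim.sum _ fun b _ => Sim.mul (s2_gi hD h₁ h₂ hz a b).s.sim
    (Sim.add ((Sim1.sum hD hz _ fun l _ => Sim1.add hD hz (Sim1.mul hD hz (hc _ _ _) (hr _ _))
      (Sim1.mul hD hz (hc _ _ _) (hr _ _))).dsim a)
    (Sim.sum _ fun l _ => Sim.add (Sim.add (Sim.mul (hc _ _ _).sim (hd _ _ _))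
      (Sim.mul (hc _ _ _).sim (hd _ _ _))) (Sim.mul (hc _ _ _).sim (hd _ _ _))))

theorem s_PPric (hD : RelOpen D)
    (h₁ : M4 cp j0 W₁ D) (h₂ : M4 cp j0 W₂ D) (hz : z ∈ D) (j k : Fin n) :
    Sim (𝓝[Hs n] z) (om2 W₁ W₂) (DfP W₁.g (ric W₁.g j k)) (DfP W₂.g (ric W₂.g j k)) := by
  refine Sim.congr (Sim.add (s_lap hD h₁ h₂ hz j k) (s_lowR hD h₁ h₂ hz j k)) ?_ ?_
  · filter_upwards [hD.mem_nhds hz] with x hx
    exact (PP_ric_eq hD h₁.ok.g_smooth h₁.ok.g_pos j k hx).symm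
  · filter_upwards [hD.mem_nhds hz] with x hx
    exact (PP_ric_eq hD h₂.ok.g_smooth h₂.ok.g_pos j k hx).symm

/-- the equation of the first derivatives -/
theorem s_PP_pd (hD : RelOpen D)
    (h₁ : M4 cp j0 W₁ D) (h₂ : M4 cp j0 W₂ D) (hz : z ∈ D) {f₁ f₂ : E n → V}
    (hf : Sim2 D z (om2 W₁ W₂) f₁ f₂)
    (h : Sim1 D z (om2 W₁ W₂) (DfP W₁.g f₁) (DfP W₂.g f₂)) (m : Fin n) :
    Sim (𝓝[Hs n] z) (om2 W₁ W₂) (DfP W₁.g (pd m f₁)) (DfP W₂.g (pd m f₂)) := by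
  have key : Sim (𝓝[Hs n] z) (om2 W₁ W₂)
      (fun x => pd m (DfP W₁.g f₁) x -
        ∑ j, ∑ k, pd m (fun y => (W₁.g y)⁻¹ j k) x • pd j (pd k f₁) x)
      (fun x => pd m (DfP W₂.g f₂) x -
        ∑ j, ∑ k, pd m (fun y => (W₂.g y)⁻¹ j k) x • pd j (pd k f₂) x) :=
    Sim.sub (h.dsim m) (Sim.sum _ fun j _ => Sim.sum _ fun k _ =>
      Sim.smul ((s2_gi hD h₁ h₂ hz j k).s.dsim m) ((hf.d k).dsim j))
  refine Sim.congr key ?_ ?_
  · filter_upwards [hD.mem_nhds hz] with x hx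
    exact (pd_PP hD h₁ hf.s.s₁ hx m).symm
  · filter_upwards [hD.mem_nhds hz] with x hx
    exact (pd_PP hD h₂ hf.s.s₂ hx m).symm

/-- from similarity of the principal parts to the difference -/
theorem PP_diff (hD : RelOpen D)
    (h₁ : M4 cp j0 W₁ D) (h₂ : M4 cp j0 W₂ D) (hz : z ∈ D) {f₁ f₂ : E n → V}
    (hf₁ : ContDiffOn ℝ ∞ f₁ D) (hf₂ : ContDiffOn ℝ ∞ f₂ D)
    (h : Sim (𝓝[Hs n] z) (om2 W₁ W₂) (DfP W₁.g f₁) (DfP W₂.g f₂)) :
    DfP W₁.g (fun y => f₁ y - f₂ y) =O[𝓝[Hs n] z] om2 W₁ W₂ := by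
  have key : (fun x => (DfP W₁.g f₁ x - DfP W₂.g f₂ x) -
      ∑ j, ∑ k, ((W₁.g x)⁻¹ j k - (W₂.g x)⁻¹ j k) • pd j (pd k f₂) x) =O[𝓝[Hs n] z] om2 W₁ W₂ := by
    refine h.d.sub (IsBigO.fun_sum fun j _ => IsBigO.fun_sum fun k _ => ?_)
    have a1 := (s2_gi hD h₁ h₂ hz j k).s.sim.d
    have a2 := Diff_bdd hD hz (hD.pd_smooth (hD.pd_smooth hf₂ k) j)
    have a3 := a1.smul a2
    simpa only [smul_eq_mul, mul_one] using a3
  refine key.congr' ?_ (EventuallyEq.refl _ _)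
  filter_upwards [hD.mem_nhds hz] with x hx
  unfold DfP
  rw [← Finset.sum_sub_distrib, ← Finset.sum_sub_distrib]
  refine Finset.sum_congr rfl fun j _ => ?_
  rw [← Finset.sum_sub_distrib, ← Finset.sum_sub_distrib]
  refine Finset.sum_congr rfl fun k _ => ?_
  have e1 : pd j (pd k (fun y => f₁ y - f₂ y)) x = pd j (pd k f₁) x - pd j (pd k f₂) x := by
    rw [hD.pd_congr (g := fun y => pd k f₁ y - pd k f₂ y) (fun y hy => hD.pd_sub hf₁ hf₂ hy k) hx j]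
    exact hD.pd_sub (hD.pd_smooth hf₁ k) (hD.pd_smooth hf₂ k) hx j
  rw [e1]
  simp only [smul_sub, sub_smul]
  abel


theorem isBigO_VV {l : Filter (E n)} {w : E n → ℝ} {A : E n → VV n N}
    (h1 : ∀ i j, (fun x => (A x).1 i j) =O[l] w)
    (h2 : ∀ i, (fun x => (A x).2.1 i) =O[l] w)
    (h3 : (fun x => (A x).2.2.1) =O[l] w)
    (h4 : ∀ a, (fun x => (A x).2.2.2.1 a) =O[l] w)
    (h5 : ∀ a k, (fun x => (A x).2.2.2.2 a k) =O[l] w) : A =O[l] w := by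
  have k1 : (fun x => (A x).1) =O[l] w := isBigO_pi.2 fun i => isBigO_pi.2 fun j => h1 i j
  have k2 : (fun x => (A x).2.1) =O[l] w := isBigO_pi.2 fun i => h2 i
  have k4 : (fun x => (A x).2.2.2.1) =O[l] w := isBigO_pi.2 fun i => h4 i
  have k5 : (fun x => (A x).2.2.2.2) =O[l] w := isBigO_pi.2 fun i => isBigO_pi.2 fun j => h5 i j
  exact k1.prod_left (k2.prod_left (h3.prod_left (k4.prod_left k5)))

/-- The elliptic inequality for the difference of two models. -/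
theorem model_diff_aux (hD : RelOpen D)
    (h₁ : M4 cp j0 W₁ D) (h₂ : M4 cp j0 W₂ D) (hz : z ∈ D) :
    DfP W₁.g (fun y => Uv W₁ y - Uv W₂ y) =O[𝓝[Hs n] z] om2 W₁ W₂ := by
  have hs := diffUv_smooth hD h₁ h₂
  have hw : ContDiffOn ℝ ∞ (fun y => Wv W₁ y - Wv W₂ y) D :=
    (Wv_smooth hD h₁).sub (Wv_smooth hD h₂)
  have hwm : ∀ m, ContDiffOn ℝ ∞ (fun y => pd m (Wv W₁) y - pd m (Wv W₂) y) D := fun m =>
    (hD.pd_smooth (Wv_smooth hD h₁) m).sub (hD.pd_smooth (Wv_smooth hD h₂) m)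
  have main : ∀ {V : Type} [NormedAddCommGroup V] [NormedSpace ℝ V] (T : VV n N →L[ℝ] V)
      (_ : Sim1 D z (om2 W₁ W₂) (DfP W₁.g (fun y => T (Wv W₁ y)))
        (DfP W₂.g (fun y => T (Wv W₂ y)))),
      (fun x => T (DfP W₁.g (fun y => Wv W₁ y - Wv W₂ y) x)) =O[𝓝[Hs n] z] om2 W₁ W₂ ∧
      ∀ m, (fun x => T (DfP W₁.g (fun y => pd m (Wv W₁) y - pd m (Wv W₂) y) x))
        =O[𝓝[Hs n] z] om2 W₁ W₂ := by
    intro V _ _ T hT
    refine ⟨?_, fun m => ?_⟩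
    · have a1 := PP_diff hD h₁ h₂ hz (T.contDiff.comp_contDiffOn (Wv_smooth hD h₁))
        (T.contDiff.comp_contDiffOn (Wv_smooth hD h₂)) hT.sim
      refine a1.congr' ?_ (EventuallyEq.refl _ _)
      filter_upwards [hD.mem_nhds hz] with x hx
      rw [← PP_clm hD T hw hx]
      simp only [Function.comp_def, map_sub]
    · have a0 := s_PP_pd hD h₁ h₂ hz (s2_comp hD h₁ h₂ hz T) hT m
      have b1 : ContDiffOn ℝ ∞ (fun y => T (Wv W₁ y)) D :=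
        T.contDiff.comp_contDiffOn (Wv_smooth hD h₁)
      have b2 : ContDiffOn ℝ ∞ (fun y => T (Wv W₂ y)) D :=
        T.contDiff.comp_contDiffOn (Wv_smooth hD h₂)
      have a1 := PP_diff hD h₁ h₂ hz (hD.pd_smooth b1 m) (hD.pd_smooth b2 m) a0
      refine a1.congr' ?_ (EventuallyEq.refl _ _)
      filter_upwards [hD.mem_nhds hz] with x hx
      rw [← PP_clm hD T (hwm m) hx]
      unfold DfP
      refine Finset.sum_congr rfl fun j _ => Finset.sum_congr rfl fun k _ => ?_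
      congr 1
      have e1 : EqOn (fun y => pd m (fun y => T (Wv W₁ y)) y - pd m (fun y => T (Wv W₂ y)) y)
          (fun y => T (pd m (Wv W₁) y - pd m (Wv W₂) y)) D := by
        intro y hy
        simp only [map_sub]
        rw [hD.pd_clm T (Wv_smooth hD h₁) hy m, hD.pd_clm T (Wv_smooth hD h₂) hy m]
      exact hD.pd_congr (fun y hy => hD.pd_congr e1 hy k) hx j
  have mg := fun i j => main ((ContinuousLinearMap.proj (R := ℝ) (φ := fun _ : Fin n => ℝ) j).comp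
      ((ContinuousLinearMap.proj (R := ℝ) (φ := fun _ : Fin n => Fin n → ℝ) i).comp
      (ContinuousLinearMap.fst ℝ _ _))) (s1_PPg hD h₁ h₂ hz i j)
  have mB := fun i => main ((ContinuousLinearMap.proj (R := ℝ) (φ := fun _ : Fin n => EndF N)
      i).comp ((ContinuousLinearMap.fst ℝ _ _).comp (ContinuousLinearMap.snd ℝ _ _)))
      (s1_PPB hD h₁ h₂ hz i)
  have mh := main ((ContinuousLinearMap.fst ℝ _ _).comp
      ((ContinuousLinearMap.snd ℝ _ _).comp (ContinuousLinearMap.snd ℝ _ _)))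
      (s1_PPh hD h₁ h₂ hz)
  have mc := fun a => main ((ContinuousLinearMap.proj (R := ℝ) (φ := fun _ : Fin n => Fib N)
      a).comp ((ContinuousLinearMap.fst ℝ _ _).comp ((ContinuousLinearMap.snd ℝ _ _).comp
      ((ContinuousLinearMap.snd ℝ _ _).comp (ContinuousLinearMap.snd ℝ _ _)))))
      (s1_PPc hD h₁ h₂ hz a)
  have mp := fun a k => main ((ContinuousLinearMap.proj (R := ℝ) (φ := fun _ : Fin n => Fib N)
      k).comp ((ContinuousLinearMap.proj (R := ℝ) (φ := fun _ : Fin n => Fin n → Fib N) a).comp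
      ((ContinuousLinearMap.snd ℝ _ _).comp ((ContinuousLinearMap.snd ℝ _ _).comp
      ((ContinuousLinearMap.snd ℝ _ _).comp (ContinuousLinearMap.snd ℝ _ _))))))
      (s1_PPp hD h₁ h₂ hz a k)
  have c1 : DfP W₁.g (fun y => Wv W₁ y - Wv W₂ y) =O[𝓝[Hs n] z] om2 W₁ W₂ :=
    isBigO_VV (fun i j => (mg i j).1) (fun i => (mB i).1) mh.1 (fun a => (mc a).1)
      (fun a k => (mp a k).1)
  have c2 : ∀ m, DfP W₁.g (fun y => pd m (Wv W₁) y - pd m (Wv W₂) y) =O[𝓝[Hs n] z]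
      om2 W₁ W₂ := fun m =>
    isBigO_VV (fun i j => (mg i j).2 m) (fun i => (mB i).2 m) (mh.2 m) (fun a => (mc a).2 m)
      (fun a k => (mp a k).2 m)
  have c3 : ∀ j k, DfP W₁.g (fun y => ric W₁.g j k y - ric W₂.g j k y) =O[𝓝[Hs n] z]
      om2 W₁ W₂ := fun j k =>
    PP_diff hD h₁ h₂ hz (ric_smooth hD h₁.ok.g_smooth h₁.ok.g_pos j k)
      (ric_smooth hD h₂.ok.g_smooth h₂.ok.g_pos j k) (s_PPric hD h₁ h₂ hz j k)
  have tr : ∀ {V : Type} [NormedAddCommGroup V] [NormedSpace ℝ V] (T : UU n N →L[ℝ] V),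
      (DfP W₁.g (fun y => T (Uv W₁ y) - T (Uv W₂ y))) =O[𝓝[Hs n] z] om2 W₁ W₂ →
      (fun x => T (DfP W₁.g (fun y => Uv W₁ y - Uv W₂ y) x)) =O[𝓝[Hs n] z] om2 W₁ W₂ := by
    intro V _ _ T hT
    refine hT.congr' ?_ (EventuallyEq.refl _ _)
    filter_upwards [hD.mem_nhds hz] with x hx
    rw [← PP_clm hD T hs hx]
    simp only [map_sub]
  have d1 : (fun x => (DfP W₁.g (fun y => Uv W₁ y - Uv W₂ y) x).1) =O[𝓝[Hs n] z]
      om2 W₁ W₂ := tr (ContinuousLinearMap.fst ℝ _ _) c1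
  have d2 : (fun x => (DfP W₁.g (fun y => Uv W₁ y - Uv W₂ y) x).2.1) =O[𝓝[Hs n] z]
      om2 W₁ W₂ := isBigO_pi.2 fun m =>
    tr ((ContinuousLinearMap.proj (R := ℝ) (φ := fun _ : Fin n => VV n N) m).comp
      ((ContinuousLinearMap.fst ℝ _ _).comp (ContinuousLinearMap.snd ℝ _ _))) (c2 m)
  have d3 : (fun x => (DfP W₁.g (fun y => Uv W₁ y - Uv W₂ y) x).2.2) =O[𝓝[Hs n] z]
      om2 W₁ W₂ := isBigO_pi.2 fun j => isBigO_pi.2 fun k =>
    tr ((ContinuousLinearMap.proj (R := ℝ) (φ := fun _ : Fin n => ℝ) k).comp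
      ((ContinuousLinearMap.proj (R := ℝ) (φ := fun _ : Fin n => Fin n → ℝ) j).comp
      ((ContinuousLinearMap.snd ℝ _ _).comp (ContinuousLinearMap.snd ℝ _ _)))) (c3 j k)
  exact d1.prod_left (d2.prod_left d3)

end Comp

theorem model_diff {cp : Cpl4 n N} {j0 : Fin N} {W₁ W₂ : Model n N} {D : Set (E n)}
    (hD : RelOpen D) (h₁ : M4 cp j0 W₁ D) (h₂ : M4 cp j0 W₂ D) {z : E n} (hz : z ∈ D) :
    (fun x => ∑ j, ∑ k, (W₁.g x)⁻¹ j k • pd j (pd k (fun y => Uv W₁ y - Uv W₂ y)) x)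
      =O[𝓝[Hs n] z] om2 W₁ W₂ := model_diff_aux hD h₁ h₂ hz

/-- derivative of `Wv` in components -/
theorem rig_pd_Wv {cp : Cpl4 n N} {j0 : Fin N} {W : Model n N} {D : Set (E n)} (hD : RelOpen D)
    (hW : M4 cp j0 W D) {x : E n} (hx : x ∈ D) (j : Fin n) :
    pd j (Wv W) x = (fun a b => pd j (fun y => W.g y a b) x, fun i => pd j (W.B i) x, pd j W.h x,
      fun a => pd j (W.c a) x, fun a k => pd j (pd k (W.c a)) x) := by
  have hs := Wv_smooth hD hW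
  have key : ∀ {V : Type} [NormedAddCommGroup V] [NormedSpace ℝ V] (T : VV n N →L[ℝ] V),
      T (pd j (Wv W) x) = pd j (fun y => T (Wv W y)) x := fun T => (hD.pd_clm T hs hx j).symm
  refine Prod.ext ?_ (Prod.ext ?_ (Prod.ext ?_ (Prod.ext ?_ ?_)))
  · funext a b
    exact key ((ContinuousLinearMap.proj (R := ℝ) (φ := fun _ : Fin n => ℝ) b).comp
      ((ContinuousLinearMap.proj (R := ℝ) (φ := fun _ : Fin n => Fin n → ℝ) a).comp
      (ContinuousLinearMap.fst ℝ _ _)))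
  · funext i
    exact key ((ContinuousLinearMap.proj (R := ℝ) (φ := fun _ : Fin n => EndF N) i).comp
      ((ContinuousLinearMap.fst ℝ _ _).comp (ContinuousLinearMap.snd ℝ _ _)))
  · exact key ((ContinuousLinearMap.fst ℝ _ _).comp
      ((ContinuousLinearMap.snd ℝ _ _).comp (ContinuousLinearMap.snd ℝ _ _)))
  · funext a
    exact key ((ContinuousLinearMap.proj (R := ℝ) (φ := fun _ : Fin n => Fib N) a).comp
      ((ContinuousLinearMap.fst ℝ _ _).comp ((ContinuousLinearMap.snd ℝ _ _).comp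
      ((ContinuousLinearMap.snd ℝ _ _).comp (ContinuousLinearMap.snd ℝ _ _)))))
  · funext a k
    exact key ((ContinuousLinearMap.proj (R := ℝ) (φ := fun _ : Fin n => Fib N) k).comp
      ((ContinuousLinearMap.proj (R := ℝ) (φ := fun _ : Fin n => Fin n → Fib N) a).comp
      ((ContinuousLinearMap.snd ℝ _ _).comp ((ContinuousLinearMap.snd ℝ _ _).comp
      ((ContinuousLinearMap.snd ℝ _ _).comp (ContinuousLinearMap.snd ℝ _ _))))))

theorem rig_pos {cp : Cpl4 n N} {j0 : Fin N} {W₁ : Model n N} {D : Set (E n)}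
    (h₁ : M4 cp j0 W₁ D) {x : E n} (hx : x ∈ D) :
    (Matrix.of fun j k => (W₁.g x)⁻¹ j k).PosDef := (h₁.ok.g_pos x hx).inv


theorem rig_ineq {cp : Cpl4 n N} {j0 : Fin N} {W₁ W₂ : Model n N} {D : Set (E n)} (hD : RelOpen D)
    (h₁ : M4 cp j0 W₁ D) (h₂ : M4 cp j0 W₂ D) {z : E n} (hz : z ∈ D) :
    ∃ C : ℝ, ∀ᶠ y in 𝓝[Hs n] z,
      ‖∑ j, ∑ k, (W₁.g y)⁻¹ j k • pd j (pd k (fun y => Uv W₁ y - Uv W₂ y)) y‖ ≤
      C * (‖Uv W₁ y - Uv W₂ y‖ + ∑ j, ‖pd j (fun y => Uv W₁ y - Uv W₂ y) y‖) := by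
  obtain ⟨C, hC⟩ := (model_diff hD h₁ h₂ hz).bound
  refine ⟨C, ?_⟩
  filter_upwards [hC] with y hy
  rw [Real.norm_of_nonneg (om2_nonneg W₁ W₂ y)] at hy
  exact hy

end Vale.Agent.P088.EYM.H

end
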