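import Vale.Agent.P088.MathlibUsed
import Vale.Agent.P088.Bdl.B9

set_option linter.all false

/-!
# P088, boundary determination to all orders, analytic half: powers of `x_0`, phases, the operator
`Mop` and its inversion to any order
-/

open MeasureTheory Set Filter Topology
open scoped ContDiff

noncomputable section

namespace Vale.Agent.P088.EYM

variable {n : ℕ} [NeZero n] {N : ℕ}
variable {F : Type*} [NormedAddCommGroup F] [NormedSpace ℝ F]
variable {D : Set (E n)}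

/-! ### powers of `x_0` -/

theorem e8_xp_sm (k : ℕ) : ContDiffOn ℝ ∞ (fun x : E n => (x 0) ^ k) D :=
  (dc_smooth_coord 0).pow k

theorem e8_pd_pow (k : ℕ) {x : E n} (hx : x ∈ Hs n) :
    pd 0 (fun y : E n => (y 0) ^ (k + 1)) x = ((k : ℝ) + 1) * (x 0) ^ k := by
  have h1 : HasFDerivWithinAt (fun y : E n => y 0) (EuclideanSpace.proj (𝕜 := ℝ) 0) (Hs n) x :=
    (EuclideanSpace.proj (𝕜 := ℝ) (0 : Fin n)).hasFDerivWithinAt
  have h2 := h1.pow (k + 1)
  rw [pd_of_has hx h2 0]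
  simp

theorem e8_top_pow (hD : RelOpen D) (k : ℕ) : ∀ {f : E n → F}, ContDiffOn ℝ ∞ f D →
    DtTop D k (fun y => (y 0) ^ k • f y) (fun y => (k.factorial : ℝ) • f y) := by
  induction k with
  | zero =>
    intro f hf
    refine DtTop.congr hD (DtTop.of_van hf (van_zero f)) (fun x _ => ?_) fun x _ _ => ?_
    · simp
    · simp
  | succ k ih =>
    intro f hf
    have sf' : ContDiffOn ℝ ∞ (fun y => ((k : ℝ) + 1) • f y + y 0 • pd 0 f y) D :=
      (hf.const_smul ((k : ℝ) + 1)).add (dc_smooth_bil dc_bil_smul (dc_smooth_coord 0)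
        (hD.pd_smooth hf 0))
    have h := ih sf'
    have e : EqOn (fun y => (y 0) ^ k • (((k : ℝ) + 1) • f y + y 0 • pd 0 f y))
        (pd 0 (fun y => (y 0) ^ (k + 1) • f y)) D := by
      intro x hx
      rw [hD.pd_smul (e8_xp_sm (k + 1)) hf hx, e8_pd_pow k (hD.subset hx)]
      module
    have h' := h.congr hD e (w := fun y => ((k + 1).factorial : ℝ) • f y) fun x _ hx0 => by
      simp only [hx0, zero_smul, add_zero, smul_smul]
      congr 1
      rw [Nat.factorial_succ]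
      push_cast
      ring
    refine ⟨dc_smooth_bil dc_bil_smul (e8_xp_sm (k + 1)) hf, van_succ.2 ⟨fun x _ hx0 => ?_, h'.van⟩,
      fun x hx hx0 => ?_⟩
    · simp [hx0]
    · rw [Function.iterate_succ_apply]
      exact h'.top x hx hx0

theorem e8_van_pow (hD : RelOpen D) (k : ℕ) {f : E n → F} (hf : ContDiffOn ℝ ∞ f D) :
    Van D k (fun y => (y 0) ^ k • f y) := (e8_top_pow hD k hf).van

theorem e8_iter_supp {f : E n → F} {K : Set (E n)} (hK : IsClosed K)
    (h : ∀ x ∈ Hs n, x ∉ K → f x = 0) (k : ℕ) :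
    ∀ x ∈ Hs n, x ∉ K → (pd (0 : Fin n))^[k] f x = 0 := by
  induction k with
  | zero => simpa only [Function.iterate_zero, id_eq] using h
  | succ k ih =>
    rw [Function.iterate_succ']
    exact dc_pd_supp hK ih 0

/-- leading derivatives of the derivatives of a function -/
theorem e8_top_pd (hD : RelOpen D) {k : ℕ} {f v : E n → F} (hf : DtTop D (k + 1) f v) (j : Fin n) :
    DtTop D k (pd j f) (fun x => if j = 0 then v x else 0) := by
  by_cases hj : j = 0
  · subst hj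
    refine ⟨hD.pd_smooth hf.sm 0, (van_succ.1 hf.van).2, fun x hx hx0 => ?_⟩
    rw [if_pos rfl, ← hf.top x hx hx0, Function.iterate_succ_apply]
  · have h1 := Van.pd_tan hD hf.sm hf.van hj
    refine ⟨hD.pd_smooth hf.sm j, h1.mono (Nat.le_succ k), fun x hx hx0 => ?_⟩
    rw [if_neg hj]
    exact h1 k (Nat.lt_succ_self k) x hx hx0

/-- the sum of a function with `Van D k` and one with opposite leading derivative -/
theorem e8_cancel (hD : RelOpen D) {k : ℕ} {f g v : E n → F} (hf : DtTop D k f v)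
    (hg : DtTop D k g (fun x => -v x)) : Van D (k + 1) (fun x => f x + g x) := by
  have h := hf.add hD hg
  refine df_van_snoc h.van fun x hx hx0 => ?_
  rw [h.top x hx hx0]
  simp

/-! ### phases of all orders -/

section Phase

variable {G : E n → Matrix (Fin n) (Fin n) ℝ} {ξ : Fin n → ℝ}

theorem e8_pos (hG : GOk D G) (hξ0 : ξ 0 = 0) (hξ : ξ ≠ 0) {x : E n} (hx : x ∈ D) :
    0 < G x 0 0 * rho (G x) ξ :=
  mul_pos (hG.pos x hx).diag_pos (dp_rho_pos (hG.pos x hx) hξ0 hξ)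

theorem e8_smooth_Gr (hD : RelOpen D) (hG : GOk D G) (hξ0 : ξ 0 = 0) (hξ : ξ ≠ 0) (c : ℝ)
    (hc : c ≠ 0) : ContDiffOn ℝ ∞ (fun x => (c * (G x 0 0 * rho (G x) ξ))⁻¹) D :=
  (contDiffOn_const.mul ((hG.smG 0 0).mul (dp_smooth_rho hD hG hξ0 hξ))).inv
    fun x hx => mul_ne_zero hc (e8_pos hG hξ0 hξ hx).ne'

theorem e8_row (hG : GOk D G) (hξ0 : ξ 0 = 0) {ψ : E n → ℂ} (hψ : IsPhase D G ξ ψ) {x : E n}
    (hx : x ∈ D) (hx0 : x 0 = 0) :
    ∑ k, (G x 0 k : ℂ) * pd k ψ x = ((-(G x 0 0 * rho (G x) ξ) : ℝ) : ℂ) := by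
  rw [Complex.ofReal_neg, ← dp_zz_row (hG.pos x hx) hξ0]
  exact Finset.sum_congr rfl fun k _ => by rw [hψ.grad x hx hx0 k]

theorem e8_phase_step (hD : RelOpen D) (hG : GOk D G) (hξ0 : ξ 0 = 0) (hξ : ξ ≠ 0) {k : ℕ}
    (hk : 1 ≤ k) {ψ : E n → ℂ} (hψ : IsPhase D G ξ ψ) (he : Van D k (eik G ψ)) :
    ∃ ψ', IsPhase D G ξ ψ' ∧ Van D (k + 1) (eik G ψ') := by
  have hp : ∀ j, ContDiffOn ℝ ∞ (pd j ψ) D := fun j => hD.pd_smooth hψ.sm j
  have sE : ContDiffOn ℝ ∞ (eik G ψ) D := dr_smooth_eik hD hG hψ.sm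
  have hf0 : (((k + 1).factorial : ℕ) : ℝ) ≠ 0 := Nat.cast_ne_zero.2 (Nat.factorial_ne_zero _)
  have hc : (2 * ((k + 1).factorial : ℝ)) ≠ 0 := mul_ne_zero two_ne_zero hf0
  set θ : E n → ℂ := fun x => (2 * ((k + 1).factorial : ℝ) * (G x 0 0 * rho (G x) ξ))⁻¹ •
    (pd (0 : Fin n))^[k] (eik G ψ) x with hθ
  have sθ : ContDiffOn ℝ ∞ θ D :=
    dc_smooth_bil dc_bil_smul (e8_smooth_Gr hD hG hξ0 hξ _ hc) (dv_smooth_iter hD sE k)
  set d : E n → ℂ := fun x => (x 0) ^ (k + 1) • θ x with hd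
  have td := e8_top_pow hD (k + 1) sθ
  have sd : ContDiffOn ℝ ∞ d D := td.sm
  have tdj := fun j => e8_top_pd hD td j
  have sdj : ∀ j, ContDiffOn ℝ ∞ (pd j d) D := fun j => hD.pd_smooth sd j
  have sC : ∀ j l, ContDiffOn ℝ ∞ (fun x => (G x j l : ℂ)) D := fun j l => dk_smooth_C (hG.smG j l)
  -- the expansion
  have hexp : ∀ x ∈ D, eik G (fun y => ψ y + d y) x = eik G ψ x +
      (∑ j, ∑ l, ((G x j l : ℂ) * pd l ψ x * 2) * pd j d x + eik G d x) := by
    intro x hx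
    have h1 : ∀ j, pd j (fun y => ψ y + d y) x = pd j ψ x + pd j d x := fun j =>
      hD.pd_add hψ.sm sd hx j
    have h2 : ∑ j, ∑ l, (G x j l : ℂ) * pd j ψ x * pd l d x =
        ∑ j, ∑ l, (G x j l : ℂ) * pd l ψ x * pd j d x := by
      rw [Finset.sum_comm]
      refine Finset.sum_congr rfl fun j _ => Finset.sum_congr rfl fun l _ => ?_
      rw [hG.symm x hx l j]
    simp only [eik, h1]
    have h3 : ∀ j l, (G x j l : ℂ) * (pd j ψ x + pd j d x) * (pd l ψ x + pd l d x) =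
        (G x j l : ℂ) * pd j ψ x * pd l ψ x + (G x j l : ℂ) * pd j ψ x * pd l d x +
        (G x j l : ℂ) * pd l ψ x * pd j d x + (G x j l : ℂ) * pd j d x * pd l d x := by
      intro j l; ring
    simp only [h3, Finset.sum_add_distrib, h2]
    have h4 : ∑ j, ∑ l, ((G x j l : ℂ) * pd l ψ x * 2) * pd j d x =
        ∑ j, ∑ l, (G x j l : ℂ) * pd l ψ x * pd j d x +
          ∑ j, ∑ l, (G x j l : ℂ) * pd l ψ x * pd j d x := by
      simp only [← Finset.sum_add_distrib]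
      refine Finset.sum_congr rfl fun j _ => Finset.sum_congr rfl fun l _ => ?_
      ring
    rw [h4]
    ring
  have t1 : DtTop D k (fun x => ∑ j, ∑ l, ((G x j l : ℂ) * pd l ψ x * 2) * pd j d x)
      (fun x => ∑ j, ∑ l, ((G x j l : ℂ) * pd l ψ x * 2) *
        (if j = 0 then (((k + 1).factorial : ℕ) : ℝ) • θ x else 0)) := by
    refine DtTop.sum hD _ fun j _ => DtTop.sum hD _ fun l _ => ?_
    exact DtTop.right hD dc_bil_mulC (((sC j l).mul (hp l)).mul contDiffOn_const) (tdj j)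
  have t2 : DtTop D k (eik G d) (fun _ => 0) := by
    refine DtTop.of_succ (dr_smooth_eik hD hG sd) ?_
    refine Van.sum hD _ (fun j _ => dc_smooth_sum _ fun l _ =>
      ((sC j l).mul (sdj j)).mul (sdj l)) fun j _ => Van.sum hD _ (fun l _ =>
      ((sC j l).mul (sdj j)).mul (sdj l)) fun l _ => ?_
    have v1 := Van.bil hD dc_bil_mulC (sC j l) (sdj j) (van_zero _) (tdj j).van
    have v2 := Van.bil hD dc_bil_mulC ((sC j l).mul (sdj j)) (sdj l) v1 (tdj l).van
    exact v2.mono (by omega)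
  have t3 := (t1.add hD t2).congr hD (fun x _ => rfl)
    (w := fun x => -(pd (0 : Fin n))^[k] (eik G ψ) x) fun x hx hx0 => by
      have h1 : ∑ j, ∑ l, ((G x j l : ℂ) * pd l ψ x * 2) *
          (if j = 0 then (((k + 1).factorial : ℕ) : ℝ) • θ x else 0) =
          (∑ l, (G x 0 l : ℂ) * pd l ψ x) * (2 * ((((k + 1).factorial : ℕ) : ℝ) • θ x)) := by
        rw [Finset.sum_eq_single_of_mem (0 : Fin n) (Finset.mem_univ _)]
        · simp only [if_true, Finset.sum_mul]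
          refine Finset.sum_congr rfl fun l _ => ?_
          ring
        · intro j _ hj
          simp [hj]
      simp only [add_zero]
      rw [h1, e8_row hG hξ0 hψ hx hx0, hθ]
      have h2 := (e8_pos hG hξ0 hξ hx).ne'
      simp only [Complex.real_smul]
      have h3 : ((G x 0 0 : ℂ) * (rho (G x) ξ : ℂ)) ≠ 0 := by
        rw [← Complex.ofReal_mul]
        exact Complex.ofReal_ne_zero.2 h2
      have h4 : (((k + 1).factorial : ℕ) : ℂ) ≠ 0 := Nat.cast_ne_zero.2 (Nat.factorial_ne_zero _)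
      push_cast
      field_simp
      rw [mul_div_cancel_left₀ _ h3]
  have hv : Van D (k + 1) (eik G (fun y => ψ y + d y)) :=
    Van.congr hD (e8_cancel hD (DtTop.of_van sE he) t3) fun x hx => (hexp x hx).symm
  refine ⟨fun y => ψ y + d y, ⟨hψ.sm.add sd, fun x hx hx0 => ?_, fun x hx hx0 j => ?_,
    hv.mono (by omega)⟩, hv⟩
  · have : d x = 0 := by simp [hd, hx0]
    rw [this, add_zero]
    exact hψ.re0 x hx hx0
  · have h0 : pd j d x = 0 := (tdj j).van 0 (by omega) x hx hx0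
    rw [hD.pd_add hψ.sm sd hx j, hψ.grad x hx hx0 j, h0, add_zero]

/-- phases of all orders -/
theorem e8_phase (hD : RelOpen D) (hG : GOk D G) (hξ0 : ξ 0 = 0) (hξ : ξ ≠ 0) (m : ℕ) :
    ∃ ψ, IsPhase D G ξ ψ ∧ Van D (m + 1) (eik G ψ) := by
  induction m with
  | zero =>
    obtain ⟨ψ, hψ⟩ := dp_exists_phase hD hG hξ0 hξ
    exact ⟨ψ, hψ, hψ.eik2.mono (by omega)⟩
  | succ m ih =>
    obtain ⟨ψ, hψ, he⟩ := ih
    exact e8_phase_step hD hG hξ0 hξ (by omega) hψ he

end Phase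

/-! ### the transport operator and its inversion to any order -/

section Transport

variable {G : E n → Matrix (Fin n) (Fin n) ℝ} {B : Fin n → E n → EndF N} {ξ : Fin n → ℝ}
  {ψ : E n → ℂ}

theorem e8_Mop_add (hD : RelOpen D) {a c : E n → Fib N} (ha : ContDiffOn ℝ ∞ a D)
    (hc : ContDiffOn ℝ ∞ c D) {x : E n} (hx : x ∈ D) :
    Mop G B ψ (fun y => a y + c y) x = Mop G B ψ a x + Mop G B ψ c x := by
  have h1 : ∀ j, pd j (fun y => a y + c y) x = pd j a x + pd j c x := fun j =>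
    hD.pd_add ha hc hx j
  simp only [Mop, h1, map_add, smul_add, Finset.sum_add_distrib]
  abel

theorem e8_Mop_sum (hD : RelOpen D) {ι : Type*} (s : Finset ι) (r : ι → ℝ) {a : ι → E n → Fib N}
    (ha : ∀ i ∈ s, ContDiffOn ℝ ∞ (a i) D) {x : E n} (hx : x ∈ D) :
    Mop G B ψ (fun y => ∑ i ∈ s, r i • a i y) x = ∑ i ∈ s, r i • Mop G B ψ (a i) x := by
  have h1 : ∀ j, pd j (fun y => ∑ i ∈ s, r i • a i y) x = ∑ i ∈ s, r i • pd j (a i) x := by
    intro j
    rw [hD.pd_sum s (fun i hi => (ha i hi).const_smul (r i)) hx]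
    exact Finset.sum_congr rfl fun i hi => hD.pd_const_smul (r i) (ha i hi) hx j
  simp only [Mop, h1, map_sum, ContinuousLinearMap.map_smul_of_tower]
  have h2 : ∀ (z : ℂ) (u : ι → Fib N), z • ∑ i ∈ s, r i • u i = ∑ i ∈ s, r i • (z • u i) := by
    intro z u
    rw [Finset.smul_sum]
    exact Finset.sum_congr rfl fun i _ => smul_comm _ _ _
  simp only [h2]
  have h3 : ∀ (u : Fin n → Fin n → ι → Fib N), ∑ j, ∑ k, ∑ i ∈ s, r i • u j k i =
      ∑ i ∈ s, r i • ∑ j, ∑ k, u j k i := by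
    intro u
    have h4 : ∀ j, ∑ k, ∑ i ∈ s, r i • u j k i = ∑ i ∈ s, r i • ∑ k, u j k i := by
      intro j
      rw [Finset.sum_comm]
      exact Finset.sum_congr rfl fun i _ => (Finset.smul_sum).symm
    simp only [h4]
    rw [Finset.sum_comm]
    exact Finset.sum_congr rfl fun i _ => (Finset.smul_sum).symm
  rw [h3, h3, h2, h2, ← Finset.sum_add_distrib, ← Finset.sum_add_distrib]
  refine Finset.sum_congr rfl fun i _ => ?_
  rw [smul_add, smul_add]

theorem e8_Lop_sum (hD : RelOpen D) (hG : GOk D G) (hB : ∀ j, ContDiffOn ℝ ∞ (B j) D)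
    {ι : Type*} (s : Finset ι) (r : ι → ℝ) {a : ι → E n → Fib N}
    (ha : ∀ i ∈ s, ContDiffOn ℝ ∞ (a i) D) {x : E n} (hx : x ∈ D) :
    LopR G B (fun y => ∑ i ∈ s, r i • a i y) x = ∑ i ∈ s, r i • LopR G B (a i) x := by
  have h1 : ∀ j, ∀ y ∈ D, pd j (fun y => ∑ i ∈ s, r i • a i y) y =
      ∑ i ∈ s, r i • pd j (a i) y := by
    intro j y hy
    rw [hD.pd_sum s (fun i hi => (ha i hi).const_smul (r i)) hy]
    exact Finset.sum_congr rfl fun i hi => hD.pd_const_smul (r i) (ha i hi) hy j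
  have sU : ∀ j, ∀ i ∈ s, ContDiffOn ℝ ∞ (fun y => ∑ k, G y j k • pd k (a i) y) D := fun j i hi =>
    dc_smooth_sum _ fun k _ => dc_smooth_bil dc_bil_smul (hG.smG j k) (hD.pd_smooth (ha i hi) k)
  have h2 : ∀ j, pd j (fun y => ∑ k, G y j k • pd k (fun y => ∑ i ∈ s, r i • a i y) y) x =
      ∑ i ∈ s, r i • pd j (fun y => ∑ k, G y j k • pd k (a i) y) x := by
    intro j
    have e : EqOn (fun y => ∑ k, G y j k • pd k (fun y => ∑ i ∈ s, r i • a i y) y)
        (fun y => ∑ i ∈ s, r i • ∑ k, G y j k • pd k (a i) y) D := by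
      intro y hy
      simp only [h1 _ y hy, Finset.smul_sum]
      rw [Finset.sum_comm]
      exact Finset.sum_congr rfl fun i _ => Finset.sum_congr rfl fun k _ => smul_comm _ _ _
    rw [hD.pd_congr e hx, hD.pd_sum s (fun i hi => (sU j i hi).const_smul (r i)) hx]
    exact Finset.sum_congr rfl fun i hi => hD.pd_const_smul (r i) (sU j i hi) hx j
  have h3 : ∀ (u : Fin n → Fin n → ι → Fib N), ∑ j, ∑ k, ∑ i ∈ s, r i • u j k i =
      ∑ i ∈ s, r i • ∑ j, ∑ k, u j k i := by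
    intro u
    have h4 : ∀ j, ∑ k, ∑ i ∈ s, r i • u j k i = ∑ i ∈ s, r i • ∑ k, u j k i := by
      intro j
      rw [Finset.sum_comm]
      exact Finset.sum_congr rfl fun i _ => (Finset.smul_sum).symm
    simp only [h4]
    rw [Finset.sum_comm]
    exact Finset.sum_congr rfl fun i _ => (Finset.smul_sum).symm
  have h5 : ∀ j k, G x j k • B j x (pd k (fun y => ∑ i ∈ s, r i • a i y) x) =
      ∑ i ∈ s, r i • (G x j k • B j x (pd k (a i) x)) := by
    intro j k
    rw [h1 k x hx, map_sum, Finset.smul_sum]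
    refine Finset.sum_congr rfl fun i _ => ?_
    rw [ContinuousLinearMap.map_smul_of_tower, smul_comm]
  unfold LopR
  simp only [h2, h5]
  rw [h3, Finset.sum_comm, Finset.smul_sum, ← Finset.sum_add_distrib]
  refine Finset.sum_congr rfl fun i _ => ?_
  rw [← Finset.smul_sum, smul_add]
  congr 1
  exact smul_comm _ _ _

/-- leading derivative of `Mop c` -/
theorem e8_Mop_top (hD : RelOpen D) (hG : GOk D G) (hB : ∀ j, ContDiffOn ℝ ∞ (B j) D)
    (hξ0 : ξ 0 = 0) (hψ : IsPhase D G ξ ψ) {k : ℕ} {c v : E n → Fib N}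
    (hc : DtTop D (k + 1) c v) :
    DtTop D k (Mop G B ψ c) (fun x => (-(2 * (G x 0 0 * rho (G x) ξ))) • v x) := by
  have sP : ∀ j l, ContDiffOn ℝ ∞ (fun x => (G x j l : ℂ) * pd l ψ x) D := fun j l =>
    da_smooth_coef hD hG hψ.sm j l
  have s1 : ContDiffOn ℝ ∞ (fun x => ∑ j, pd j (fun y => ∑ l, (G y j l : ℂ) * pd l ψ y) x) D :=
    dc_smooth_sum _ fun j _ => hD.pd_smooth (dc_smooth_sum _ fun l _ => sP j l) j
  have t1 : DtTop D k (fun x => (∑ j, pd j (fun y => ∑ l, (G y j l : ℂ) * pd l ψ y) x) • c x)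
      (fun _ => 0) := by
    refine DtTop.of_succ (dc_smooth_bil dc_bil_smulC s1 hc.sm) ?_
    have := Van.bil hD dc_bil_smulC s1 hc.sm (van_zero _) hc.van
    rwa [zero_add] at this
  have t3 : ∀ j l, DtTop D k (fun x => ((G x j l : ℂ) * pd l ψ x) • B j x (c x))
      (fun _ => 0) := by
    intro j l
    have s2 : ContDiffOn ℝ ∞ (fun x => B j x (c x)) D := dc_smooth_bil dc_bil_app (hB j) hc.sm
    have v2 : Van D (k + 1) (fun x => B j x (c x)) := by
      have := Van.bil hD dc_bil_app (hB j) hc.sm (van_zero _) hc.van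
      rwa [zero_add] at this
    refine DtTop.of_succ (dc_smooth_bil dc_bil_smulC (sP j l) s2) ?_
    have := Van.bil hD dc_bil_smulC (sP j l) s2 (van_zero _) v2
    rwa [zero_add] at this
  have t2 : ∀ j l, DtTop D k (fun x => ((G x j l : ℂ) * pd l ψ x) • pd j c x)
      (fun x => ((G x j l : ℂ) * pd l ψ x) • (if j = 0 then v x else 0)) := fun j l =>
    DtTop.right hD dc_bil_smulC (sP j l) (e8_top_pd hD hc j)
  have t2s : DtTop D k (fun x => ∑ j, ∑ l, ((G x j l : ℂ) * pd l ψ x) • pd j c x)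
      (fun x => ∑ j, ∑ l, ((G x j l : ℂ) * pd l ψ x) • (if j = 0 then v x else 0)) :=
    DtTop.sum hD _ fun j _ => DtTop.sum hD _ fun l _ => t2 j l
  have t3s : DtTop D k (fun x => ∑ j, ∑ l, ((G x j l : ℂ) * pd l ψ x) • B j x (c x))
      (fun x => ∑ j : Fin n, ∑ l : Fin n, (0 : Fib N)) :=
    DtTop.sum hD _ fun j _ => DtTop.sum hD _ fun l _ => t3 j l
  have t2' : DtTop D k (fun x => (2 : ℂ) • ∑ j, ∑ l, ((G x j l : ℂ) * pd l ψ x) • pd j c x)
      (fun x => (2 : ℂ) • ∑ j, ∑ l, ((G x j l : ℂ) * pd l ψ x) • (if j = 0 then v x else 0)) :=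
    DtTop.right hD (dc_bil_smulC (N := N)) (f := fun _ => (2 : ℂ)) contDiffOn_const t2s
  have t3' : DtTop D k (fun x => (2 : ℂ) • ∑ j, ∑ l, ((G x j l : ℂ) * pd l ψ x) • B j x (c x))
      (fun x => (2 : ℂ) • ∑ j : Fin n, ∑ l : Fin n, (0 : Fib N)) :=
    DtTop.right hD (dc_bil_smulC (N := N)) (f := fun _ => (2 : ℂ)) contDiffOn_const t3s
  refine ((t1.add hD t2').add hD t3').congr hD (fun x _ => rfl) fun x hx hx0 => ?_
  have h1 : ∑ j, ∑ l, ((G x j l : ℂ) * pd l ψ x) • (if j = 0 then v x else 0) =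
      (∑ l, (G x 0 l : ℂ) * pd l ψ x) • v x := by
    rw [Finset.sum_eq_single_of_mem (0 : Fin n) (Finset.mem_univ _)]
    · simp only [if_true, Finset.sum_smul]
    · intro j _ hj
      simp [hj]
  simp only [h1, Finset.sum_const_zero, smul_zero, zero_add, add_zero]
  rw [e8_row hG hξ0 hψ hx hx0, smul_smul, ← Complex.coe_smul]
  congr 1
  push_cast
  ring

/-- the equation `Mop a + f = 0` is solved to any order with prescribed values on the face -/
theorem e8_solve (hD : RelOpen D) (hG : GOk D G) (hB : ∀ j, ContDiffOn ℝ ∞ (B j) D)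
    (hξ0 : ξ 0 = 0) (hξ : ξ ≠ 0) (hψ : IsPhase D G ξ ψ) {K : Set (E n)} (hK : IsClosed K)
    {f a₀ : E n → Fib N} (hf : ContDiffOn ℝ ∞ f D) (hf0 : ∀ x ∈ Hs n, x ∉ K → f x = 0)
    (ha : ContDiffOn ℝ ∞ a₀ D) (ha0 : ∀ x ∈ Hs n, x ∉ K → a₀ x = 0) (k : ℕ) :
    ∃ a : E n → Fib N, ContDiffOn ℝ ∞ a D ∧ (∀ x ∈ Hs n, x ∉ K → a x = 0) ∧
      (∀ x ∈ D, x 0 = 0 → a x = a₀ x) ∧ Van D k (fun x => Mop G B ψ a x + f x) := by
  induction k with
  | zero => exact ⟨a₀, ha, ha0, fun _ _ _ => rfl, van_zero _⟩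
  | succ k ih =>
    obtain ⟨a, sa, za, ea, va⟩ := ih
    have sR : ContDiffOn ℝ ∞ (fun x => Mop G B ψ a x + f x) D :=
      (da_smooth_Mop hD hG hB hψ.sm sa).add hf
    have zR : ∀ x ∈ Hs n, x ∉ K → Mop G B ψ a x + f x = 0 := fun x hx hxK => by
      rw [da_supp_Mop hK za x hx hxK, hf0 x hx hxK, add_zero]
    have hc : (2 * ((k + 1).factorial : ℝ)) ≠ 0 :=
      mul_ne_zero two_ne_zero (Nat.cast_ne_zero.2 (Nat.factorial_ne_zero _))
    set b : E n → Fib N := fun x => (2 * ((k + 1).factorial : ℝ) * (G x 0 0 * rho (G x) ξ))⁻¹ •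
      (pd (0 : Fin n))^[k] (fun x => Mop G B ψ a x + f x) x with hb
    have sb : ContDiffOn ℝ ∞ b D :=
      dc_smooth_bil dc_bil_smul (e8_smooth_Gr hD hG hξ0 hξ _ hc) (dv_smooth_iter hD sR k)
    have zb : ∀ x ∈ Hs n, x ∉ K → b x = 0 := fun x hx hxK => by
      rw [hb]
      simp only
      rw [e8_iter_supp hK zR k x hx hxK, smul_zero]
    have tc := e8_top_pow hD (k + 1) sb
    have tM := e8_Mop_top (B := B) hD hG hB hξ0 hψ tc
    have sc : ContDiffOn ℝ ∞ (fun y => (y 0) ^ (k + 1) • b y) D := tc.sm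
    refine ⟨fun y => a y + (y 0) ^ (k + 1) • b y, sa.add sc, fun x hx hxK => ?_,
      fun x hx hx0 => ?_, ?_⟩
    · simp only
      rw [za x hx hxK, zb x hx hxK, smul_zero, add_zero]
    · simp only [hx0]
      rw [← ea x hx hx0]
      simp
    · have tM' := tM.congr hD (fun x _ => rfl)
        (w := fun x => -(pd (0 : Fin n))^[k] (fun x => Mop G B ψ a x + f x) x) fun x hx hx0 => by
          simp only [hb, smul_smul]
          rw [← neg_one_smul ℝ ((pd (0 : Fin n))^[k] (fun x => Mop G B ψ a x + f x) x)]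
          congr 1
          have h2 := (e8_pos hG hξ0 hξ hx).ne'
          have h3 : (((k + 1).factorial : ℕ) : ℝ) ≠ 0 := Nat.cast_ne_zero.2 (Nat.factorial_ne_zero _)
          have h4 : G x 0 0 ≠ 0 := left_ne_zero_of_mul h2
          have h5 : rho (G x) ξ ≠ 0 := right_ne_zero_of_mul h2
          field_simp
      refine Van.congr hD (e8_cancel hD (DtTop.of_van sR va) tM') fun x hx => ?_
      simp only
      rw [e8_Mop_add hD sa sc hx]
      abel

end Transport

end Vale.Agent.P088.EYM
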