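import Vale.Agent.P088.H4.H823A

set_option linter.all false

/-!
# P088, boundary determination to all orders, analytic half: amplitudes and residuals
-/

open MeasureTheory Set Filter Topology
open scoped ContDiff

noncomputable section

namespace Vale.Agent.P088.EYM

variable {n : ℕ} [NeZero n] {N : ℕ}
variable {D : Set (E n)}

/-! ### the other pair -/

theorem e8_eik_other (hD : RelOpen D) {G₁ G₂ : E n → Matrix (Fin n) (Fin n) ℝ}
    (g₁ : GOk D G₁) (g₂ : GOk D G₂) {ψ : E n → ℂ} (hψ : ContDiffOn ℝ ∞ ψ D) {k : ℕ}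
    (he : Van D k (eik G₂ ψ)) (hG : ∀ j l, Van D k (fun x => G₁ x j l - G₂ x j l)) :
    Van D k (eik G₁ ψ) := by
  have hp : ∀ j, ContDiffOn ℝ ∞ (pd j ψ) D := fun j => hD.pd_smooth hψ j
  have hd : ∀ j l, ContDiffOn ℝ ∞ (fun x => G₁ x j l - G₂ x j l) D :=
    fun j l => (g₁.smG j l).sub (g₂.smG j l)
  have hdC : ∀ j l, ContDiffOn ℝ ∞ (fun x => ((G₁ x j l - G₂ x j l : ℝ) : ℂ)) D :=
    fun j l => dk_smooth_C (hd j l)
  have hvC : ∀ j l, Van D k (fun x => ((G₁ x j l - G₂ x j l : ℝ) : ℂ)) :=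
    fun j l => dk_van_C hD (hd j l) (hG j l)
  have s2 : ∀ j l, ContDiffOn ℝ ∞
      (fun x => ((G₁ x j l - G₂ x j l : ℝ) : ℂ) * pd j ψ x * pd l ψ x) D :=
    fun j l => ((hdC j l).mul (hp j)).mul (hp l)
  have v2 : ∀ j l, Van D k
      (fun x => ((G₁ x j l - G₂ x j l : ℝ) : ℂ) * pd j ψ x * pd l ψ x) := fun j l =>
    Van.bil (k := k) (l := 0) hD dc_bil_mulC ((hdC j l).mul (hp j)) (hp l)
      (Van.bil (k := k) (l := 0) hD dc_bil_mulC (hdC j l) (hp j) (hvC j l) (van_zero _))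
      (van_zero _)
  have v3 : Van D k
      (fun x => ∑ j, ∑ l, ((G₁ x j l - G₂ x j l : ℝ) : ℂ) * pd j ψ x * pd l ψ x) :=
    Van.sum hD _ (fun j _ => dc_smooth_sum _ fun l _ => s2 j l)
      fun j _ => Van.sum hD _ (fun l _ => s2 j l) fun l _ => v2 j l
  refine (Van.add hD (dr_smooth_eik hD g₂ hψ) (dc_smooth_sum _ fun j _ => dc_smooth_sum _
    fun l _ => s2 j l) he v3).congr hD fun x _ => ?_
  simp only [eik, ← Finset.sum_add_distrib]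
  refine Finset.sum_congr rfl fun j _ => Finset.sum_congr rfl fun l _ => ?_
  push_cast
  ring

theorem e8_Mop_other (hD : RelOpen D) {G₁ G₂ : E n → Matrix (Fin n) (Fin n) ℝ}
    {B₁ B₂ : Fin n → E n → EndF N} (g₁ : GOk D G₁) (g₂ : GOk D G₂)
    (hB₁ : ∀ j, ContDiffOn ℝ ∞ (B₁ j) D) (hB₂ : ∀ j, ContDiffOn ℝ ∞ (B₂ j) D) {ψ : E n → ℂ}
    (hψ : ContDiffOn ℝ ∞ ψ D) {a : E n → Fib N} (ha : ContDiffOn ℝ ∞ a D) {m : ℕ}
    (hG : ∀ j l, Van D (m + 1) (fun x => G₁ x j l - G₂ x j l))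
    (hB : ∀ j, Van D m (fun x => B₁ j x - B₂ j x)) :
    Van D m (fun x => Mop G₁ B₁ ψ a x - Mop G₂ B₂ ψ a x) := by
  have hp : ∀ j, ContDiffOn ℝ ∞ (pd j ψ) D := fun j => hD.pd_smooth hψ j
  have hpa : ∀ j, ContDiffOn ℝ ∞ (pd j a) D := fun j => hD.pd_smooth ha j
  have hd : ∀ j l, ContDiffOn ℝ ∞ (fun x => G₁ x j l - G₂ x j l) D :=
    fun j l => (g₁.smG j l).sub (g₂.smG j l)
  have hdC : ∀ j l, ContDiffOn ℝ ∞ (fun x => ((G₁ x j l - G₂ x j l : ℝ) : ℂ)) D :=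
    fun j l => dk_smooth_C (hd j l)
  have hvC : ∀ j l, Van D (m + 1) (fun x => ((G₁ x j l - G₂ x j l : ℝ) : ℂ)) :=
    fun j l => dk_van_C hD (hd j l) (hG j l)
  have sGp : ∀ {G : E n → Matrix (Fin n) (Fin n) ℝ}, GOk D G → ∀ j k,
      ContDiffOn ℝ ∞ (fun x => (G x j k : ℂ) * pd k ψ x) D := fun g j k =>
    dc_smooth_bil dc_bil_mulC (dk_smooth_C (g.smG j k)) (hp k)
  have sdp : ∀ j k, ContDiffOn ℝ ∞ (fun x => ((G₁ x j k - G₂ x j k : ℝ) : ℂ) * pd k ψ x) D :=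
    fun j k => dc_smooth_bil dc_bil_mulC (hdC j k) (hp k)
  have vdp : ∀ j k, Van D (m + 1) (fun x => ((G₁ x j k - G₂ x j k : ℝ) : ℂ) * pd k ψ x) :=
    fun j k => Van.bil (k := m + 1) (l := 0) hD dc_bil_mulC (hdC j k) (hp k) (hvC j k) (van_zero _)
  have sds : ∀ j, ContDiffOn ℝ ∞
      (fun x => ∑ k, ((G₁ x j k - G₂ x j k : ℝ) : ℂ) * pd k ψ x) D :=
    fun j => dc_smooth_sum _ fun k _ => sdp j k
  have vds : ∀ j, Van D (m + 1)
      (fun x => ∑ k, ((G₁ x j k - G₂ x j k : ℝ) : ℂ) * pd k ψ x) :=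
    fun j => Van.sum hD _ (fun k _ => sdp j k) fun k _ => vdp j k
  have sT1' : ContDiffOn ℝ ∞ (fun x => ∑ j, pd j
      (fun y => ∑ k, ((G₁ y j k - G₂ y j k : ℝ) : ℂ) * pd k ψ y) x) D :=
    dc_smooth_sum _ fun j _ => hD.pd_smooth (sds j) j
  have sT1 : ContDiffOn ℝ ∞ (fun x => (∑ j, pd j
      (fun y => ∑ k, ((G₁ y j k - G₂ y j k : ℝ) : ℂ) * pd k ψ y) x) • a x) D :=
    dc_smooth_bil dc_bil_smulC sT1' ha
  have vT1 : Van D m (fun x => (∑ j, pd j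
      (fun y => ∑ k, ((G₁ y j k - G₂ y j k : ℝ) : ℂ) * pd k ψ y) x) • a x) :=
    Van.bil hD dc_bil_smulC sT1' ha
      (Van.sum hD _ (fun j _ => hD.pd_smooth (sds j) j)
        fun j _ => Van.pd_any hD (sds j) (vds j) j) (van_zero _)
  have sT2' : ∀ j k, ContDiffOn ℝ ∞
      (fun x => (((G₁ x j k - G₂ x j k : ℝ) : ℂ) * pd k ψ x) • pd j a x) D :=
    fun j k => dc_smooth_bil dc_bil_smulC (sdp j k) (hpa j)
  have vT2' : ∀ j k, Van D m
      (fun x => (((G₁ x j k - G₂ x j k : ℝ) : ℂ) * pd k ψ x) • pd j a x) :=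
    fun j k => Van.bil hD dc_bil_smulC (sdp j k) (hpa j) ((vdp j k).mono (by omega)) (van_zero _)
  have sB1 : ∀ j, ContDiffOn ℝ ∞ (fun x => B₁ j x (a x)) D := fun j => smooth_eval (hB₁ j) ha
  have sdB : ∀ j, ContDiffOn ℝ ∞ (fun x => B₁ j x - B₂ j x) D :=
    fun j => (hB₁ j).sub (hB₂ j)
  have sdBa : ∀ j, ContDiffOn ℝ ∞ (fun x => (B₁ j x - B₂ j x) (a x)) D :=
    fun j => smooth_eval (sdB j) ha
  have vdBa : ∀ j, Van D m (fun x => (B₁ j x - B₂ j x) (a x)) :=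
    fun j => Van.bil hD dc_bil_app (sdB j) ha (hB j) (van_zero _)
  have sT3' : ∀ j k, ContDiffOn ℝ ∞
      (fun x => (((G₁ x j k - G₂ x j k : ℝ) : ℂ) * pd k ψ x) • B₁ j x (a x)) D :=
    fun j k => dc_smooth_bil dc_bil_smulC (sdp j k) (sB1 j)
  have vT3' : ∀ j k, Van D m
      (fun x => (((G₁ x j k - G₂ x j k : ℝ) : ℂ) * pd k ψ x) • B₁ j x (a x)) :=
    fun j k => Van.bil hD dc_bil_smulC (sdp j k) (sB1 j) ((vdp j k).mono (by omega)) (van_zero _)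
  have sT4' : ∀ j k, ContDiffOn ℝ ∞
      (fun x => ((G₂ x j k : ℂ) * pd k ψ x) • (B₁ j x - B₂ j x) (a x)) D :=
    fun j k => dc_smooth_bil dc_bil_smulC (sGp g₂ j k) (sdBa j)
  have vT4' : ∀ j k, Van D m
      (fun x => ((G₂ x j k : ℂ) * pd k ψ x) • (B₁ j x - B₂ j x) (a x)) := fun j k => by
    have h := Van.bil hD dc_bil_smulC (sGp g₂ j k) (sdBa j) (van_zero _) (vdBa j)
    rw [zero_add] at h
    exact h
  have sS : ∀ j k, ContDiffOn ℝ ∞ (fun x =>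
      (((G₁ x j k - G₂ x j k : ℝ) : ℂ) * pd k ψ x) • pd j a x +
      ((((G₁ x j k - G₂ x j k : ℝ) : ℂ) * pd k ψ x) • B₁ j x (a x) +
        ((G₂ x j k : ℂ) * pd k ψ x) • (B₁ j x - B₂ j x) (a x))) D :=
    fun j k => (sT2' j k).add ((sT3' j k).add (sT4' j k))
  have vS : ∀ j k, Van D m (fun x =>
      (((G₁ x j k - G₂ x j k : ℝ) : ℂ) * pd k ψ x) • pd j a x +
      ((((G₁ x j k - G₂ x j k : ℝ) : ℂ) * pd k ψ x) • B₁ j x (a x) +
        ((G₂ x j k : ℂ) * pd k ψ x) • (B₁ j x - B₂ j x) (a x))) :=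
    fun j k => Van.add hD (sT2' j k) ((sT3' j k).add (sT4' j k)) (vT2' j k)
      (Van.add hD (sT3' j k) (sT4' j k) (vT3' j k) (vT4' j k))
  have sSS : ContDiffOn ℝ ∞ (fun x => ∑ j, ∑ k,
      ((((G₁ x j k - G₂ x j k : ℝ) : ℂ) * pd k ψ x) • pd j a x +
      ((((G₁ x j k - G₂ x j k : ℝ) : ℂ) * pd k ψ x) • B₁ j x (a x) +
        ((G₂ x j k : ℂ) * pd k ψ x) • (B₁ j x - B₂ j x) (a x)))) D :=
    dc_smooth_sum _ fun j _ => dc_smooth_sum _ fun k _ => sS j k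
  have vSS : Van D m (fun x => ∑ j, ∑ k,
      ((((G₁ x j k - G₂ x j k : ℝ) : ℂ) * pd k ψ x) • pd j a x +
      ((((G₁ x j k - G₂ x j k : ℝ) : ℂ) * pd k ψ x) • B₁ j x (a x) +
        ((G₂ x j k : ℂ) * pd k ψ x) • (B₁ j x - B₂ j x) (a x)))) :=
    Van.sum hD _ (fun j _ => dc_smooth_sum _ fun k _ => sS j k)
      fun j _ => Van.sum hD _ (fun k _ => sS j k) fun k _ => vS j k
  have sC : ContDiffOn ℝ ∞ (fun x => (2 : ℝ) • ∑ j, ∑ k,
      ((((G₁ x j k - G₂ x j k : ℝ) : ℂ) * pd k ψ x) • pd j a x +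
      ((((G₁ x j k - G₂ x j k : ℝ) : ℂ) * pd k ψ x) • B₁ j x (a x) +
        ((G₂ x j k : ℂ) * pd k ψ x) • (B₁ j x - B₂ j x) (a x)))) D := sSS.const_smul (2 : ℝ)
  have vC : Van D m (fun x => (2 : ℝ) • ∑ j, ∑ k,
      ((((G₁ x j k - G₂ x j k : ℝ) : ℂ) * pd k ψ x) • pd j a x +
      ((((G₁ x j k - G₂ x j k : ℝ) : ℂ) * pd k ψ x) • B₁ j x (a x) +
        ((G₂ x j k : ℂ) * pd k ψ x) • (B₁ j x - B₂ j x) (a x)))) :=
    Van.clm hD ((2 : ℝ) • ContinuousLinearMap.id ℝ (Fib N)) sSS vSS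
  refine (Van.add hD sT1 sC vT1 vC).congr hD fun x hx => ?_
  have hpdj : ∀ j, pd j (fun y => ∑ k, (G₁ y j k : ℂ) * pd k ψ y) x =
      pd j (fun y => ∑ k, (G₂ y j k : ℂ) * pd k ψ y) x +
      pd j (fun y => ∑ k, ((G₁ y j k - G₂ y j k : ℝ) : ℂ) * pd k ψ y) x := by
    intro j
    rw [← hD.pd_add (dc_smooth_sum _ fun k _ => sGp g₂ j k) (sds j) hx j]
    refine hD.pd_congr (fun y _ => ?_) hx j
    simp only [← Finset.sum_add_distrib]
    refine Finset.sum_congr rfl fun k _ => ?_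
    push_cast
    ring
  have h2 : ∀ v : Fib N, (2 : ℝ) • v = (2 : ℂ) • v := fun v => by
    rw [← Complex.coe_smul]; norm_num
  simp only [Mop, hpdj, Finset.sum_add_distrib, add_smul, h2, smul_add]
  have e1 : ∀ j k, ((G₁ x j k : ℂ) * pd k ψ x) • pd j a x =
      ((G₂ x j k : ℂ) * pd k ψ x) • pd j a x +
      (((G₁ x j k - G₂ x j k : ℝ) : ℂ) * pd k ψ x) • pd j a x := by
    intro j k
    rw [← add_smul]
    push_cast
    congr 1
    ring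
  have e2 : ∀ j k, ((G₁ x j k : ℂ) * pd k ψ x) • B₁ j x (a x) =
      ((G₂ x j k : ℂ) * pd k ψ x) • B₂ j x (a x) +
      ((((G₁ x j k - G₂ x j k : ℝ) : ℂ) * pd k ψ x) • B₁ j x (a x) +
        ((G₂ x j k : ℂ) * pd k ψ x) • (B₁ j x - B₂ j x) (a x)) := by
    intro j k
    rw [sub_apply, smul_sub]
    push_cast
    module
  simp only [e1, e2, Finset.sum_add_distrib, smul_add]
  abel

theorem e8_van_self {F : Type*} [NormedAddCommGroup F] [NormedSpace ℝ F] (f : E n → F) (k : ℕ) :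
    Van D k (fun x => f x - f x) := by
  intro i _ x hx _
  have e : (fun x => f x - f x) = fun _ => (0 : F) := by funext y; exact sub_self _
  rw [e]
  clear e
  induction i with
  | zero => rfl
  | succ i ih =>
    rw [Function.iterate_succ_apply]
    have e : pd (0 : Fin n) (fun _ : E n => (0 : F)) = fun _ => 0 := by
      funext y; exact pd_const _ _ _
    rw [e]
    exact ih (by omega)

theorem e8_Lop_other (hD : RelOpen D) {G₁ G₂ : E n → Matrix (Fin n) (Fin n) ℝ}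
    {B₁ B₂ : Fin n → E n → EndF N} (g₁ : GOk D G₁) (g₂ : GOk D G₂)
    (hB₁ : ∀ j, ContDiffOn ℝ ∞ (B₁ j) D) (hB₂ : ∀ j, ContDiffOn ℝ ∞ (B₂ j) D)
    {a : E n → Fib N} (ha : ContDiffOn ℝ ∞ a D) {m : ℕ}
    (hG : ∀ j l, Van D (m + 1) (fun x => G₁ x j l - G₂ x j l))
    (hB : ∀ j, Van D m (fun x => B₁ j x - B₂ j x)) :
    Van D m (fun x => LopR G₁ B₁ a x - LopR G₂ B₂ a x) := by
  have hT := dco_T_van hD g₁ g₂ hB₁ hB₂ ha ha (fun j l => (hG j l).mono (Nat.le_succ m)) hB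
    (e8_van_self a (m + 1))
  have sT := (dco_smooth_T hD g₁ hB₁ ha).sub (dco_smooth_T hD g₂ hB₂ ha)
  have hU := fun j => dco_U_van hD g₁ g₂ ha ha hG (e8_van_self a (m + 1 + 1)) j
  have sU := fun j => (dco_smooth_U hD g₁ ha j).sub (dco_smooth_U hD g₂ ha j)
  have v1 : Van D m (fun x => ∑ j, pd j (fun x => dcoU G₁ a j x - dcoU G₂ a j x) x) :=
    Van.sum hD _ (fun j _ => hD.pd_smooth (sU j) j) fun j _ => Van.pd_any hD (sU j) (hU j) j
  have v2 : Van D m (fun x => (2 : ℝ) • (dcoT G₁ B₁ a x - dcoT G₂ B₂ a x)) :=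
    Van.clm hD ((2 : ℝ) • ContinuousLinearMap.id ℝ (Fib N)) sT hT
  refine (Van.add hD (dc_smooth_sum _ fun j _ => hD.pd_smooth (sU j) j)
    (sT.const_smul (2 : ℝ)) v1 v2).congr hD fun x hx => ?_
  simp only [dco_lop_eq]
  have e : ∀ j, pd j (fun x => dcoU G₁ a j x - dcoU G₂ a j x) x =
      pd j (dcoU G₁ a j) x - pd j (dcoU G₂ a j) x := fun j =>
    hD.pd_sub (dco_smooth_U hD g₁ ha j) (dco_smooth_U hD g₂ ha j) hx j
  simp only [e, Finset.sum_sub_distrib, smul_sub]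
  abel

end Vale.Agent.P088.EYM
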