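import Vale.Agent.P088.H4.H823B

set_option linter.all false

/-!
# P088, boundary determination to all orders, analytic half: residuals, limits, pointwise relations
-/

open MeasureTheory Set Filter Topology
open scoped ContDiff

noncomputable section

namespace Vale.Agent.P088.EYM

variable {n : ℕ} [NeZero n] {N : ℕ}
variable {D : Set (E n)}

/-! ### amplitudes -/

theorem e8_ampl (hD : RelOpen D) {G : E n → Matrix (Fin n) (Fin n) ℝ} (hG : GOk D G)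
    {B : Fin n → E n → EndF N} (hB : ∀ j, ContDiffOn ℝ ∞ (B j) D)
    {ξ : Fin n → ℝ} (hξ0 : ξ 0 = 0) (hξ : ξ ≠ 0) {ψ : E n → ℂ} (hψ : IsPhase D G ξ ψ)
    {K : Set (E n)} (hK : IsClosed K) {a₀ : E n → Fib N} (ha : ContDiffOn ℝ ∞ a₀ D)
    (ha0 : ∀ x ∈ Hs n, x ∉ K → a₀ x = 0) (m : ℕ) :
    ∃ A : ℕ → E n → Fib N, (∀ i, ContDiffOn ℝ ∞ (A i) D) ∧
      (∀ i, ∀ x ∈ Hs n, x ∉ K → A i x = 0) ∧ (∀ x ∈ D, x 0 = 0 → A 0 x = a₀ x) ∧
      Van D m (Mop G B ψ (A 0)) ∧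
      ∀ i, Van D m (fun x => Mop G B ψ (A (i + 1)) x + LopR G B (A i) x) := by
  obtain ⟨b, sb, zb, eb, vb⟩ := e8_solve (B := B) hD hG hB hξ0 hξ hψ hK
    (f := fun _ => (0 : Fib N)) contDiffOn_const (fun _ _ _ => rfl) ha ha0 m
  let S := {a : E n → Fib N // ContDiffOn ℝ ∞ a D ∧ ∀ x ∈ Hs n, x ∉ K → a x = 0}
  have step : ∀ a : S, ∃ c : S, Van D m (fun x => Mop G B ψ c.1 x + LopR G B a.1 x) := by
    rintro ⟨a, sa, za⟩
    obtain ⟨c, sc, zc, _, vc⟩ := e8_solve (B := B) hD hG hB hξ0 hξ hψ hK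
      (f := LopR G B a) (dr_smooth_lop hD hG hB sa) (dr_lop_supp hK za)
      (a₀ := fun _ => (0 : Fib N)) contDiffOn_const (fun _ _ _ => rfl) m
    exact ⟨⟨c, sc, zc⟩, vc⟩
  choose nx hnx using step
  let A : ℕ → S := fun i => Nat.rec (⟨b, sb, zb⟩ : S) (fun _ a => nx a) i
  refine ⟨fun i => (A i).1, fun i => (A i).2.1, fun i => (A i).2.2, eb, ?_, fun i => hnx (A i)⟩
  exact Van.congr hD vb fun x _ => add_zero _

/-! ### the residual -/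

theorem e8_pow_exp {δ : ℝ} (hδ : 0 < δ) (k : ℕ) :
    ∃ C : ℝ, 0 ≤ C ∧ ∀ T : ℝ, 0 ≤ T → T ^ k ≤ C * Real.exp (δ * T) := by
  refine ⟨(k.factorial : ℝ) / δ ^ k, by positivity, fun T hT => ?_⟩
  have h := Real.pow_div_factorial_le_exp (δ * T) (by positivity) k
  have hk : (0 : ℝ) < k.factorial := by exact_mod_cast Nat.factorial_pos k
  rw [div_le_iff₀ hk, mul_pow] at h
  have hd : (0 : ℝ) < δ ^ k := by positivity
  rw [div_mul_eq_mul_div, le_div_iff₀ hd]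
  linarith

theorem e8_arith {t s x δ C1 S4 C2 S3 C5 P1 P2 : ℝ} {m : ℕ} (ht : 1 ≤ t) (hts : t * s = 1)
    (hs0 : 0 < s) (hx0 : 0 ≤ x) (hδ : 0 < δ) (hC1 : 0 ≤ C1) (hS4 : 0 ≤ S4) (hC2 : 0 ≤ C2)
    (hS3 : 0 ≤ S3) (hC5 : 0 ≤ C5)
    (p1 : (t * x) ^ (m + 1) ≤ P1 * Real.exp (δ / 2 * (t * x)))
    (p2 : (t * x) ^ m ≤ P2 * Real.exp (δ / 2 * (t * x))) :
    Real.exp (-(δ * (t * x))) * (t ^ 2 * (C1 * x ^ (m + 1)) * S4 + (t * (C2 * x ^ m) +
      S3 * x ^ m + s ^ m * C5)) ≤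
      (C1 * S4 * P1 + (C2 + S3) * P2 + C5) * (s ^ m * t) * Real.exp (-(δ / 2 * (t * x))) := by
  have ht0 : 0 < t := by linarith
  have hT0 : 0 ≤ t * x := by positivity
  have hsm : 0 < s ^ m := by positivity
  have h1 : s ^ m * t ^ m = 1 := by rw [← mul_pow, mul_comm s t, hts, one_pow]
  have r1 : t ^ 2 * x ^ (m + 1) = (s ^ m * t) * (t * x) ^ (m + 1) := by
    calc t ^ 2 * x ^ (m + 1) = (s ^ m * t ^ m) * (t ^ 2 * x ^ (m + 1)) := by rw [h1, one_mul]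
      _ = _ := by rw [mul_pow]; ring
  have r2 : t * x ^ m = (s ^ m * t) * (t * x) ^ m := by
    calc t * x ^ m = (s ^ m * t ^ m) * (t * x ^ m) := by rw [h1, one_mul]
      _ = _ := by rw [mul_pow]; ring
  have r3 : x ^ m ≤ (s ^ m * t) * (t * x) ^ m := by
    rw [← r2]
    have := pow_nonneg hx0 m
    exact le_mul_of_one_le_left this ht
  have r4 : s ^ m ≤ s ^ m * t := le_mul_of_one_le_right hsm.le ht
  have hE : 1 ≤ Real.exp (δ / 2 * (t * x)) := Real.one_le_exp (by positivity)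
  obtain ⟨E, hEd⟩ : ∃ E, E = Real.exp (δ / 2 * (t * x)) := ⟨_, rfl⟩
  rw [← hEd] at p1 p2 hE
  have q7 : t ^ 2 * (C1 * x ^ (m + 1)) * S4 + (t * (C2 * x ^ m) + S3 * x ^ m + s ^ m * C5) ≤
      (s ^ m * t) * ((C1 * S4 * P1 + (C2 + S3) * P2 + C5) * E) := by
    have u1 : t ^ 2 * (C1 * x ^ (m + 1)) * S4 ≤ (s ^ m * t) * (C1 * S4 * (P1 * E)) := by
      calc t ^ 2 * (C1 * x ^ (m + 1)) * S4 = (s ^ m * t) * (C1 * S4 * (t * x) ^ (m + 1)) := by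
            linear_combination (C1 * S4) * r1
        _ ≤ _ := by gcongr
    have u2 : t * (C2 * x ^ m) ≤ (s ^ m * t) * (C2 * (P2 * E)) := by
      calc t * (C2 * x ^ m) = (s ^ m * t) * (C2 * (t * x) ^ m) := by
            linear_combination C2 * r2
        _ ≤ _ := by gcongr
    have u3 : S3 * x ^ m ≤ (s ^ m * t) * (S3 * (P2 * E)) := by
      calc S3 * x ^ m ≤ S3 * ((s ^ m * t) * (t * x) ^ m) := mul_le_mul_of_nonneg_left r3 hS3
        _ = (s ^ m * t) * (S3 * (t * x) ^ m) := by ring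
        _ ≤ _ := by gcongr
    have u4 : s ^ m * C5 ≤ (s ^ m * t) * (C5 * E) := by
      calc s ^ m * C5 ≤ (s ^ m * t) * C5 := mul_le_mul_of_nonneg_right r4 hC5
        _ ≤ (s ^ m * t) * (C5 * E) := by
            refine mul_le_mul_of_nonneg_left ?_ (by positivity)
            exact le_mul_of_one_le_right hC5 hE
    calc _ ≤ (s ^ m * t) * (C1 * S4 * (P1 * E)) + ((s ^ m * t) * (C2 * (P2 * E)) +
          (s ^ m * t) * (S3 * (P2 * E)) + (s ^ m * t) * (C5 * E)) :=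
          add_le_add u1 (add_le_add (add_le_add u2 u3) u4)
      _ = _ := by ring
  refine (mul_le_mul_of_nonneg_left q7 (Real.exp_nonneg _)).trans (le_of_eq ?_)
  have h2 : Real.exp (-(δ * (t * x))) * E = Real.exp (-(δ / 2 * (t * x))) := by
    rw [hEd, ← Real.exp_add]
    congr 1
    ring
  rw [← h2]
  ring

section Resid

variable {G : E n → Matrix (Fin n) (Fin n) ℝ} {B : Fin n → E n → EndF N} {ψ : E n → ℂ}
  {A : ℕ → E n → Fib N}

/-- the transport sum -/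
theorem e8_transp (hD : RelOpen D) (hG : GOk D G)
    (hB : ∀ j, ContDiffOn ℝ ∞ (B j) D) (hA : ∀ i, ContDiffOn ℝ ∞ (A i) D) (m : ℕ) {t s : ℝ}
    (hts : t * s = 1) {x : E n} (hx : x ∈ D) :
    (t : ℂ) • Mop G B ψ (fun y => ∑ i ∈ Finset.range (m + 1), s ^ i • A i y) x +
      LopR G B (fun y => ∑ i ∈ Finset.range (m + 1), s ^ i • A i y) x = t • Mop G B ψ (A 0) x +
      (∑ i ∈ Finset.range m, s ^ i • (Mop G B ψ (A (i + 1)) x + LopR G B (A i) x)) +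
      s ^ m • LopR G B (A m) x := by
  rw [e8_Mop_sum (G := G) (B := B) (ψ := ψ) hD (Finset.range (m + 1)) (fun i => s ^ i)
      (a := A) (fun i _ => hA i) hx,
    e8_Lop_sum hD hG hB (Finset.range (m + 1)) (fun i => s ^ i) (a := A) (fun i _ => hA i) hx,
    Complex.coe_smul, Finset.sum_range_succ', Finset.sum_range_succ _ m, smul_add,
    Finset.smul_sum]
  have e6 : ∀ i, t • s ^ (i + 1) • Mop G B ψ (A (i + 1)) x =
      s ^ i • Mop G B ψ (A (i + 1)) x := by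
    intro i
    rw [smul_smul, pow_succ', ← mul_assoc, hts, one_mul]
  simp only [e6, smul_add, Finset.sum_add_distrib, pow_zero, one_smul]
  abel

theorem e8_sum_bound {u : ℕ → Fib N} {C : ℕ → ℝ} {s w : ℝ} (m : ℕ) (hs0 : 0 < s) (hs1 : s ≤ 1)
    (hw : 0 ≤ w) (h : ∀ i, ‖u i‖ ≤ C i * w) :
    ‖∑ i ∈ Finset.range m, s ^ i • u i‖ ≤ (∑ i ∈ Finset.range m, C i) * w := by
  rw [Finset.sum_mul]
  refine (norm_sum_le _ _).trans (Finset.sum_le_sum fun i _ => ?_)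
  rw [norm_smul, Real.norm_of_nonneg (by positivity)]
  calc s ^ i * ‖u i‖ ≤ 1 * (C i * w) := by
        gcongr
        · exact pow_le_one₀ hs0.le hs1
        · exact h i
    _ = C i * w := one_mul _

theorem e8_pt (hD : RelOpen D) (hG : GOk D G)
    (hB : ∀ j, ContDiffOn ℝ ∞ (B j) D)
    (hψ : ContDiffOn ℝ ∞ ψ D) (hA : ∀ i, ContDiffOn ℝ ∞ (A i) D)
    {K : Set (E n)} (hK : IsCompact K) (hKD : K ⊆ D) {δ : ℝ} (hδ : 0 < δ)
    (hre : ∀ x ∈ K, (ψ x).re ≤ -(δ * x 0)) {m : ℕ} (he : Van D (m + 1) (eik G ψ))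
    (hM0 : Van D m (Mop G B ψ (A 0)))
    (hM : ∀ i, Van D m (fun x => Mop G B ψ (A (i + 1)) x + LopR G B (A i) x)) :
    ∃ C : ℝ, 0 ≤ C ∧ ∀ t : ℝ, 1 ≤ t → ∀ x ∈ K,
      ‖LopR G B (osc ψ (fun x => ∑ i ∈ Finset.range (m + 1), (t⁻¹) ^ i • A i x) t) x‖ ≤
        C * ((t⁻¹) ^ m * t) * Real.exp (-(δ / 2 * (t * x 0))) := by
  obtain ⟨C1, hC1, b1⟩ := dy_van_bound hD (dr_smooth_eik hD hG hψ) he hK hKD
  obtain ⟨C2, hC2, b2⟩ := dy_van_bound hD (da_smooth_Mop hD hG hB hψ (hA 0)) hM0 hK hKD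
  have h3 : ∀ i, ∃ C : ℝ, 0 ≤ C ∧ ∀ x ∈ K,
      ‖Mop G B ψ (A (i + 1)) x + LopR G B (A i) x‖ ≤ C * (x 0) ^ m := fun i =>
    dy_van_bound hD ((da_smooth_Mop hD hG hB hψ (hA (i + 1))).add (dr_smooth_lop hD hG hB (hA i)))
      (hM i) hK hKD
  choose C3 hC3 b3 using h3
  have h4 : ∀ i, ∃ C : ℝ, 0 ≤ C ∧ ∀ x ∈ K, ‖A i x‖ ≤ C := fun i =>
    dr_bdd hK (((hA i).continuousOn).mono hKD)
  choose C4 hC4 b4 using h4
  obtain ⟨C5, hC5, b5⟩ := dr_bdd hK (((dr_smooth_lop hD hG hB (hA m)).continuousOn).mono hKD)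
  obtain ⟨P1, hP1, p1⟩ := e8_pow_exp (half_pos hδ) (m + 1)
  obtain ⟨P2, hP2, p2⟩ := e8_pow_exp (half_pos hδ) m
  have hS3' : 0 ≤ ∑ i ∈ Finset.range m, C3 i := Finset.sum_nonneg fun i _ => hC3 i
  have hS4' : 0 ≤ ∑ i ∈ Finset.range (m + 1), C4 i := Finset.sum_nonneg fun i _ => hC4 i
  refine ⟨C1 * (∑ i ∈ Finset.range (m + 1), C4 i) * P1 +
    (C2 + ∑ i ∈ Finset.range m, C3 i) * P2 + C5, by positivity, fun t ht x hx => ?_⟩
  have ht0 : 0 < t := by linarith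
  have hs0 : 0 < t⁻¹ := inv_pos.2 ht0
  have hs1 : t⁻¹ ≤ 1 := inv_le_one_of_one_le₀ ht
  have hts : t * t⁻¹ = 1 := mul_inv_cancel₀ ht0.ne'
  have hxD := hKD hx
  have hx0 : 0 ≤ x 0 := hD.subset hxD
  have sa : ContDiffOn ℝ ∞ (fun x => ∑ i ∈ Finset.range (m + 1), (t⁻¹) ^ i • A i x) D :=
    dc_smooth_sum _ fun i _ => (hA i).const_smul ((t⁻¹) ^ i)
  rw [do_lopR_osc hD hG hB hψ sa t hxD, norm_smul, Complex.norm_exp, add_assoc,
    e8_transp hD hG hB hA m hts hxD]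
  have q1 : ‖∑ i ∈ Finset.range (m + 1), (t⁻¹) ^ i • A i x‖ ≤
      (∑ i ∈ Finset.range (m + 1), C4 i) * 1 :=
    e8_sum_bound (m + 1) hs0 hs1 zero_le_one fun i => by rw [mul_one]; exact b4 i x hx
  rw [mul_one] at q1
  have q3 := e8_sum_bound (u := fun i => Mop G B ψ (A (i + 1)) x + LopR G B (A i) x) (C := C3)
    m hs0 hs1 (pow_nonneg hx0 m) fun i => b3 i x hx
  have q4 : ‖(t⁻¹) ^ m • LopR G B (A m) x‖ ≤ (t⁻¹) ^ m * C5 := by
    rw [norm_smul, Real.norm_of_nonneg (by positivity)]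
    exact mul_le_mul_of_nonneg_left (b5 x hx) (by positivity)
  have q2 : ‖t • Mop G B ψ (A 0) x‖ ≤ t * (C2 * (x 0) ^ m) := by
    rw [norm_smul, Real.norm_of_nonneg ht0.le]
    exact mul_le_mul_of_nonneg_left (b2 x hx) ht0.le
  have q5 : ‖((t : ℂ) ^ 2 * eik G ψ x) • ∑ i ∈ Finset.range (m + 1), (t⁻¹) ^ i • A i x‖ ≤
      t ^ 2 * (C1 * (x 0) ^ (m + 1)) * ∑ i ∈ Finset.range (m + 1), C4 i := by
    rw [norm_smul, norm_mul, norm_pow, Complex.norm_real, Real.norm_eq_abs, abs_of_pos ht0]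
    exact mul_le_mul (mul_le_mul_of_nonneg_left (b1 x hx) (by positivity)) q1
      (norm_nonneg _) (by positivity)
  have q6 := (norm_add_le (((t : ℂ) ^ 2 * eik G ψ x) • ∑ i ∈ Finset.range (m + 1),
    (t⁻¹) ^ i • A i x) (t • Mop G B ψ (A 0) x +
      (∑ i ∈ Finset.range m, (t⁻¹) ^ i • (Mop G B ψ (A (i + 1)) x + LopR G B (A i) x)) +
      (t⁻¹) ^ m • LopR G B (A m) x)).trans (add_le_add q5
    ((norm_add_le _ _).trans (add_le_add ((norm_add_le _ _).trans (add_le_add q2 q3)) q4)))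
  have q9 : Real.exp ((t : ℂ) * ψ x).re ≤ Real.exp (-(δ * (t * x 0))) := by
    refine Real.exp_le_exp.2 ?_
    have : ((t : ℂ) * ψ x).re = t * (ψ x).re := by simp
    rw [this]
    nlinarith [mul_le_mul_of_nonneg_left (hre x hx) ht0.le]
  refine (mul_le_mul q9 q6 (norm_nonneg _) (Real.exp_nonneg _)).trans ?_
  exact e8_arith ht hts hs0 hx0 hδ hC1 hS4' hC2 hS3' hC5 (p1 _ (by positivity))
    (p2 _ (by positivity))

theorem e8_resid (hD : RelOpen D) (hG : GOk D G)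
    (hB : ∀ j, ContDiffOn ℝ ∞ (B j) D)
    (hψ : ContDiffOn ℝ ∞ ψ D) (hA : ∀ i, ContDiffOn ℝ ∞ (A i) D)
    {K : Set (E n)} (hK : IsCompact K) (hKD : K ⊆ D)
    (hA0 : ∀ i, ∀ x ∈ Hs n, x ∉ K → A i x = 0) {δ : ℝ} (hδ : 0 < δ)
    (hre : ∀ x ∈ K, (ψ x).re ≤ -(δ * x 0)) {m : ℕ} (he : Van D (m + 1) (eik G ψ))
    (hM0 : Van D m (Mop G B ψ (A 0)))
    (hM : ∀ i, Van D m (fun x => Mop G B ψ (A (i + 1)) x + LopR G B (A i) x)) :
    ∃ C : ℝ, 0 ≤ C ∧ ∀ t : ℝ, 1 ≤ t →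
      RsqD D G B (osc ψ (fun x => ∑ i ∈ Finset.range (m + 1), (t⁻¹) ^ i • A i x) t) ≤
        C / t ^ (2 * m + 1) := by
  have hDH : D ⊆ Hs n := fun x hx => hD.subset hx
  obtain ⟨C6, hC6, hnb⟩ := e8_pt hD hG hB hψ hA hK hKD hδ hre he hM0 hM
  obtain ⟨I, hI, i1⟩ := ds_pow_exp_bound hK (hKD.trans hDH) hδ 2
  refine ⟨C6 ^ 2 * I, by positivity, fun t ht => ?_⟩
  have ht0 : 0 < t := by linarith
  obtain ⟨a, ha⟩ : ∃ a : E n → Fib N, a = fun x => ∑ i ∈ Finset.range (m + 1),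
    (t⁻¹) ^ i • A i x := ⟨_, rfl⟩
  have hnb' := hnb t ht
  rw [← ha] at hnb' ⊢
  have a0 : ∀ x ∈ Hs n, x ∉ K → a x = 0 := fun x hx hxK => by
    rw [ha]
    exact Finset.sum_eq_zero fun i _ => by rw [hA0 i x hx hxK, smul_zero]
  have e1 : RsqD D G B (osc ψ a t) = ∫ x in K, (x 0) ^ 2 * ‖LopR G B (osc ψ a t) x‖ ^ 2 := by
    unfold RsqD
    refine setIntegral_eq_of_subset_of_forall_sdiff_eq_zero (dc_meas hD) hKD fun x hx => ?_
    have : LopR G B (osc ψ a t) x = 0 :=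
      dr_lop_supp hK.isClosed (fun y hy hyK => by unfold osc; rw [a0 y hy hyK, smul_zero])
        x (hDH hx.1) hx.2
    rw [this]; simp
  have e2 : ∫ x in K, (x 0) ^ 2 * ‖LopR G B (osc ψ a t) x‖ ^ 2 ≤
      ∫ x in K, (C6 * ((t⁻¹) ^ m * t)) ^ 2 * ((x 0) ^ 2 * Real.exp (-(δ * t * x 0))) := by
    refine integral_mono_of_nonneg (Filter.Eventually.of_forall fun x => by positivity) ?_ ?_
    · refine ContinuousOn.integrableOn_compact hK (Continuous.continuousOn ?_)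
      fun_prop
    · refine (ae_restrict_iff' hK.measurableSet).2 (Filter.Eventually.of_forall fun x hx => ?_)
      have h1 := pow_le_pow_left₀ (norm_nonneg _) (hnb' x hx) 2
      rw [mul_pow, ← Real.exp_nat_mul] at h1
      have e : ((2 : ℕ) : ℝ) * -(δ / 2 * (t * x 0)) = -(δ * t * x 0) := by push_cast; ring
      rw [e] at h1
      refine (mul_le_mul_of_nonneg_left h1 (sq_nonneg (x 0))).trans (le_of_eq ?_)
      ring
  rw [e1]
  refine e2.trans ?_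
  rw [integral_const_mul]
  refine (mul_le_mul_of_nonneg_left (i1 t ht) (by positivity)).trans (le_of_eq ?_)
  have h5 : (t⁻¹) ^ m * t ^ m = 1 := by rw [← mul_pow, inv_mul_cancel₀ ht0.ne', one_pow]
  have h6 : ((t⁻¹) ^ m) ^ 2 * t ^ (2 * m) = 1 := by
    rw [mul_comm 2 m, pow_mul, ← mul_pow, h5, one_pow]
  have h7 : t ^ (2 * m) ≠ 0 := by positivity
  rw [eq_div_iff (by positivity), mul_pow, mul_pow]
  have h8 : t ^ (2 * m + 1) = t ^ (2 * m) * t := by ring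
  rw [h8]
  have h9 : I / t ^ (2 + 1) * t ^ 3 = I := by
    field_simp
  calc C6 ^ 2 * (((t⁻¹) ^ m) ^ 2 * t ^ 2) * (I / t ^ (2 + 1)) * (t ^ (2 * m) * t) =
      C6 ^ 2 * (((t⁻¹) ^ m) ^ 2 * t ^ (2 * m)) * (I / t ^ (2 + 1) * t ^ 3) := by ring
    _ = C6 ^ 2 * I := by rw [h6, h9, mul_one]

end Resid

end Vale.Agent.P088.EYM
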