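import Vale.Agent.P088.H4.H823C

set_option linter.all false

/-!
# P088, boundary determination to all orders, analytic half: limits and pointwise relations
-/

open MeasureTheory Set Filter Topology
open scoped ContDiff

noncomputable section

namespace Vale.Agent.P088.EYM

variable {n : ℕ} [NeZero n] {N : ℕ}
variable {D : Set (E n)}

/-! ### energy forms of sums -/

theorem e8_DcB_sum (hD : RelOpen D) {B : Fin n → E n → EndF N} (s : Finset ℕ) (r : ℕ → ℝ)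
    {u : ℕ → E n → Fib N} (hu : ∀ i, ContDiffOn ℝ ∞ (u i) D) {x : E n} (hx : x ∈ D) (j : Fin n) :
    DcB B j (fun y => ∑ i ∈ s, r i • u i y) x = ∑ i ∈ s, r i • DcB B j (u i) x := by
  unfold DcB
  rw [hD.pd_sum s (fun i _ => (hu i).const_smul (r i)) hx, map_sum, ← Finset.sum_add_distrib]
  refine Finset.sum_congr rfl fun i _ => ?_
  rw [hD.pd_const_smul (r i) (hu i) hx j, ContinuousLinearMap.map_smul_of_tower, smul_add]

theorem e8_inner_sum (h : EndF N) (s : Finset ℕ) (r : ℕ → ℝ) (u v : ℕ → Fib N) :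
    (inner ℂ (∑ i ∈ s, r i • u i) (h (∑ i ∈ s, r i • v i)) : ℂ) =
      ∑ i ∈ s, ∑ j ∈ s, ((r i * r j : ℝ) : ℂ) * inner ℂ (u i) (h (v j)) := by
  rw [map_sum, sum_inner]
  refine Finset.sum_congr rfl fun i _ => ?_
  rw [inner_sum]
  refine Finset.sum_congr rfl fun j _ => ?_
  rw [ContinuousLinearMap.map_smul_of_tower, ← Complex.coe_smul, ← Complex.coe_smul,
    inner_smul_left, inner_smul_right, Complex.conj_ofReal]
  push_cast
  ring

theorem e8_Q0_sum (hD : RelOpen D) {G : E n → Matrix (Fin n) (Fin n) ℝ}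
    {B : Fin n → E n → EndF N} {h : E n → EndF N} (s : Finset ℕ) (r : ℕ → ℝ)
    {u v : ℕ → E n → Fib N} (hu : ∀ i, ContDiffOn ℝ ∞ (u i) D)
    (hv : ∀ i, ContDiffOn ℝ ∞ (v i) D) {x : E n} (hx : x ∈ D) :
    Q0 G B h (fun y => ∑ i ∈ s, r i • u i y) (fun y => ∑ i ∈ s, r i • v i y) x =
      ∑ i ∈ s, ∑ j ∈ s, ((r i * r j : ℝ) : ℂ) * Q0 G B h (u i) (v j) x := by
  unfold Q0
  have h1 : ∀ j k, (G x j k : ℂ) * inner ℂ (DcB B j (fun y => ∑ i ∈ s, r i • u i y) x)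
      (h x (DcB B k (fun y => ∑ i ∈ s, r i • v i y) x)) =
      ∑ i ∈ s, ∑ i' ∈ s, ((r i * r i' : ℝ) : ℂ) * ((G x j k : ℂ) *
        inner ℂ (DcB B j (u i) x) (h x (DcB B k (v i') x))) := by
    intro j k
    rw [e8_DcB_sum hD s r hu hx, e8_DcB_sum hD s r hv hx, e8_inner_sum, Finset.mul_sum]
    refine Finset.sum_congr rfl fun i _ => ?_
    rw [Finset.mul_sum]
    refine Finset.sum_congr rfl fun i' _ => ?_
    ring
  simp only [h1]
  have h2 : ∀ j, ∑ k, ∑ i ∈ s, ∑ i' ∈ s, ((r i * r i' : ℝ) : ℂ) * ((G x j k : ℂ) *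
        inner ℂ (DcB B j (u i) x) (h x (DcB B k (v i') x))) =
      ∑ i ∈ s, ∑ i' ∈ s, ((r i * r i' : ℝ) : ℂ) * ∑ k, ((G x j k : ℂ) *
        inner ℂ (DcB B j (u i) x) (h x (DcB B k (v i') x))) := by
    intro j
    rw [Finset.sum_comm]
    refine Finset.sum_congr rfl fun i _ => ?_
    rw [Finset.sum_comm]
    refine Finset.sum_congr rfl fun i' _ => ?_
    rw [Finset.mul_sum]
  simp only [h2]
  rw [Finset.sum_comm]
  refine Finset.sum_congr rfl fun i _ => ?_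
  rw [Finset.sum_comm]
  refine Finset.sum_congr rfl fun i' _ => ?_
  rw [Finset.mul_sum]

theorem e8_EnD_sum (hD : RelOpen D) {G : E n → Matrix (Fin n) (Fin n) ℝ} (hG : GOk D G)
    {B : Fin n → E n → EndF N} (hB : ∀ j, ContDiffOn ℝ ∞ (B j) D) {h : E n → EndF N}
    (hh : ContDiffOn ℝ ∞ h D) {K : Set (E n)} (hK : IsCompact K) (hKD : K ⊆ D)
    (s : Finset ℕ) (r : ℕ → ℝ) {u v : ℕ → E n → Fib N} (hu : ∀ i, ContDiffOn ℝ ∞ (u i) D)
    (hv : ∀ i, ContDiffOn ℝ ∞ (v i) D) (hu0 : ∀ i, ∀ x ∈ Hs n, x ∉ K → u i x = 0)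
    (hv0 : ∀ i, ∀ x ∈ Hs n, x ∉ K → v i x = 0) :
    EnD D G B h (fun y => ∑ i ∈ s, r i • u i y) (fun y => ∑ i ∈ s, r i • v i y) =
      ∑ i ∈ s, ∑ j ∈ s, ((r i * r j : ℝ) : ℂ) * EnD D G B h (u i) (v j) := by
  have hint : ∀ i j, IntegrableOn (Q0 G B h (u i) (v j)) D := by
    intro i j
    obtain ⟨_, _, s0⟩ := de_smooth_Q hD hG hB hh (ψ := fun _ => (0 : ℂ)) contDiffOn_const
      (hu i) (hv j)
    exact de_integrable hD s0 hK hKD fun x hx hxK =>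
      (de_supp_Q (G := G) (B := B) (h := h) (ψ := fun _ => (0 : ℂ)) hK.isClosed (hu0 i) (hv0 j)
        x hx hxK).2.2
  have e1 : ∀ c c' : E n → Fib N, EnD D G B h c c' = ∫ x in D, Q0 G B h c c' x := fun _ _ => rfl
  rw [e1, setIntegral_congr_fun (dc_meas hD) fun x hx => e8_Q0_sum hD s r hu hv hx]
  simp only [e1]
  rw [integral_finset_sum]
  · refine Finset.sum_congr rfl fun i _ => ?_
    rw [integral_finset_sum]
    · refine Finset.sum_congr rfl fun j _ => ?_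
      rw [integral_const_mul]
    · intro j _
      exact (hint i j).const_mul _
  · intro i _
    exact integrable_finset_sum _ fun j _ => (hint i j).const_mul _

theorem e8_osc_sum {ψ : E n → ℂ} {A : ℕ → E n → Fib N} (s : Finset ℕ) (r : ℕ → ℝ) (t : ℝ) :
    osc ψ (fun x => ∑ i ∈ s, r i • A i x) t = fun x => ∑ i ∈ s, r i • osc ψ (A i) t x := by
  funext x
  unfold osc
  rw [Finset.smul_sum]
  exact Finset.sum_congr rfl fun i _ => smul_comm _ _ _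

section Lim

variable {G₁ G₂ : E n → Matrix (Fin n) (Fin n) ℝ} {B₁ B₂ : Fin n → E n → EndF N}
  {h₁ h₂ : E n → EndF N}

theorem e8_rpow_lim (i j : ℕ) : Tendsto (fun t : ℝ => (((t⁻¹) ^ i * (t⁻¹) ^ j : ℝ) : ℂ)) atTop
    (𝓝 (if i = 0 then (if j = 0 then 1 else 0) else 0)) := by
  have h1 : ∀ k : ℕ, Tendsto (fun t : ℝ => (t⁻¹) ^ k) atTop (𝓝 (if k = 0 then 1 else 0)) := by
    intro k
    rcases Nat.eq_zero_or_pos k with rfl | hk
    · simp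
    · rw [if_neg hk.ne']
      have := tendsto_inv_atTop_zero (𝕜 := ℝ).pow k
      rwa [zero_pow hk.ne'] at this
  have h2 := (h1 i).mul (h1 j)
  have h3 : Tendsto (fun t : ℝ => (((t⁻¹) ^ i * (t⁻¹) ^ j : ℝ) : ℂ)) atTop
      (𝓝 ((((if i = 0 then 1 else 0) * (if j = 0 then 1 else 0) : ℝ)) : ℂ)) :=
    (Complex.continuous_ofReal.tendsto _).comp h2
  convert h3 using 2
  split_ifs <;> simp

/-- the limit with sums of amplitudes is the limit of the leading amplitudes -/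
theorem e8_lim (hD : RelOpen D) (c₁ : CoefD D G₁ B₁ h₁) (c₂ : CoefD D G₂ B₂ h₂)
    {ψ : E n → ℂ} (hψ : ContDiffOn ℝ ∞ ψ D)
    {A A' : ℕ → E n → Fib N} (hA : ∀ i, ContDiffOn ℝ ∞ (A i) D)
    (hA' : ∀ i, ContDiffOn ℝ ∞ (A' i) D) {K : Set (E n)} (hK : IsCompact K) (hKD : K ⊆ D)
    (hA0 : ∀ i, ∀ x ∈ Hs n, x ∉ K → A i x = 0) (hA0' : ∀ i, ∀ x ∈ Hs n, x ∉ K → A' i x = 0)
    (m M : ℕ) {L : ℕ → ℕ → ℂ}
    (hL : ∀ i j, Tendsto (fun t : ℝ => (t : ℂ) ^ m *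
      (EnD D G₁ B₁ h₁ (osc ψ (A i) t) (osc ψ (A' j) t) -
        EnD D G₂ B₂ h₂ (osc ψ (A i) t) (osc ψ (A' j) t))) atTop (𝓝 (L i j))) :
    Tendsto (fun t : ℝ => (t : ℂ) ^ m *
      (EnD D G₁ B₁ h₁ (osc ψ (fun x => ∑ i ∈ Finset.range (M + 1), (t⁻¹) ^ i • A i x) t)
          (osc ψ (fun x => ∑ i ∈ Finset.range (M + 1), (t⁻¹) ^ i • A' i x) t) -
        EnD D G₂ B₂ h₂ (osc ψ (fun x => ∑ i ∈ Finset.range (M + 1), (t⁻¹) ^ i • A i x) t)
          (osc ψ (fun x => ∑ i ∈ Finset.range (M + 1), (t⁻¹) ^ i • A' i x) t))) atTop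
      (𝓝 (L 0 0)) := by
  have so : ∀ (A : ℕ → E n → Fib N) (hA : ∀ i, ContDiffOn ℝ ∞ (A i) D)
      (hA0 : ∀ i, ∀ x ∈ Hs n, x ∉ K → A i x = 0) (t : ℝ),
      (∀ i, ContDiffOn ℝ ∞ (osc ψ (A i) t) D) ∧
        (∀ i, ∀ x ∈ Hs n, x ∉ K → osc ψ (A i) t x = 0) := by
    intro A hA hA0 t
    refine ⟨fun i => (de_tstD_osc hψ (hA i) hK hKD (hA0 i) t).1, fun i x hx hxK => ?_⟩
    unfold osc
    rw [hA0 i x hx hxK, smul_zero]
  have e : ∀ t : ℝ, (t : ℂ) ^ m *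
      (EnD D G₁ B₁ h₁ (osc ψ (fun x => ∑ i ∈ Finset.range (M + 1), (t⁻¹) ^ i • A i x) t)
          (osc ψ (fun x => ∑ i ∈ Finset.range (M + 1), (t⁻¹) ^ i • A' i x) t) -
        EnD D G₂ B₂ h₂ (osc ψ (fun x => ∑ i ∈ Finset.range (M + 1), (t⁻¹) ^ i • A i x) t)
          (osc ψ (fun x => ∑ i ∈ Finset.range (M + 1), (t⁻¹) ^ i • A' i x) t)) =
      ∑ i ∈ Finset.range (M + 1), ∑ j ∈ Finset.range (M + 1),
        (((t⁻¹) ^ i * (t⁻¹) ^ j : ℝ) : ℂ) * ((t : ℂ) ^ m *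
          (EnD D G₁ B₁ h₁ (osc ψ (A i) t) (osc ψ (A' j) t) -
            EnD D G₂ B₂ h₂ (osc ψ (A i) t) (osc ψ (A' j) t))) := by
    intro t
    obtain ⟨s1, z1⟩ := so A hA hA0 t
    obtain ⟨s2, z2⟩ := so A' hA' hA0' t
    rw [e8_osc_sum, e8_osc_sum,
      e8_EnD_sum hD c₁.toGOk c₁.smB c₁.smh hK hKD _ (fun i => (t⁻¹) ^ i) s1 s2 z1 z2,
      e8_EnD_sum hD c₂.toGOk c₂.smB c₂.smh hK hKD _ (fun i => (t⁻¹) ^ i) s1 s2 z1 z2,
      ← Finset.sum_sub_distrib, Finset.mul_sum]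
    refine Finset.sum_congr rfl fun i _ => ?_
    rw [← Finset.sum_sub_distrib, Finset.mul_sum]
    refine Finset.sum_congr rfl fun j _ => ?_
    ring
  simp only [e]
  have h1 : Tendsto (fun t : ℝ => ∑ i ∈ Finset.range (M + 1), ∑ j ∈ Finset.range (M + 1),
        (((t⁻¹) ^ i * (t⁻¹) ^ j : ℝ) : ℂ) * ((t : ℂ) ^ m *
          (EnD D G₁ B₁ h₁ (osc ψ (A i) t) (osc ψ (A' j) t) -
            EnD D G₂ B₂ h₂ (osc ψ (A i) t) (osc ψ (A' j) t)))) atTop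
      (𝓝 (∑ i ∈ Finset.range (M + 1), ∑ j ∈ Finset.range (M + 1),
        (if i = 0 then (if j = 0 then 1 else 0) else 0) * L i j)) :=
    tendsto_finset_sum _ fun i _ => tendsto_finset_sum _ fun j _ =>
      (e8_rpow_lim i j).mul (hL i j)
  have h2 : ∑ i ∈ Finset.range (M + 1), ∑ j ∈ Finset.range (M + 1),
        (if i = 0 then (if j = 0 then (1 : ℂ) else 0) else 0) * L i j = L 0 0 := by
    rw [Finset.sum_eq_single_of_mem 0 (by simp), Finset.sum_eq_single_of_mem 0 (by simp)]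
    · simp
    · intro j _ hj
      simp [hj]
    · intro i _ hi
      simp [hi]
  rw [← h2]
  exact h1

end Lim

end Vale.Agent.P088.EYM
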