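import Vale.Agent.P088.H4.Spec
import Vale.Agent.P088.H820.G3

/-!
# P088, (C1): covariant derivatives of covariant tensors under a change of coordinates

`TrB Q` : an abstract covariant derivative on families indexed by `Q`, compatible with a change of
coordinates; the step `Q ↦ Fin n × Q` adds one covariant index.
-/

set_option linter.all false

open MeasureTheory Set Filter Topology
open scoped ContDiff

noncomputable section

namespace Vale.Agent.P088.EYM.H

variable {n N : ℕ} [NeZero n]

/-- Covariant derivatives `Dd` (on `D`), `Dd'` (on `D'`) of families indexed by `Q`, compatible with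
the change of coordinates `X` and the transformation `A`. -/
structure TrB (Q : Type) [Fintype Q] (D D' : Set (E n)) (X : E n → E n)
    (Dd Dd' : Fin n → (Q → E n → ℝ) → Q → E n → ℝ) (A : Q → Q → E n → ℝ) : Prop where
  smA : ∀ q β, ContDiffOn ℝ ∞ (A q β) D
  leib : ∀ (f : Fin n → E n → ℝ) (s : Fin n → Q → E n → ℝ), (∀ p, ContDiffOn ℝ ∞ (f p) D) →
    (∀ p q, ContDiffOn ℝ ∞ (s p q) D) → ∀ x ∈ D, ∀ a q,
    Dd a (fun q x => ∑ p, f p x * s p q x) q x =
      ∑ p, (pd a (f p) x * s p q x + f p x * Dd a (s p) q x)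
  congr : ∀ s t : Q → E n → ℝ, (∀ q, EqOn (s q) (t q) D) → ∀ x ∈ D, ∀ a q,
    Dd a s q x = Dd a t q x
  cl : ∀ s s' : Q → E n → ℝ, (∀ β, ContDiffOn ℝ ∞ (s' β) D') →
    (∀ q, ∀ x ∈ D, s q x = ∑ β, A q β x * s' β (X x)) → ∀ x ∈ D, ∀ a q,
    Dd a s q x = ∑ o, Jac X x o a * ∑ β, A q β x * Dd' o s' β (X x)

/-- one more covariant index -/
def upD {Q : Type} (g : E n → Matrix (Fin n) (Fin n) ℝ)
    (Dd : Fin n → (Q → E n → ℝ) → Q → E n → ℝ) (a : Fin n) (s : Fin n × Q → E n → ℝ)
    (q : Fin n × Q) (x : E n) : ℝ :=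
  Dd a (fun r => s (q.1, r)) q.2 x - ∑ l, chr g l a q.1 x * s (l, q.2) x

/-- transformation with one more covariant index -/
def upA {Q : Type} (X : E n → E n) (A : Q → Q → E n → ℝ) (q β : Fin n × Q) (x : E n) : ℝ :=
  Jac X x β.1 q.1 * A q.2 β.2 x

theorem trB_base {D D' : Set (E n)} {X : E n → E n} (hD : RelOpen D) (hD' : RelOpen D')
    (hX : ContDiffOn ℝ ∞ X D) (hm : MapsTo X D D') :
    TrB Unit D D' X (fun a s q => pd a (s q)) (fun a s q => pd a (s q)) (fun _ _ _ => 1) := by
  refine ⟨fun _ _ => contDiffOn_const, fun f s hf hs x hx a q => ?_, fun s t h x hx a q => ?_,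
    fun s s' hs' h x hx a q => ?_⟩
  · rw [hD.pd_sum Finset.univ (fun p _ => (hf p).mul (hs p q)) hx]
    refine Finset.sum_congr rfl fun p _ => ?_
    rw [hD.pd_mul (hf p) (hs p q) hx]
    ring
  · exact hD.pd_congr (h q) hx a
  · have h1 : EqOn (s q) (fun x => s' () (X x)) D := fun x hx => by
      rw [h q x hx]
      simp
    rw [hD.pd_congr h1 hx a, hD.pd_comp hD' hX hm (hs' ()) hx a]
    refine Finset.sum_congr rfl fun o _ => ?_
    simp only [smul_eq_mul, one_mul, Finset.univ_unique, Finset.sum_singleton, PUnit.default_eq_unit]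
    rfl

theorem trB_step {Q : Type} [Fintype Q] {D D' : Set (E n)} {X : E n → E n} (hD : RelOpen D)
    (hD' : RelOpen D') (hX : ContDiffOn ℝ ∞ X D) (hm : MapsTo X D D')
    {g g' : E n → Matrix (Fin n) (Fin n) ℝ} (hg' : SmM g' D') (hp : ∀ x ∈ D, (g x).PosDef)
    (hp' : ∀ x ∈ D', (g' x).PosDef) (h : GPull g g' D X)
    {Dd Dd' : Fin n → (Q → E n → ℝ) → Q → E n → ℝ} {A : Q → Q → E n → ℝ}
    (hT : TrB Q D D' X Dd Dd' A) :
    TrB (Fin n × Q) D D' X (upD g Dd) (upD g' Dd') (upA X A) := by
  have sJ : ∀ p j, ContDiffOn ℝ ∞ (fun y => Jac X y p j) D := fun p j =>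
    hD.pd_smooth (coord_smooth hX p) j
  refine ⟨fun q β => (sJ _ _).mul (hT.smA _ _), fun f s hf hs x hx a q => ?_,
    fun s t hst x hx a q => ?_, fun s s' hs' hss x hx a q => ?_⟩
  · unfold upD
    rw [hT.leib f (fun p r => s p (q.1, r)) hf (fun p r => hs p _) x hx a q.2]
    have h1 : ∑ l, chr g l a q.1 x * ∑ p, f p x * s p (l, q.2) x =
        ∑ p, f p x * ∑ l, chr g l a q.1 x * s p (l, q.2) x := by
      simp only [Finset.mul_sum]
      rw [Finset.sum_comm]
      exact Finset.sum_congr rfl fun p _ => Finset.sum_congr rfl fun l _ => by ring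
    rw [h1, ← Finset.sum_sub_distrib]
    refine Finset.sum_congr rfl fun p _ => ?_
    ring
  · unfold upD
    rw [hT.congr (fun r => s (q.1, r)) (fun r => t (q.1, r)) (fun r => hst _) x hx a q.2]
    congr 1
    exact Finset.sum_congr rfl fun l _ => by rw [hst _ hx]
  · obtain ⟨j, q⟩ := q
    -- the auxiliary families
    obtain ⟨sp, hsp⟩ : ∃ sp : Fin n → Q → E n → ℝ,
      sp = fun p q x => ∑ β, A q β x * s' (p, β) (X x) := ⟨_, rfl⟩
    have ssp : ∀ p q, ContDiffOn ℝ ∞ (sp p q) D := by
      intro p q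
      rw [hsp]
      exact ContDiffOn.sum fun β _ => (hT.smA q β).mul ((hs' (p, β)).comp hX hm)
    have e1 : ∀ (l : Fin n) (q : Q), ∀ x ∈ D, s (l, q) x = ∑ p, Jac X x p l * sp p q x := by
      intro l q x hx
      rw [hss (l, q) x hx, Fintype.sum_prod_type, hsp]
      refine Finset.sum_congr rfl fun p _ => ?_
      simp only [upA, Finset.mul_sum]
      exact Finset.sum_congr rfl fun β _ => by ring
    have e2 : Dd a (fun r => s (j, r)) q x =
        ∑ p, (pd a (fun y => Jac X y p j) x * sp p q x + Jac X x p j * Dd a (sp p) q x) := by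
      rw [hT.congr (fun r => s (j, r)) (fun r x => ∑ p, Jac X x p j * sp p r x)
        (fun r x hx => e1 j r x hx) x hx a q]
      exact hT.leib (fun p y => Jac X y p j) sp (fun p => sJ p j) ssp x hx a q
    have e3 : ∀ p, Dd a (sp p) q x =
        ∑ o, Jac X x o a * ∑ β, A q β x * Dd' o (fun β => s' (p, β)) β (X x) := fun p =>
      hT.cl (sp p) (fun β => s' (p, β)) (fun β => hs' _) (fun q x _ => by rw [hsp]) x hx a q
    have hΓ : ∀ p, ∑ l, Jac X x p l * chr g l a j x = pd a (fun y => Jac X y p j) x +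
        ∑ r, (∑ o, Jac X x o a * chr g' p o r (X x)) * Jac X x r j := by
      intro p
      have h1 := congrFun (congrFun (chr_pull hD hD' hm hX hg' hp hp' h hx a) p) j
      rw [Matrix.mul_apply, Matrix.add_apply, Matrix.mul_apply] at h1
      simp only [Matrix.sum_apply, Matrix.smul_apply, smul_eq_mul] at h1
      exact h1
    have e4 : ∑ l, chr g l a j x * s (l, q) x =
        ∑ p, pd a (fun y => Jac X y p j) x * sp p q x +
          ∑ p, (∑ r, (∑ o, Jac X x o a * chr g' p o r (X x)) * Jac X x r j) * sp p q x := by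
      rw [← Finset.sum_add_distrib]
      calc ∑ l, chr g l a j x * s (l, q) x = ∑ l, ∑ p, Jac X x p l * chr g l a j x * sp p q x := by
            refine Finset.sum_congr rfl fun l _ => ?_
            rw [e1 l q x hx, Finset.mul_sum]
            exact Finset.sum_congr rfl fun p _ => by ring
        _ = ∑ p, ∑ l, Jac X x p l * chr g l a j x * sp p q x := Finset.sum_comm
        _ = _ := by
            refine Finset.sum_congr rfl fun p _ => ?_
            rw [← Finset.sum_mul, hΓ p]
            ring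
    have e5 : ∑ p, Jac X x p j * Dd a (sp p) q x =
        ∑ o, Jac X x o a * ∑ p, ∑ β, Jac X x p j * A q β x *
          Dd' o (fun β => s' (p, β)) β (X x) := by
      simp only [e3, Finset.mul_sum]
      rw [Finset.sum_comm]
      refine Finset.sum_congr rfl fun o _ => Finset.sum_congr rfl fun p _ =>
        Finset.sum_congr rfl fun β _ => ?_
      ring
    have e6 : ∑ p, (∑ r, (∑ o, Jac X x o a * chr g' p o r (X x)) * Jac X x r j) * sp p q x =
        ∑ o, Jac X x o a * ∑ r, ∑ β, Jac X x r j * A q β x *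
          ∑ l, chr g' l o r (X x) * s' (l, β) (X x) := by
      simp only [hsp, Finset.mul_sum, Finset.sum_mul]
      calc ∑ p, ∑ β, ∑ r, ∑ o, Jac X x o a * chr g' p o r (X x) * Jac X x r j *
            (A q β x * s' (p, β) (X x))
          = ∑ p, ∑ β, ∑ o, ∑ r, Jac X x o a * chr g' p o r (X x) * Jac X x r j *
            (A q β x * s' (p, β) (X x)) :=
            Finset.sum_congr rfl fun p _ => Finset.sum_congr rfl fun β _ => Finset.sum_comm
        _ = ∑ p, ∑ o, ∑ β, ∑ r, Jac X x o a * chr g' p o r (X x) * Jac X x r j *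
            (A q β x * s' (p, β) (X x)) :=
            Finset.sum_congr rfl fun p _ => Finset.sum_comm
        _ = ∑ o, ∑ p, ∑ β, ∑ r, Jac X x o a * chr g' p o r (X x) * Jac X x r j *
            (A q β x * s' (p, β) (X x)) := Finset.sum_comm
        _ = ∑ o, ∑ p, ∑ r, ∑ β, Jac X x o a * chr g' p o r (X x) * Jac X x r j *
            (A q β x * s' (p, β) (X x)) :=
            Finset.sum_congr rfl fun o _ => Finset.sum_congr rfl fun p _ => Finset.sum_comm
        _ = ∑ o, ∑ r, ∑ p, ∑ β, Jac X x o a * chr g' p o r (X x) * Jac X x r j *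
            (A q β x * s' (p, β) (X x)) :=
            Finset.sum_congr rfl fun o _ => Finset.sum_comm
        _ = ∑ o, ∑ r, ∑ β, ∑ p, Jac X x o a * chr g' p o r (X x) * Jac X x r j *
            (A q β x * s' (p, β) (X x)) :=
            Finset.sum_congr rfl fun o _ => Finset.sum_congr rfl fun r _ => Finset.sum_comm
        _ = _ := by
            refine Finset.sum_congr rfl fun o _ => Finset.sum_congr rfl fun r _ =>
              Finset.sum_congr rfl fun β _ => Finset.sum_congr rfl fun p _ => ?_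
            ring
    show Dd a (fun r => s (j, r)) q x - ∑ l, chr g l a j x * s (l, q) x = _
    rw [e2, e4, Finset.sum_add_distrib, e5, e6]
    have e7 : ∀ o, ∑ β : Fin n × Q, upA X A (j, q) β x * upD g' Dd' o s' β (X x) =
        ∑ p, ∑ β, Jac X x p j * A q β x * Dd' o (fun β => s' (p, β)) β (X x) -
          ∑ r, ∑ β, Jac X x r j * A q β x * ∑ l, chr g' l o r (X x) * s' (l, β) (X x) := by
      intro o
      rw [Fintype.sum_prod_type, ← Finset.sum_sub_distrib]
      refine Finset.sum_congr rfl fun p _ => ?_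
      rw [← Finset.sum_sub_distrib]
      refine Finset.sum_congr rfl fun β _ => ?_
      simp only [upA, upD]
      ring
    simp only [e7, mul_sub, Finset.sum_sub_distrib]
    ring

section Tens

variable {D D' : Set (E n)} {X : E n → E n} {g g' : E n → Matrix (Fin n) (Fin n) ℝ}

/-- `∇T` transforms as a tensor, `T` with two indices -/
theorem nab2_pull (hD : RelOpen D) (hD' : RelOpen D') (hX : ContDiffOn ℝ ∞ X D)
    (hm : MapsTo X D D') (hg' : SmM g' D') (hp : ∀ x ∈ D, (g x).PosDef)
    (hp' : ∀ x ∈ D', (g' x).PosDef) (h : GPull g g' D X)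
    {T T' : Fin n → Fin n → E n → ℝ} (sT' : ∀ p q, ContDiffOn ℝ ∞ (T' p q) D')
    (hT : ∀ j k, ∀ x ∈ D, T j k x = ∑ p, ∑ q, Jac X x p j * Jac X x q k * T' p q (X x))
    {x : E n} (hx : x ∈ D) (a j k : Fin n) :
    nab2 g T a j k x = ∑ o, ∑ p, ∑ q, Jac X x o a * Jac X x p j * Jac X x q k *
      nab2 g' T' o p q (X x) := by
  have b0 := trB_base hD hD' hX hm
  have b1 := trB_step hD hD' hX hm hg' hp hp' h b0
  have b2 := trB_step hD hD' hX hm hg' hp hp' h b1
  have h1 := b2.cl (fun q => T q.1 q.2.1) (fun q => T' q.1 q.2.1) (fun β => sT' _ _)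
    (fun q x hx => by
      rw [hT _ _ x hx]
      simp only [Fintype.sum_prod_type, upA, Finset.univ_unique, Finset.sum_singleton, mul_one])
    x hx a (j, (k, ()))
  have e : ∀ (g : E n → Matrix (Fin n) (Fin n) ℝ) (T : Fin n → Fin n → E n → ℝ) (a j k : Fin n)
      (y : E n), upD g (upD g (fun a s q => pd a (s q))) a (fun q : Fin n × Fin n × Unit =>
        T q.1 q.2.1) (j, (k, ())) y = nab2 g T a j k y := by
    intro g T a j k y
    simp only [upD, nab2, Finset.sum_add_distrib]
    ring
  rw [e] at h1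
  rw [h1]
  refine Finset.sum_congr rfl fun o _ => ?_
  rw [Fintype.sum_prod_type, Finset.mul_sum]
  refine Finset.sum_congr rfl fun p _ => ?_
  rw [Fintype.sum_prod_type, Finset.mul_sum]
  refine Finset.sum_congr rfl fun q _ => ?_
  simp only [Finset.univ_unique, Finset.sum_singleton, PUnit.default_eq_unit]
  rw [e]
  simp only [upA]
  ring

/-- `∇T` transforms as a tensor, `T` with three indices -/
theorem nab3_pull (hD : RelOpen D) (hD' : RelOpen D') (hX : ContDiffOn ℝ ∞ X D)
    (hm : MapsTo X D D') (hg' : SmM g' D') (hp : ∀ x ∈ D, (g x).PosDef)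
    (hp' : ∀ x ∈ D', (g' x).PosDef) (h : GPull g g' D X)
    {T T' : Fin n → Fin n → Fin n → E n → ℝ} (sT' : ∀ p q r, ContDiffOn ℝ ∞ (T' p q r) D')
    (hT : ∀ i j k, ∀ x ∈ D, T i j k x = ∑ p, ∑ q, ∑ r,
      Jac X x p i * Jac X x q j * Jac X x r k * T' p q r (X x))
    {x : E n} (hx : x ∈ D) (a i j k : Fin n) :
    nab3 g T a i j k x = ∑ o, ∑ p, ∑ q, ∑ r, Jac X x o a * Jac X x p i * Jac X x q j *
      Jac X x r k * nab3 g' T' o p q r (X x) := by
  have b0 := trB_base hD hD' hX hm
  have b1 := trB_step hD hD' hX hm hg' hp hp' h b0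
  have b2 := trB_step hD hD' hX hm hg' hp hp' h b1
  have b3 := trB_step hD hD' hX hm hg' hp hp' h b2
  have h1 := b3.cl (fun q => T q.1 q.2.1 q.2.2.1) (fun q => T' q.1 q.2.1 q.2.2.1)
    (fun β => sT' _ _ _)
    (fun q x hx => by
      rw [hT _ _ _ x hx]
      simp only [Fintype.sum_prod_type, upA, Finset.univ_unique, Finset.sum_singleton, mul_one,
        mul_assoc])
    x hx a (i, (j, (k, ())))
  have e : ∀ (g : E n → Matrix (Fin n) (Fin n) ℝ) (T : Fin n → Fin n → Fin n → E n → ℝ)
      (a i j k : Fin n) (y : E n), upD g (upD g (upD g (fun a s q => pd a (s q)))) a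
        (fun q : Fin n × Fin n × Fin n × Unit => T q.1 q.2.1 q.2.2.1) (i, (j, (k, ()))) y =
          nab3 g T a i j k y := by
    intro g T a i j k y
    simp only [upD, nab3, Finset.sum_add_distrib]
    ring
  rw [e] at h1
  rw [h1]
  refine Finset.sum_congr rfl fun o _ => ?_
  rw [Fintype.sum_prod_type, Finset.mul_sum]
  refine Finset.sum_congr rfl fun p _ => ?_
  rw [Fintype.sum_prod_type, Finset.mul_sum]
  refine Finset.sum_congr rfl fun q _ => ?_
  rw [Fintype.sum_prod_type, Finset.mul_sum]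
  refine Finset.sum_congr rfl fun r _ => ?_
  simp only [Finset.univ_unique, Finset.sum_singleton, PUnit.default_eq_unit]
  rw [e]
  simp only [upA]
  ring

end Tens

end Vale.Agent.P088.EYM.H
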