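import Vale.Agent.P088.H4.HarmDef
import Vale.Agent.P088.H4.Bd4
import Vale.Agent.P088.H820.Fam

/-!
# P088, fourth order class: the right hand side for harmonic curvature is natural
-/

open Manifold MeasureTheory Set Filter Topology
open scoped ContDiff Matrix

noncomputable section

set_option synthInstance.maxSize 4000

namespace Vale.Agent.P088.B

variable {n N : ℕ}

/-! ### covariance -/

theorem trc_cov {M : Fin n → Fin n → Matrix (Fin n) (Fin n) ℝ} {J C : Matrix (Fin n) (Fin n) ℝ}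
    (hJ : IsUnit J) :
    trc (fun i j => ∑ a, ∑ b, (J a i * J b j) • (J⁻¹ * M a b * C)) = Jᵀ * trc M * C := by
  have hdet : IsUnit J.det := (Matrix.isUnit_iff_isUnit_det J).1 hJ
  have key : ∀ a b k, ∑ i, J a i * (J⁻¹ * M a b * C) i k = (M a b * C) a k := by
    intro a b k
    have h1 : J * (J⁻¹ * M a b * C) = M a b * C := by
      rw [Matrix.mul_assoc, ← Matrix.mul_assoc, Matrix.mul_nonsing_inv _ hdet, Matrix.one_mul]
    rw [← Matrix.mul_apply, h1]
  ext j k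
  have hL : trc (fun i j => ∑ a, ∑ b, (J a i * J b j) • (J⁻¹ * M a b * C)) j k =
      ∑ a, ∑ b, J b j * (M a b * C) a k := by
    unfold trc
    simp only [Matrix.sum_apply, Matrix.smul_apply, smul_eq_mul]
    rw [Finset.sum_comm]
    refine Finset.sum_congr rfl fun a _ => ?_
    rw [Finset.sum_comm]
    refine Finset.sum_congr rfl fun b _ => ?_
    rw [← key a b k, Finset.mul_sum]
    refine Finset.sum_congr rfl fun i _ => ?_
    ring
  have hR : (Jᵀ * trc M * C) j k = ∑ a, ∑ b, J b j * (M a b * C) a k := by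
    rw [Matrix.mul_assoc, Matrix.mul_apply, Finset.sum_comm]
    refine Finset.sum_congr rfl fun b _ => ?_
    rw [Matrix.transpose_apply, Matrix.mul_apply, ← Finset.mul_sum]
    congr 1
    simp only [Matrix.mul_apply, trc, Finset.sum_mul]
    rw [Finset.sum_comm]
  rw [hL, hR]

theorem inv_cov (G : Matrix (Fin n) (Fin n) ℝ) (J : Matrix (Fin n) (Fin n) ℝ) :
    (Jᵀ * G * J)⁻¹ = J⁻¹ * G⁻¹ * (Jᵀ)⁻¹ := by
  rw [Matrix.mul_inv_rev, Matrix.mul_inv_rev, Matrix.mul_assoc]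

theorem upK_cov (G : Matrix (Fin n) (Fin n) ℝ) (K : Fin n → Fin n → Matrix (Fin n) (Fin n) ℝ)
    {J : Matrix (Fin n) (Fin n) ℝ} (hJ : IsUnit J) :
    upK (Jᵀ * G * J) (fun i j => ∑ a, ∑ b, (J a i * J b j) • (Jᵀ * K a b * J)) =
      fun i j => ∑ a, ∑ b, (J a i * J b j) • (J⁻¹ * upK G K a b * J) := by
  have hdet : IsUnit J.det := (Matrix.isUnit_iff_isUnit_det J).1 hJ
  have hdT : IsUnit Jᵀ.det := by rwa [Matrix.det_transpose]
  funext i j
  unfold upK
  rw [inv_cov, Finset.mul_sum]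
  refine Finset.sum_congr rfl fun a _ => ?_
  rw [Finset.mul_sum]
  refine Finset.sum_congr rfl fun b _ => ?_
  rw [mul_smul_comm]
  congr 1
  calc J⁻¹ * G⁻¹ * (Jᵀ)⁻¹ * (Jᵀ * K a b * J) = J⁻¹ * G⁻¹ * ((Jᵀ)⁻¹ * Jᵀ) * K a b * J := by
        simp only [Matrix.mul_assoc]
    _ = J⁻¹ * (G⁻¹ * K a b) * J := by
        rw [Matrix.nonsing_inv_mul _ hdT]
        simp only [Matrix.mul_assoc, Matrix.one_mul]

theorem harmRhs_cov (G : Matrix (Fin n) (Fin n) ℝ)
    (K : Fin n → Fin n → Matrix (Fin n) (Fin n) ℝ) {J : Matrix (Fin n) (Fin n) ℝ}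
    (hJ : IsUnit J) (R R' : Fin n → Matrix (Fin n) (Fin n) ℝ)
    (F F' : Fin n → Fin n → Matrix (Fin N) (Fin N) ℂ)
    (D D' : Fin n → Fin n → Fin n → Matrix (Fin N) (Fin N) ℂ) :
    harmRhs (Jᵀ * G * J) (fun i j => ∑ a, ∑ b, (J a i * J b j) • (Jᵀ * K a b * J)) R' F' D' =
      Jᵀ * harmRhs G K R F D * J := by
  have hdet : IsUnit J.det := (Matrix.isUnit_iff_isUnit_det J).1 hJ
  have hdT : IsUnit Jᵀ.det := by rwa [Matrix.det_transpose]
  have e0 := upK_cov G K hJ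
  have e1 : trc (upK (Jᵀ * G * J) (fun i j => ∑ a, ∑ b, (J a i * J b j) • (Jᵀ * K a b * J))) =
      Jᵀ * trc (upK G K) * J := by
    rw [e0, trc_cov hJ]
  have e2 : trc (fun i j => (Jᵀ * G * J)⁻¹ * (upK (Jᵀ * G * J)
      (fun i j => ∑ a, ∑ b, (J a i * J b j) • (Jᵀ * K a b * J)) i j)ᵀ) =
      Jᵀ * trc (fun i j => G⁻¹ * (upK G K i j)ᵀ) * (Jᵀ)⁻¹ := by
    rw [← trc_cov hJ]
    congr 1
    funext i j
    rw [e0, Matrix.transpose_sum, Finset.mul_sum]
    refine Finset.sum_congr rfl fun a _ => ?_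
    rw [Matrix.transpose_sum, Finset.mul_sum]
    refine Finset.sum_congr rfl fun b _ => ?_
    rw [Matrix.transpose_smul, mul_smul_comm]
    congr 1
    rw [inv_cov, Matrix.transpose_mul, Matrix.transpose_mul, Matrix.transpose_nonsing_inv]
    calc J⁻¹ * G⁻¹ * (Jᵀ)⁻¹ * (Jᵀ * ((upK G K a b)ᵀ * (Jᵀ)⁻¹)) =
          J⁻¹ * G⁻¹ * ((Jᵀ)⁻¹ * Jᵀ) * (upK G K a b)ᵀ * (Jᵀ)⁻¹ := by
          simp only [Matrix.mul_assoc]
      _ = J⁻¹ * (G⁻¹ * (upK G K a b)ᵀ) * (Jᵀ)⁻¹ := by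
          rw [Matrix.nonsing_inv_mul _ hdT]
          simp only [Matrix.mul_assoc, Matrix.one_mul]
  have e3 : trc (fun i j => (Jᵀ * G * J)⁻¹ * (Jᵀ * trc (upK G K) * J) * upK (Jᵀ * G * J)
      (fun i j => ∑ a, ∑ b, (J a i * J b j) • (Jᵀ * K a b * J)) i j) =
      Jᵀ * (trc fun i j => G⁻¹ * trc (upK G K) * upK G K i j) * J := by
    refine Eq.trans ?_ (trc_cov (M := fun i j => G⁻¹ * trc (upK G K) * upK G K i j) hJ)
    congr 1
    funext i j
    rw [e0, Finset.mul_sum]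
    refine Finset.sum_congr rfl fun a _ => ?_
    rw [Finset.mul_sum]
    refine Finset.sum_congr rfl fun b _ => ?_
    rw [mul_smul_comm]
    congr 1
    rw [inv_cov]
    calc J⁻¹ * G⁻¹ * (Jᵀ)⁻¹ * (Jᵀ * trc (upK G K) * J) * (J⁻¹ * upK G K a b * J) =
          J⁻¹ * G⁻¹ * ((Jᵀ)⁻¹ * Jᵀ) * trc (upK G K) * (J * J⁻¹) * upK G K a b * J := by
          simp only [Matrix.mul_assoc]
      _ = J⁻¹ * (G⁻¹ * trc (upK G K) * upK G K a b) * J := by
          rw [Matrix.nonsing_inv_mul _ hdT, Matrix.mul_nonsing_inv _ hdet]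
          simp only [Matrix.mul_assoc, Matrix.one_mul]
  have e4 : harmRhs (N := N) (Jᵀ * G * J)
      (fun i j => ∑ a, ∑ b, (J a i * J b j) • (Jᵀ * K a b * J)) R' F' D' =
      -(Jᵀ * trc (fun i j => G⁻¹ * (upK G K i j)ᵀ) * (Jᵀ)⁻¹ * (Jᵀ * trc (upK G K) * J) +
        Jᵀ * (trc fun i j => G⁻¹ * trc (upK G K) * upK G K i j) * J) := by
    unfold harmRhs
    rw [e1, e2, e3]
  rw [e4]
  unfold harmRhs
  have e5 : Jᵀ * trc (fun i j => G⁻¹ * (upK G K i j)ᵀ) * (Jᵀ)⁻¹ * (Jᵀ * trc (upK G K) * J) =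
      Jᵀ * (trc (fun i j => G⁻¹ * (upK G K i j)ᵀ) * trc (upK G K)) * J := by
    calc Jᵀ * trc (fun i j => G⁻¹ * (upK G K i j)ᵀ) * (Jᵀ)⁻¹ * (Jᵀ * trc (upK G K) * J) =
          Jᵀ * trc (fun i j => G⁻¹ * (upK G K i j)ᵀ) * ((Jᵀ)⁻¹ * Jᵀ) * trc (upK G K) * J := by
          simp only [Matrix.mul_assoc]
      _ = _ := by
          rw [Matrix.nonsing_inv_mul _ hdT]
          simp only [Matrix.mul_assoc, Matrix.one_mul]
  rw [e5, mul_neg, neg_mul, mul_add, add_mul]

/-! ### local Lipschitz continuity -/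

theorem bv_smooth_fst (i j : Fin n) : ContDiff ℝ ∞ (fun x : BV n N => (x i j).1) := by
  fun_prop

theorem bv_smooth_K (i j b c : Fin n) : ContDiff ℝ ∞ (fun x : BV n N => (x i j).2.1 b c) := by
  fun_prop

def mG (x : BV n N) : Matrix (Fin n) (Fin n) ℝ := fun i j => (x i j).1

def mK (x : BV n N) (i j : Fin n) : Matrix (Fin n) (Fin n) ℝ := fun b c => (x i j).2.1 b c

theorem smooth_trc {X : Type*} [NormedAddCommGroup X] [NormedSpace ℝ X] {O : Set X}
    {M : X → Fin n → Fin n → Matrix (Fin n) (Fin n) ℝ}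
    (hM : ∀ i j l c, ContDiffOn ℝ ∞ (fun x => M x i j l c) O) (j k : Fin n) :
    ContDiffOn ℝ ∞ (fun x => trc (M x) j k) O := by
  unfold trc
  exact ContDiffOn.sum fun i _ => hM i j i k

theorem smooth_mul {X : Type*} [NormedAddCommGroup X] [NormedSpace ℝ X] {O : Set X}
    {A B : X → Matrix (Fin n) (Fin n) ℝ} (hA : ∀ i j, ContDiffOn ℝ ∞ (fun x => A x i j) O)
    (hB : ∀ i j, ContDiffOn ℝ ∞ (fun x => B x i j) O) (i j : Fin n) :
    ContDiffOn ℝ ∞ (fun x => (A x * B x) i j) O := by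
  simp only [Matrix.mul_apply]
  exact ContDiffOn.sum fun b _ => (hA i b).mul (hB b j)

theorem smooth_harm {X : Type*} [NormedAddCommGroup X] [NormedSpace ℝ X] {O : Set X}
    {G : X → Matrix (Fin n) (Fin n) ℝ} {K : X → Fin n → Fin n → Matrix (Fin n) (Fin n) ℝ}
    (hG : ∀ i j, ContDiffOn ℝ ∞ (fun x => G x i j) O)
    (hK : ∀ i j l c, ContDiffOn ℝ ∞ (fun x => K x i j l c) O)
    (hd : ∀ x ∈ O, (G x).det ≠ 0) (R : Fin n → Matrix (Fin n) (Fin n) ℝ)
    (F : Fin n → Fin n → Matrix (Fin N) (Fin N) ℂ)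
    (D : Fin n → Fin n → Fin n → Matrix (Fin N) (Fin N) ℂ) (j k : Fin n) :
    ContDiffOn ℝ ∞ (fun x => harmRhs (G x) (K x) R F D j k) O := by
  have hi : ∀ i j, ContDiffOn ℝ ∞ (fun x => (G x)⁻¹ i j) O := contDiffOn_inv_entry hG hd
  have hU : ∀ i j l c, ContDiffOn ℝ ∞ (fun x => upK (G x) (K x) i j l c) O := fun i j =>
    smooth_mul hi (hK i j)
  have hT := smooth_trc hU
  have h1 := smooth_mul (smooth_trc fun i j => smooth_mul hi fun a b => hU i j b a) hT j k
  have h2 := smooth_trc (fun i j => smooth_mul (smooth_mul hi hT) (hU i j)) j k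
  exact (h1.add h2).neg

/-- The right hand side `harmRhs` is natural. -/
theorem natural4_harm : Natural4 (harmRhs : Rhs n N) where
  cov := fun G K R F D J _ hJ => harmRhs_cov G K hJ _ _ _ _ _ _
  inv := fun G K R F D U _ _ => rfl
  lip := by
    intro j k
    set O : Set (BV n N) := {x | (mG x).det ≠ 0} with hO
    have hG : ∀ i j, ContDiff ℝ ∞ (fun x : BV n N => mG x i j) := bv_smooth_fst
    have hK : ∀ i j b c, ContDiff ℝ ∞ (fun x : BV n N => mK x i j b c) := bv_smooth_K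
    have hdet : Continuous (fun x : BV n N => (mG x).det) := by
      have := contDiffOn_det (s := univ) (fun i j => (hG i j).contDiffOn)
      exact (contDiffOn_univ.1 this).continuous
    have hOo : IsOpen O := isOpen_ne_fun hdet continuous_const
    have hsO : {x : BV n N | Matrix.PosDef (fun i j => (x i j).1)} ⊆ O :=
      fun x hx => (Matrix.PosDef.det_pos hx).ne'
    have h := smooth_harm (N := N) (fun i j => (hG i j).contDiffOn)
      (fun i j b c => (hK i j b c).contDiffOn) (fun x (hx : x ∈ O) => hx) 0 0 0 j k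
    exact ll_of_smooth hOo hsO h

end Vale.Agent.P088.B

namespace Vale.Agent.P088.EYM.H

variable {n N : ℕ} [NeZero n]

/-- The coupling `Φ` of the metrics with harmonic curvature. -/
def harmPhi : Cpl4 n N := B.rhsOf B.natural4_harm

/-- `R_{ij}{}^l{}_c` -/
def rupH (g : E n → Matrix (Fin n) (Fin n) ℝ) (i j l c : Fin n) (x : E n) : ℝ :=
  pd i (chr g l j c) x - pd j (chr g l i c) x +
    ∑ m, (chr g l i m x * chr g m j c x - chr g l j m x * chr g m i c x)

theorem rm_eqH (g : E n → Matrix (Fin n) (Fin n) ℝ) (i j b c : Fin n) (x : E n) :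
    rm g i j b c x = ∑ l, g x b l * rupH g i j l c x := rfl

theorem ric_eqH (g : E n → Matrix (Fin n) (Fin n) ℝ) (j k : Fin n) (x : E n) :
    ric g j k x = ∑ i, rupH g i j i k x := rfl

/-- `R_{ijbc}` as matrices -/
def rmM (g : E n → Matrix (Fin n) (Fin n) ℝ) (x : E n) (i j : Fin n) :
    Matrix (Fin n) (Fin n) ℝ := fun b c => rm g i j b c x

/-- `R_{ij}{}^l{}_c` as matrices -/
def rupM (g : E n → Matrix (Fin n) (Fin n) ℝ) (x : E n) (i j : Fin n) :
    Matrix (Fin n) (Fin n) ℝ := fun l c => rupH g i j l c x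

theorem upK_rm {g : E n → Matrix (Fin n) (Fin n) ℝ} {x : E n} (hx : (g x).PosDef) :
    B.upK (g x) (rmM g x) = rupM g x := by
  have hdet : IsUnit (g x).det := isUnit_iff_ne_zero.2 hx.det_pos.ne'
  funext i j
  have h1 : rmM g x i j = g x * rupM g x i j := by
    ext b c
    rw [Matrix.mul_apply]
    rfl
  unfold B.upK
  rw [h1, ← Matrix.mul_assoc, Matrix.nonsing_inv_mul _ hdet, Matrix.one_mul]

theorem trc_rup (g : E n → Matrix (Fin n) (Fin n) ℝ) (x : E n) (j k : Fin n) :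
    B.trc (rupM g x) j k = ric g j k x := rfl

/-- The value of `harmPhi` at the curvature of `g`. -/
theorem harmPhi_eq {g : E n → Matrix (Fin n) (Fin n) ℝ} {x : E n} (hx : (g x).PosDef)
    (R : Fin n → Fin n → Fin n → ℝ) (F : Fin n → Fin n → EndF N)
    (F' : Fin n → Fin n → Fin n → EndF N) (j k : Fin n) :
    (harmPhi (n := n) (N := N)).f (g x) (fun i j b c => rm g i j b c x) R F F' j k =
      -∑ a, ∑ b, (g x)⁻¹ a b * ∑ l, (rupH g a j l b x * ric g l k x +
        rupH g a j l k x * ric g b l x) := by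
  have e0 : (harmPhi (n := n) (N := N)).f (g x) (fun i j b c => rm g i j b c x) R F F' j k =
      -((B.trc (fun i j => (g x)⁻¹ * (B.upK (g x) (rmM g x) i j)ᵀ) *
          B.trc (B.upK (g x) (rmM g x))) j k +
        B.trc (fun i j => (g x)⁻¹ * B.trc (B.upK (g x) (rmM g x)) *
          B.upK (g x) (rmM g x) i j) j k) := rfl
  rw [e0, upK_rm hx]
  congr 1
  have e1 : (B.trc (fun i j => (g x)⁻¹ * (rupM g x i j)ᵀ) * B.trc (rupM g x)) j k =
      ∑ a, ∑ b, (g x)⁻¹ a b * ∑ l, rupH g a j l b x * ric g l k x := by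
    have h1 : ∀ l, B.trc (fun i j => (g x)⁻¹ * (rupM g x i j)ᵀ) j l * B.trc (rupM g x) l k =
        ∑ a, ∑ b, (g x)⁻¹ a b * (rupH g a j l b x * ric g l k x) := by
      intro l
      rw [trc_rup]
      have h2 : B.trc (fun i j => (g x)⁻¹ * (rupM g x i j)ᵀ) j l =
          ∑ a, ((g x)⁻¹ * (rupM g x a j)ᵀ) a l := rfl
      rw [h2, Finset.sum_mul]
      refine Finset.sum_congr rfl fun a _ => ?_
      rw [Matrix.mul_apply, Finset.sum_mul]
      refine Finset.sum_congr rfl fun b _ => ?_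
      rw [Matrix.transpose_apply, mul_assoc]
      rfl
    rw [Matrix.mul_apply, Finset.sum_congr rfl fun l _ => h1 l, Finset.sum_comm]
    refine Finset.sum_congr rfl fun a _ => ?_
    rw [Finset.sum_comm]
    refine Finset.sum_congr rfl fun b _ => ?_
    rw [Finset.mul_sum]
  have e2 : B.trc (fun i j => (g x)⁻¹ * B.trc (rupM g x) * rupM g x i j) j k =
      ∑ a, ∑ b, (g x)⁻¹ a b * ∑ l, rupH g a j l k x * ric g b l x := by
    have h2 : B.trc (fun i j => (g x)⁻¹ * B.trc (rupM g x) * rupM g x i j) j k =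
        ∑ a, ((g x)⁻¹ * B.trc (rupM g x) * rupM g x a j) a k := rfl
    rw [h2]
    refine Finset.sum_congr rfl fun a _ => ?_
    rw [Matrix.mul_assoc, Matrix.mul_apply]
    refine Finset.sum_congr rfl fun b _ => ?_
    congr 1
    rw [Matrix.mul_apply]
    refine Finset.sum_congr rfl fun l _ => ?_
    rw [trc_rup, mul_comm]
    rfl
  rw [e1, e2, ← Finset.sum_add_distrib]
  refine Finset.sum_congr rfl fun a _ => ?_
  rw [← Finset.sum_add_distrib]
  refine Finset.sum_congr rfl fun b _ => ?_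
  rw [← mul_add, ← Finset.sum_add_distrib]

end Vale.Agent.P088.EYM.H
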