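import Vale.Agent.P088.H4.St4b

/-!
# P088, fourth order class: the right hand side for metrics with harmonic curvature
-/

open Manifold MeasureTheory Set
open scoped ContDiff Matrix

noncomputable section

namespace Vale.Agent.P088.B

variable {n N : ℕ}

/-- The contraction `(tr M)_{jk} = M_{ij}{}^i{}_k`. -/
def trc (M : Fin n → Fin n → Matrix (Fin n) (Fin n) ℝ) : Matrix (Fin n) (Fin n) ℝ :=
  fun j k => ∑ i, M i j i k

/-- The curvature operators `R_{ij}{}^l{}_c = g^{lb} R_{ijbc}`. -/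
def upK (G : Matrix (Fin n) (Fin n) ℝ) (K : Fin n → Fin n → Matrix (Fin n) (Fin n) ℝ)
    (i j : Fin n) : Matrix (Fin n) (Fin n) ℝ := G⁻¹ * K i j

/-- `Φ_{jk} = - g^{ab} (R_{aj}{}^l{}_b R_{lk} + R_{aj}{}^l{}_k R_{bl})`, where `R_{jk}` is the
Ricci tensor `R_{ij}{}^i{}_k`. -/
def harmRhs : Rhs n N := fun G K _ _ _ =>
  -(trc (fun i j => G⁻¹ * (upK G K i j)ᵀ) * trc (upK G K) +
    trc fun i j => G⁻¹ * trc (upK G K) * upK G K i j)

/-- The metric has harmonic curvature at the point `y` in a chart: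
`∇_a R_{jk} = ∇_j R_{ak}` (the Codazzi equation for the Ricci tensor). -/
def Codazzi (g : V n → Matrix (Fin n) (Fin n) ℝ) (y : V n) : Prop :=
  ∀ a j k, cd g (Ric g) a y j k = cd g (Ric g) j y a k

end Vale.Agent.P088.B
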