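import Vale.Agent.P088.H4.Harm1

/-!
# P088, fourth order class: Kähler metrics, the calculus (parallel `J`, Ricci form, Leibniz)
-/

set_option linter.all false

section

open MeasureTheory Set Filter Topology
open scoped ContDiff

noncomputable section

namespace Vale.Agent.P088.EYM.H

variable {n : ℕ} [NeZero n] {D : Set (E n)} {g J : E n → Matrix (Fin n) (Fin n) ℝ}

/-- `∂_a J = J Γ_a - Γ_a J` -/
theorem kah_pd (hJ : Kah g J D) {x : E n} (hx : x ∈ D) (a : Fin n) :
    pdM a J x = J x * mchr g a x - mchr g a x * J x := by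
  ext i j
  have h := hJ.par x hx a i j
  rw [Finset.sum_sub_distrib] at h
  rw [Matrix.sub_apply, Matrix.mul_apply, Matrix.mul_apply]
  change pd a (fun y => J y i j) x = ∑ l, J x i l * chr g l a j x - ∑ l, chr g i a l x * J x l j
  have e : ∑ l, chr g l a j x * J x i l = ∑ l, J x i l * chr g l a j x :=
    Finset.sum_congr rfl fun l _ => mul_comm _ _
  linarith

/-- the curvature commutes with `J` -/
theorem kah_com (hD : RelOpen D) (hg : GOk D g) (hJ : Kah g J D) {x : E n} (hx : x ∈ D)
    (a b : Fin n) : mR g a b x * J x = J x * mR g a b x := by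
  have sΓ := h1_sm_mchr hD hg
  have sJ : SmM J D := hJ.sm
  have h2 : ∀ a b, pdM a (pdM b J) x =
      (pdM a J x * mchr g b x + J x * pdM a (mchr g b) x) -
        (pdM a (mchr g b) x * J x + mchr g b x * pdM a J x) := by
    intro a b
    rw [Chr_pdM_congr hD (fun y hy => kah_pd hJ hy b) hx a,
      h1_pdM_sub hD (Chr_sm_mul sJ (sΓ b)) (Chr_sm_mul (sΓ b) sJ) hx a,
      Chr_pdM_mul hD sJ (sΓ b) hx a, Chr_pdM_mul hD (sΓ b) sJ hx a]
  have h3 := h1_pdM_comm hD sJ hx a b
  rw [h2, h2, kah_pd hJ hx a, kah_pd hJ hx b] at h3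
  have h4 := sub_eq_zero.2 h3
  have h5 : J x * mR g a b x - mR g a b x * J x = 0 := by
    rw [← h4, mR_eq]
    noncomm_ring
  exact (sub_eq_zero.1 h5).symm

/-- the Ricci form (up to a factor) `S_{ab} = tr (R_{ab} J)` -/
def kS (g J : E n → Matrix (Fin n) (Fin n) ℝ) (a b : Fin n) (y : E n) : ℝ :=
  Matrix.trace (mR g a b y * J y)

theorem kS_skew (a b : Fin n) (y : E n) : kS g J a b y = - kS g J b a y := by
  unfold kS
  rw [mR_skew g a b, Matrix.neg_mul, Matrix.trace_neg]

theorem sm_kS (hD : RelOpen D) (hg : GOk D g) (hJ : Kah g J D) (a b : Fin n) :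
    ContDiffOn ℝ ∞ (kS g J a b) D := by
  have h := Chr_sm_mul (sm_mR hD hg a b) (show SmM J D from hJ.sm)
  unfold kS Matrix.trace
  exact ContDiffOn.sum fun l _ => h l l

theorem pd_tr (hD : RelOpen D) {F : E n → Matrix (Fin n) (Fin n) ℝ} (hF : SmM F D) {x : E n}
    (hx : x ∈ D) (a : Fin n) :
    pd a (fun y => Matrix.trace (F y)) x = Matrix.trace (pdM a F x) := by
  unfold Matrix.trace
  exact hD.pd_sum Finset.univ (fun l _ => hF l l) hx a

/-- `∇_a S_{bc} = tr ((∇_a R_{bc}) J)` -/
theorem nab2_kS (hD : RelOpen D) (hg : GOk D g) (hJ : Kah g J D) {x : E n} (hx : x ∈ D)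
    (a b c : Fin n) : nab2 g (kS g J) a b c x = Matrix.trace (nabR g a b c x * J x) := by
  have sJ : SmM J D := hJ.sm
  have h1 : pd a (kS g J b c) x = Matrix.trace (DR g a b c x * J x) := by
    have := pd_tr hD (Chr_sm_mul (sm_mR hD hg b c) sJ) hx a
    rw [Chr_pdM_mul hD (sm_mR hD hg b c) sJ hx a, kah_pd hJ hx a] at this
    change pd a (fun y => Matrix.trace (mR g b c y * J y)) x = _
    rw [this]
    unfold DR
    have e : Matrix.trace (mR g b c x * (J x * mchr g a x)) =
        Matrix.trace (mchr g a x * mR g b c x * J x) := by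
      rw [← Matrix.mul_assoc, Matrix.trace_mul_comm, Matrix.mul_assoc]
    rw [Matrix.trace_add, Matrix.mul_sub, Matrix.trace_sub, e, Matrix.sub_mul, Matrix.add_mul,
      Matrix.trace_sub, Matrix.trace_add, ← Matrix.mul_assoc]
    ring
  unfold nab2 nabR
  rw [h1, Matrix.sub_mul, Matrix.trace_sub, Finset.sum_mul, Matrix.trace_sum]
  congr 1
  refine Finset.sum_congr rfl fun l _ => ?_
  rw [Matrix.add_mul, Matrix.smul_mul, Matrix.smul_mul, Matrix.trace_add, Matrix.trace_smul,
    Matrix.trace_smul]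
  rfl

/-- the Ricci form is closed -/
theorem nab2_kS_cyc (hD : RelOpen D) (hg : GOk D g) (hJ : Kah g J D) {x : E n} (hx : x ∈ D)
    (a b c : Fin n) : nab2 g (kS g J) a b c x + nab2 g (kS g J) b c a x +
      nab2 g (kS g J) c a b x = 0 := by
  rw [nab2_kS hD hg hJ hx, nab2_kS hD hg hJ hx, nab2_kS hD hg hJ hx, ← Matrix.trace_add,
    ← Matrix.trace_add, ← Matrix.add_mul, ← Matrix.add_mul, nabR_cyclic hD hg hx a b c,
    Matrix.zero_mul, Matrix.trace_zero]

theorem nab2_kS_skew (hD : RelOpen D) {x : E n} (hx : x ∈ D) (a b c : Fin n) :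
    nab2 g (kS g J) a b c x = - nab2 g (kS g J) a c b x := by
  unfold nab2
  have h1 : pd a (kS g J b c) x = - pd a (kS g J c b) x := by
    have : kS g J b c = fun y => - kS g J c b y := funext fun y => kS_skew b c y
    rw [this]
    unfold pd
    rw [fderivWithin_fun_neg (uniqueDiffOn_Hs x (hD.subset hx))]
    rfl
  have h2 : ∑ l, (chr g l a b x * kS g J l c x + chr g l a c x * kS g J b l x) =
      - ∑ l, (chr g l a c x * kS g J l b x + chr g l a b x * kS g J c l x) := by
    rw [← Finset.sum_neg_distrib]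
    refine Finset.sum_congr rfl fun l _ => ?_
    rw [kS_skew l c, kS_skew b l]
    ring
  rw [h1, h2]
  ring

/-! ### Leibniz rules with the parallel `J` -/

theorem nab2_mulJ (hD : RelOpen D) (hJ : Kah g J D)
    {T : Fin n → Fin n → E n → ℝ} (hT : ∀ j k, ContDiffOn ℝ ∞ (T j k) D) {x : E n} (hx : x ∈ D)
    (a b c : Fin n) : nab2 g (fun b c y => ∑ p, T b p y * J y p c) a b c x =
      ∑ p, nab2 g T a b p x * J x p c := by
  set Tm : E n → Matrix (Fin n) (Fin n) ℝ := fun y => Matrix.of fun j k => T j k y with hTm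
  have sT : SmM Tm D := fun j k => hT j k
  have sJ : SmM J D := hJ.sm
  rw [nab2_mat]
  have e1 : (fun y => Matrix.of fun j k => ∑ p, T j p y * J y p k) = fun y => Tm y * J y := by
    funext y
    ext j k
    rw [Matrix.mul_apply]
    rfl
  have e2 : (Matrix.of fun j k => ∑ p, T j p x * J x p k) = Tm x * J x := congrFun e1 x
  rw [e1, e2, Chr_pdM_mul hD sT sJ hx a, kah_pd hJ hx a]
  have e3 : pdM a Tm x * J x + Tm x * (J x * mchr g a x - mchr g a x * J x) -
      (mchr g a x).transpose * (Tm x * J x) - Tm x * J x * mchr g a x =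
      (pdM a Tm x - (mchr g a x).transpose * Tm x - Tm x * mchr g a x) * J x := by
    noncomm_ring
  rw [e3, Matrix.mul_apply]
  refine Finset.sum_congr rfl fun p _ => ?_
  rw [nab2_mat T a b p x]

theorem nab3_mat (U : Fin n → Fin n → Fin n → E n → ℝ) (e i j k : Fin n) (y : E n) :
    nab3 g U e i j k y = (pdM e (fun y => Matrix.of fun j k => U i j k y) y -
      (mchr g e y).transpose * (Matrix.of fun j k => U i j k y) -
      (Matrix.of fun j k => U i j k y) * mchr g e y -
      ∑ l, chr g l e i y • Matrix.of fun j k => U l j k y) j k := by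
  rw [Matrix.sub_apply, Matrix.sub_apply, Matrix.sub_apply, Matrix.mul_apply, Matrix.mul_apply,
    Matrix.sum_apply, sub_sub, sub_sub, ← Finset.sum_add_distrib, ← Finset.sum_add_distrib]
  unfold nab3
  congr 1
  refine Finset.sum_congr rfl fun l _ => ?_
  change chr g l e i y * U l j k y + chr g l e j y * U i l k y + chr g l e k y * U i j l y =
    chr g l e j y * U i l k y + (U i j l y * chr g l e k y + chr g l e i y * U l j k y)
  ring

theorem nab3_mulJ (hD : RelOpen D) (hJ : Kah g J D)
    {U : Fin n → Fin n → Fin n → E n → ℝ} (hU : ∀ i j k, ContDiffOn ℝ ∞ (U i j k) D) {x : E n}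
    (hx : x ∈ D) (e i j k : Fin n) : nab3 g (fun i j k y => ∑ p, U i j p y * J y p k) e i j k x =
      ∑ p, nab3 g U e i j p x * J x p k := by
  set Um : Fin n → E n → Matrix (Fin n) (Fin n) ℝ :=
    fun i y => Matrix.of fun j k => U i j k y with hUm
  have sU : ∀ i, SmM (Um i) D := fun i j k => hU i j k
  have sJ : SmM J D := hJ.sm
  rw [nab3_mat]
  have e1 : ∀ i, (fun y => Matrix.of fun j k => ∑ p, U i j p y * J y p k) =
      fun y => Um i y * J y := by
    intro i
    funext y
    ext j k
    rw [Matrix.mul_apply]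
    rfl
  have e2 : ∀ i, (Matrix.of fun j k => ∑ p, U i j p x * J x p k) = Um i x * J x :=
    fun i => congrFun (e1 i) x
  rw [e1, e2, Chr_pdM_mul hD (sU i) sJ hx e, kah_pd hJ hx e]
  simp only [e2]
  have e4 : ∑ l, chr g l e i x • (Um l x * J x) = (∑ l, chr g l e i x • Um l x) * J x := by
    rw [Finset.sum_mul]
    exact Finset.sum_congr rfl fun l _ => (Matrix.smul_mul _ _ _).symm
  have e3 : pdM e (Um i) x * J x + Um i x * (J x * mchr g e x - mchr g e x * J x) -
      (mchr g e x).transpose * (Um i x * J x) - Um i x * J x * mchr g e x -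
      ∑ l, chr g l e i x • (Um l x * J x) =
      (pdM e (Um i) x - (mchr g e x).transpose * Um i x - Um i x * mchr g e x -
        ∑ l, chr g l e i x • Um l x) * J x := by
    rw [e4]
    noncomm_ring
  rw [e3, Matrix.mul_apply]
  refine Finset.sum_congr rfl fun p _ => ?_
  rw [nab3_mat U e i j p x]

theorem nab3_perm (U : Fin n → Fin n → Fin n → E n → ℝ) (e i j k : Fin n) (x : E n) :
    nab3 g (fun i j k => U k i j) e i j k x = nab3 g U e k i j x := by
  unfold nab3
  congr 1
  refine Finset.sum_congr rfl fun l _ => ?_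
  ring

theorem nab3_swap (U : Fin n → Fin n → Fin n → E n → ℝ) (e i j k : Fin n) (x : E n) :
    nab3 g (fun i j k => U j i k) e i j k x = nab3 g U e j i k x := by
  unfold nab3
  congr 1
  refine Finset.sum_congr rfl fun l _ => ?_
  ring

end Vale.Agent.P088.EYM.H

end

end
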