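import Mathlib

/-!
# P088, fourth order class: Kähler metrics, the pointwise linear algebra

`KPt G J R`: the algebraic identities, at one point, of the curvature of a Kähler metric.
-/

set_option linter.all false

section

noncomputable section

namespace Vale.Agent.P088.EYM.H

variable {n : ℕ} {G J : Matrix (Fin n) (Fin n) ℝ}
  {R : Fin n → Fin n → Matrix (Fin n) (Fin n) ℝ}

/-- the algebraic identities of a Kähler curvature tensor at one point -/
structure KPt (G J : Matrix (Fin n) (Fin n) ℝ) (R : Fin n → Fin n → Matrix (Fin n) (Fin n) ℝ) :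
    Prop where
  gu : IsUnit G.det
  gs : G.transpose = G
  sq : J * J = -1
  orth : J.transpose * G * J = G
  skew : ∀ i j, R i j = - R j i
  met : ∀ i j, (R i j).transpose * G + G * R i j = 0
  bi : ∀ a b c l, R a b l c + R b c l a + R c a l b = 0
  com : ∀ i j, R i j * J = J * R i j

/-- the Ricci tensor of `R` -/
def kRc {n : ℕ} (R : Fin n → Fin n → Matrix (Fin n) (Fin n) ℝ) : Matrix (Fin n) (Fin n) ℝ :=
  Matrix.of fun j k => ∑ i, R i j i k

theorem kRc_apply (j k : Fin n) : kRc R j k = ∑ i, R i j i k := rfl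

/-- `G⁻¹` is symmetric -/
theorem KPt.gis (h : KPt G J R) : (G⁻¹).transpose = G⁻¹ := by
  rw [Matrix.transpose_nonsing_inv, h.gs]

theorem KPt.gi_mul (h : KPt G J R) : G⁻¹ * G = 1 := Matrix.nonsing_inv_mul _ h.gu

/-- skew in the first pair -/
theorem KPt.skew_apply (h : KPt G J R) (i j b c : Fin n) : R i j b c = - R j i b c := by
  have := congrFun (congrFun (h.skew i j) b) c
  simpa using this

theorem KPt.kskew (h : KPt G J R) (i j b c : Fin n) : (G * R i j) b c = - (G * R j i) b c := by
  rw [h.skew i j, Matrix.mul_neg, Matrix.neg_apply]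

/-- skew in the second pair -/
theorem KPt.kskew2 (h : KPt G J R) (i j b c : Fin n) : (G * R i j) b c = - (G * R i j) c b := by
  have h1 : (G * R i j).transpose = - (G * R i j) := by
    rw [Matrix.transpose_mul, h.gs]
    exact eq_neg_of_add_eq_zero_left (h.met i j)
  have h2 := congrFun (congrFun h1 b) c
  rw [Matrix.transpose_apply, Matrix.neg_apply] at h2
  linarith

/-- first Bianchi identity, lowered -/
theorem KPt.kbi (h : KPt G J R) (a b c l : Fin n) :
    (G * R a b) l c + (G * R b c) l a + (G * R c a) l b = 0 := by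
  simp only [Matrix.mul_apply]
  rw [← Finset.sum_add_distrib, ← Finset.sum_add_distrib]
  refine Finset.sum_eq_zero fun m _ => ?_
  rw [← mul_add, ← mul_add, h.bi a b c m, mul_zero]

/-- (1) pair symmetry -/
theorem KPt.pair (h : KPt G J R) (i j b c : Fin n) : (G * R i j) b c = (G * R b c) i j := by
  have e1 := h.kbi i j b c
  have e2 := h.kbi i j c b
  have e3 := h.kbi b c i j
  have e4 := h.kbi b c j i
  have s := h.kskew
  have t := h.kskew2
  linarith [s i j b c, s i j c b, s j b c i, s b i c j, s j c b i, s c i b j, s b c j i, s b c i j,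
    s c i j b, s i b j c, s c j i b, s j b i c, t i j b c, t i j c b, t j b c i, t b i c j,
    t j c b i, t c i b j, t b c j i, t b c i j, t c i j b, t i b j c, t c j i b, t j b i c]

/-- `R = G⁻¹ (G R)` -/
theorem KPt.R_eq (h : KPt G J R) (i j : Fin n) : R i j = G⁻¹ * (G * R i j) := by
  rw [← Matrix.mul_assoc, h.gi_mul, Matrix.one_mul]

/-- (2) the Ricci tensor is symmetric -/
theorem KPt.rc_symm (h : KPt G J R) : (kRc R).transpose = kRc R := by
  ext j k
  rw [Matrix.transpose_apply, kRc_apply, kRc_apply]
  have e : ∀ i a b, R i a i b = ∑ m, G⁻¹ i m * (G * R i a) m b := by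
    intro i a b
    conv_lhs => rw [h.R_eq i a]
    rw [Matrix.mul_apply]
  simp only [e]
  rw [Finset.sum_comm]
  refine Finset.sum_congr rfl fun m _ => Finset.sum_congr rfl fun i _ => ?_
  have hs : G⁻¹ i m = G⁻¹ m i := by
    have := congrFun (congrFun h.gis i) m
    rw [Matrix.transpose_apply] at this
    exact this.symm
  rw [hs, h.pair i k m j]

/-- `G J = - Jᵀ G` -/
theorem KPt.GJ (h : KPt G J R) : G * J = - (J.transpose * G) := by
  have h1 : J.transpose * G * J * J = G * J := by rw [h.orth]
  rw [Matrix.mul_assoc, h.sq, Matrix.mul_neg, Matrix.mul_one] at h1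
  exact h1.symm

/-- `J` moves from one index of the first pair to the other -/
theorem KPt.Jpair (h : KPt G J R) (p j : Fin n) :
    ∑ i, J i p • R i j = - ∑ q, J q j • R p q := by
  -- the lowered identity
  have key : ∀ b p i j, ∑ c, (G * R i j) b c * J c p = - ∑ c, J c b * (G * R i j) c p := by
    intro b p i j
    have h1 : G * R i j * J = - (J.transpose * (G * R i j)) := by
      rw [Matrix.mul_assoc, h.com, ← Matrix.mul_assoc, h.GJ, Matrix.neg_mul, Matrix.mul_assoc]
    have h2 := congrFun (congrFun h1 b) p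
    rw [Matrix.mul_apply, Matrix.neg_apply, Matrix.mul_apply] at h2
    simpa only [Matrix.transpose_apply] using h2
  have low : ∑ i, J i p • (G * R i j) = - ∑ q, J q j • (G * R p q) := by
    ext a b
    rw [Matrix.neg_apply, Matrix.sum_apply, Matrix.sum_apply]
    simp only [Matrix.smul_apply, smul_eq_mul]
    have h3 := key j p a b
    have e1 : ∑ i, J i p * (G * R i j) a b = - ∑ c, (G * R a b) j c * J c p := by
      rw [← Finset.sum_neg_distrib]
      refine Finset.sum_congr rfl fun c _ => ?_
      rw [h.kskew c j a b, h.pair j c a b]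
      ring
    have e2 : ∑ q, J q j * (G * R p q) a b = - ∑ c, J c j * (G * R a b) c p := by
      rw [← Finset.sum_neg_distrib]
      refine Finset.sum_congr rfl fun c _ => ?_
      rw [h.kskew p c a b, h.pair c p a b]
      ring
    rw [e1, e2, h3]
  have e : ∀ (i j : Fin n), R i j = G⁻¹ * (G * R i j) := h.R_eq
  calc ∑ i, J i p • R i j = ∑ i, G⁻¹ * (J i p • (G * R i j)) := by
        refine Finset.sum_congr rfl fun i _ => ?_
        rw [Matrix.mul_smul, ← e]
    _ = G⁻¹ * ∑ i, J i p • (G * R i j) := by rw [Matrix.mul_sum]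
    _ = G⁻¹ * - ∑ q, J q j • (G * R p q) := by rw [low]
    _ = - ∑ q, J q j • R p q := by
        rw [Matrix.mul_neg, Matrix.mul_sum]
        congr 1
        refine Finset.sum_congr rfl fun q _ => ?_
        rw [Matrix.mul_smul, ← e]

/-- the trace of `Jpair` -/
theorem KPt.Jtr (h : KPt G J R) (a b : Fin n) :
    ∑ l, ∑ m, R m a l b * J m l = - (J.transpose * kRc R) a b := by
  have h1 : ∀ l, ∑ m, R m a l b * J m l = - ∑ q, J q a * R l q l b := by
    intro l
    have := congrFun (congrFun (h.Jpair l a) l) b
    rw [Matrix.neg_apply, Matrix.sum_apply, Matrix.sum_apply] at this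
    simp only [Matrix.smul_apply, smul_eq_mul] at this
    rw [← this]
    exact Finset.sum_congr rfl fun m _ => mul_comm _ _
  rw [Finset.sum_congr rfl fun l _ => h1 l, Finset.sum_neg_distrib, Finset.sum_comm,
    Matrix.mul_apply]
  congr 1
  refine Finset.sum_congr rfl fun q _ => ?_
  rw [Matrix.transpose_apply, kRc_apply, Finset.mul_sum]

/-- (3) the Ricci tensor is `J`-invariant -/
theorem KPt.rc_J (h : KPt G J R) : kRc R * J = - (J.transpose * kRc R) := by
  ext j p
  rw [Matrix.neg_apply, ← h.Jtr j p, Matrix.mul_apply]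
  have h1 : ∀ i, ∑ k, R i j i k * J k p = ∑ l, J i l * R i j l p := by
    intro i
    have := congrFun (congrFun (h.com i j) i) p
    rwa [Matrix.mul_apply, Matrix.mul_apply] at this
  simp only [kRc_apply, Finset.sum_mul]
  rw [Finset.sum_comm, Finset.sum_congr rfl fun i _ => h1 i, Finset.sum_comm]
  exact Finset.sum_congr rfl fun l _ => Finset.sum_congr rfl fun i _ => mul_comm _ _

/-- `Ric J` is skew -/
theorem KPt.rcJ_skew (h : KPt G J R) (a b : Fin n) : (kRc R * J) b a = - (kRc R * J) a b := by
  have h1 : (kRc R * J).transpose = - (kRc R * J) := by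
    rw [Matrix.transpose_mul, h.rc_symm, h.rc_J, neg_neg]
  have h2 := congrFun (congrFun h1 a) b
  rwa [Matrix.transpose_apply, Matrix.neg_apply] at h2

/-- (4) the Ricci form is the trace of the curvature with `J` -/
theorem KPt.S (h : KPt G J R) (a b : Fin n) :
    ∑ l, ∑ m, R a b l m * J m l = -2 * (kRc R * J) a b := by
  have h1 : ∀ a b, ∑ l, ∑ m, R m a l b * J m l = (kRc R * J) a b := by
    intro a b
    rw [h.Jtr a b, h.rc_J, Matrix.neg_apply]
  have h2 : ∀ l m, R a b l m * J m l = R m b l a * J m l - R m a l b * J m l := by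
    intro l m
    have e1 := h.bi a b m l
    have e2 := h.skew_apply b m l a
    have e3 : R a b l m = R m b l a - R m a l b := by linarith
    rw [e3]
    ring
  simp only [h2, Finset.sum_sub_distrib]
  rw [h1, h1, h.rcJ_skew a b]
  ring

end Vale.Agent.P088.EYM.H
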