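import Vale.Agent.P088.H4.Kah0

/-!
# P088, fourth order class: Kähler metrics, the Laplacian of the Ricci tensor
-/

set_option linter.all false

section

open MeasureTheory Set Filter Topology
open scoped ContDiff

noncomputable section

namespace Vale.Agent.P088.EYM.H

variable {n : ℕ} [NeZero n] {D : Set (E n)} {g J : E n → Matrix (Fin n) (Fin n) ℝ}

theorem nab2_congr' (hD : RelOpen D) {T T' : Fin n → Fin n → E n → ℝ}
    (h : ∀ y ∈ D, ∀ j k, T j k y = T' j k y) {x : E n} (hx : x ∈ D) (a j k : Fin n) :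
    nab2 g T a j k x = nab2 g T' a j k x := by
  unfold nab2
  rw [hD.pd_congr (fun y hy => h y hy j k) hx a]
  congr 1
  exact Finset.sum_congr rfl fun l _ => by rw [h x hx l k, h x hx j l]

theorem nab2_smul' (hD : RelOpen D) (c : ℝ) {T : Fin n → Fin n → E n → ℝ}
    (hT : ∀ j k, ContDiffOn ℝ ∞ (T j k) D) {x : E n} (hx : x ∈ D) (a j k : Fin n) :
    nab2 g (fun j k y => c * T j k y) a j k x = c * nab2 g T a j k x := by
  have h := hD.pd_const_smul c (hT j k) hx a
  simp only [smul_eq_mul] at h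
  unfold nab2
  rw [h, mul_sub, Finset.mul_sum]
  congr 1
  exact Finset.sum_congr rfl fun l _ => by ring

theorem nab3_congr' (hD : RelOpen D) {T T' : Fin n → Fin n → Fin n → E n → ℝ}
    (h : ∀ y ∈ D, ∀ i j k, T i j k y = T' i j k y) {x : E n} (hx : x ∈ D) (a i j k : Fin n) :
    nab3 g T a i j k x = nab3 g T' a i j k x := by
  unfold nab3
  rw [hD.pd_congr (fun y hy => h y hy i j k) hx a]
  congr 1
  exact Finset.sum_congr rfl fun l _ => by rw [h x hx l j k, h x hx i l k, h x hx i j l]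

theorem nab3_add' (hD : RelOpen D) {T T' : Fin n → Fin n → Fin n → E n → ℝ}
    (hT : ∀ i j k, ContDiffOn ℝ ∞ (T i j k) D) (hT' : ∀ i j k, ContDiffOn ℝ ∞ (T' i j k) D)
    {x : E n} (hx : x ∈ D) (a i j k : Fin n) :
    nab3 g (fun i j k y => T i j k y + T' i j k y) a i j k x =
      nab3 g T a i j k x + nab3 g T' a i j k x := by
  unfold nab3
  rw [hD.pd_add (hT i j k) (hT' i j k) hx a]
  have e : ∑ l, (chr g l a i x * (T l j k x + T' l j k x) +
      chr g l a j x * (T i l k x + T' i l k x) + chr g l a k x * (T i j l x + T' i j l x)) =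
      ∑ l, (chr g l a i x * T l j k x + chr g l a j x * T i l k x + chr g l a k x * T i j l x) +
      ∑ l, (chr g l a i x * T' l j k x + chr g l a j x * T' i l k x +
        chr g l a k x * T' i j l x) := by
    rw [← Finset.sum_add_distrib]
    exact Finset.sum_congr rfl fun l _ => by ring
  rw [e]
  ring

theorem sum_J2 {M : Matrix (Fin n) (Fin n) ℝ} (hM : M * M = -1) (v : Fin n → ℝ) (k : Fin n) :
    ∑ c, (∑ p, v p * M p c) * M c k = - v k := by
  have h1 : ∀ p, ∑ c, M p c * M c k = (-1 : Matrix (Fin n) (Fin n) ℝ) p k := by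
    intro p
    rw [← hM, Matrix.mul_apply]
  have h2 : ∑ c, (∑ p, v p * M p c) * M c k = ∑ p, v p * ∑ c, M p c * M c k := by
    simp only [Finset.sum_mul, Finset.mul_sum]
    rw [Finset.sum_comm]
    exact Finset.sum_congr rfl fun p _ => Finset.sum_congr rfl fun c _ => by ring
  rw [h2, Finset.sum_congr rfl fun p _ => by rw [h1 p]]
  simp [Matrix.one_apply]

/-- `∇_a R_{bk} - ∇_b R_{ak} = J^c_k J^p_b ∇_c R_{ap}` -/
theorem kah_star (hD : RelOpen D) (hg : GOk D g) (hJ : Kah g J D)
    (hS : ∀ y ∈ D, ∀ a b, kS g J a b y = -2 * ∑ p, ric g a p y * J y p b) {x : E n} (hx : x ∈ D)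
    (a b k : Fin n) : dric g a b k x = dric g b a k x +
      ∑ c, (∑ p, dric g c a p x * J x p b) * J x c k := by
  have h1 : ∀ a b c, nab2 g (kS g J) a b c x = -2 * ∑ p, dric g a b p x * J x p c := by
    intro a b c
    have e1 : nab2 g (kS g J) a b c x =
        nab2 g (fun b c y => ∑ p, (fun b p y => -2 * ric g b p y) b p y * J y p c) a b c x := by
      refine nab2_congr' hD (fun y hy j k => ?_) hx a b c
      rw [hS y hy j k, Finset.mul_sum]
      exact Finset.sum_congr rfl fun p _ => by ring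
    rw [e1, nab2_mulJ hD hJ (fun j k => contDiffOn_const.mul (sm_ric hD hg j k)) hx a b c,
      Finset.mul_sum]
    refine Finset.sum_congr rfl fun p _ => ?_
    rw [nab2_smul' hD (-2) (sm_ric hD hg) hx a b p]
    change -2 * dric g a b p x * J x p c = _
    ring
  have h2 : ∀ c, ∑ p, dric g a b p x * J x p c - ∑ p, dric g b a p x * J x p c +
      ∑ p, dric g c a p x * J x p b = 0 := by
    intro c
    have e1 := nab2_kS_cyc hD hg hJ hx a b c
    have e2 := nab2_kS_skew (g := g) (J := J) hD hx b c a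
    rw [h1, h1, h1] at e1
    rw [h1, h1] at e2
    linarith
  have h3 : ∑ c, (∑ p, dric g a b p x * J x p c) * J x c k -
      ∑ c, (∑ p, dric g b a p x * J x p c) * J x c k +
      ∑ c, (∑ p, dric g c a p x * J x p b) * J x c k = 0 := by
    rw [← Finset.sum_sub_distrib, ← Finset.sum_add_distrib]
    refine Finset.sum_eq_zero fun c _ => ?_
    rw [← sub_mul, ← add_mul, h2 c, zero_mul]
  rw [sum_J2 (hJ.sq x hx), sum_J2 (hJ.sq x hx)] at h3
  linarith

/-- the second derivatives of the Ricci tensor -/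
theorem kah_star2 (hD : RelOpen D) (hg : GOk D g) (hJ : Kah g J D)
    (hS : ∀ y ∈ D, ∀ a b, kS g J a b y = -2 * ∑ p, ric g a p y * J y p b) {x : E n} (hx : x ∈ D)
    (e a b k : Fin n) : nab3 g (dric g) e a b k x = nab3 g (dric g) e b a k x +
      ∑ c, (∑ p, nab3 g (dric g) e c a p x * J x p b) * J x c k := by
  have sd := sm_dric hD hg
  have sJ : ∀ i j, ContDiffOn ℝ ∞ (fun x => J x i j) D := hJ.sm
  set U1 : Fin n → Fin n → Fin n → E n → ℝ := fun c a b y => ∑ p, dric g c a p y * J y p b with hU1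
  set U2 : Fin n → Fin n → Fin n → E n → ℝ := fun a b c => U1 c a b with hU2
  set V : Fin n → Fin n → Fin n → E n → ℝ := fun a b k y => ∑ c, U2 a b c y * J y c k with hV
  have s1 : ∀ i j k, ContDiffOn ℝ ∞ (U1 i j k) D := fun i j k =>
    ContDiffOn.sum fun p _ => (sd i j p).mul (sJ p k)
  have s2 : ∀ i j k, ContDiffOn ℝ ∞ (U2 i j k) D := fun i j k => s1 k i j
  have sV : ∀ i j k, ContDiffOn ℝ ∞ (V i j k) D := fun i j k =>
    ContDiffOn.sum fun p _ => (s2 i j p).mul (sJ p k)
  have h1 : nab3 g (dric g) e a b k x =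
      nab3 g (fun a b k y => (fun a b k => dric g b a k) a b k y + V a b k y) e a b k x :=
    nab3_congr' hD (fun y hy i j k => kah_star hD hg hJ hS hy i j k) hx e a b k
  rw [h1, nab3_add' hD (fun i j k => sd j i k) sV hx e a b k, nab3_swap (dric g) e a b k x]
  congr 1
  have h2 : nab3 g V e a b k x = ∑ c, nab3 g U2 e a b c x * J x c k :=
    nab3_mulJ hD hJ s2 hx e a b k
  rw [h2]
  refine Finset.sum_congr rfl fun c _ => ?_
  congr 1
  have h3 : nab3 g U2 e a b c x = nab3 g U1 e c a b x := nab3_perm U1 e a b c x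
  rw [h3]
  exact nab3_mulJ hD hJ sd hx e c a b

theorem kah_lap_eq (hD : RelOpen D) (hg : GOk D g) (hJ : Kah g J D) {s : ℝ}
    (hs : ∀ x ∈ D, sca g x = s)
    (hS : ∀ y ∈ D, ∀ a b, kS g J a b y = -2 * ∑ p, ric g a p y * J y p b) {x : E n} (hx : x ∈ D)
    (hC : ∀ b k, ∑ c, ∑ p, J x c k * J x p b * comR g c p x = comR g b k x) (b k : Fin n) :
    lapRic g b k x = 2 * comR g b k x := by
  have h1 : lapRic g b k x = ∑ e, ∑ a, (g x)⁻¹ e a * nab3 g (dric g) e b a k x +
      ∑ e, ∑ a, (g x)⁻¹ e a * ∑ c, (∑ p, nab3 g (dric g) e c a p x * J x p b) * J x c k := by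
    unfold lapRic
    rw [← Finset.sum_add_distrib]
    refine Finset.sum_congr rfl fun e _ => ?_
    rw [← Finset.sum_add_distrib]
    refine Finset.sum_congr rfl fun a _ => ?_
    rw [kah_star2 hD hg hJ hS hx e a b k, mul_add]
  have h2 : ∑ e, ∑ a, (g x)⁻¹ e a * ∑ c, (∑ p, nab3 g (dric g) e c a p x * J x p b) * J x c k =
      ∑ c, ∑ p, J x c k * J x p b * ∑ e, ∑ a, (g x)⁻¹ e a * nab3 g (dric g) e c a p x := by
    simp only [Finset.mul_sum, Finset.sum_mul]
    have e1 : ∀ e, ∑ a, ∑ c, ∑ p, (g x)⁻¹ e a * (nab3 g (dric g) e c a p x * J x p b * J x c k) =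
        ∑ c, ∑ p, ∑ a, (g x)⁻¹ e a * (nab3 g (dric g) e c a p x * J x p b * J x c k) := by
      intro e
      rw [Finset.sum_comm]
      exact Finset.sum_congr rfl fun c _ => Finset.sum_comm
    rw [Finset.sum_congr rfl fun e _ => e1 e, Finset.sum_comm]
    refine Finset.sum_congr rfl fun c _ => ?_
    rw [Finset.sum_comm]
    refine Finset.sum_congr rfl fun p _ => Finset.sum_congr rfl fun e _ =>
      Finset.sum_congr rfl fun a _ => ?_
    ring
  rw [h1, h2, divcomm hD hg hs hx b k]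
  have h3 : ∀ c p, ∑ e, ∑ a, (g x)⁻¹ e a * nab3 g (dric g) e c a p x = comR g c p x :=
    fun c p => divcomm hD hg hs hx c p
  simp only [h3]
  rw [hC b k]
  ring

end Vale.Agent.P088.EYM.H

end

end
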