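import Vale.Agent.P088.H4.Bd6
import Vale.Agent.P088.H4.Harm2

/-!
# P088, fourth order class: the three geometric classes are in the class
-/

open Manifold MeasureTheory Set Filter Topology
open scoped ContDiff Matrix

noncomputable section

set_option linter.all false

namespace Vale.Agent.P088.B

universe u

variable {n N : ℕ}

theorem natural4_smul {Φ : Rhs n N} (h : Natural4 Φ) (c : ℝ) :
    Natural4 (fun G K R F D => c • Φ G K R F D : Rhs n N) where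
  cov := fun G K R F D J hG hJ => by
    show c • Φ _ _ _ _ _ = Jᵀ * (c • Φ G K R F D) * J
    rw [h.cov G K R F D J hG hJ, Matrix.mul_smul, Matrix.smul_mul]
  inv := fun G K R F D U hG hU => by
    show c • Φ _ _ _ _ _ = c • Φ G K R F D
    rw [h.inv G K R F D U hG hU]
  lip := fun j k x hx => by
    obtain ⟨K, t, ht, hK⟩ := h.lip j k hx
    exact ⟨‖c‖₊ * K, t, ht, (lipschitzWith_smul c).comp_lipschitzOnWith hK⟩

variable [NeZero n]

open Vale.Agent.P088.EYM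

theorem harm_val {g : E n → Matrix (Fin n) (Fin n) ℝ} {x : E n} (hx : (g x).PosDef)
    (j k : Fin n) :
    (harmRhs : Rhs n N) (g x) (fun i j b c => H.rm g i j b c x) 0 0 0 j k = H.comR g j k x :=
  H.harmPhi_eq (N := N) hx 0 0 0 j k

variable {M : Type u} [TopologicalSpace M] [ChartedSpace (EuclideanHalfSpace n) M]
  [IsManifold (𝓡∂ n) ∞ M]

theorem sat_harm (hH : H.HarmLap_statement) {W : Set M} (hW : IsOpen W)
    {P : Pair (at_ n M) N} (hY : YMOn W P) (h : HarmOn W P) : Sat4 harmRhs W P :=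
  sat4_of hW hY (fun G K => (harmRhs : Rhs n N) G K 0 0 0) fun p x hx j k => by
    rw [hH n (tgW n W p) (gloc P p) (d5_rel hW p) (d5_ok P p) (harm_loc hW h p) x hx j k]
    exact (harm_val (d5_gpos P p x hx.1) j k).symm

theorem sat_kah (hK : H.KahLap_statement) {W : Set M} (hW : IsOpen W)
    {P : Pair (at_ n M) N} (hY : YMOn W P) (h : KahOn W P) :
    Sat4 (fun G K R F D => (2 : ℝ) • harmRhs G K R F D) W P :=
  sat4_of hW hY (fun G K => (2 : ℝ) • (harmRhs : Rhs n N) G K 0 0 0) fun p x hx j k => by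
    obtain ⟨s, hs⟩ := kah_loc hW h
    obtain ⟨h1, J, hJ⟩ := hs p
    rw [hK n (tgW n W p) (gloc P p) J s (d5_rel hW p) (d5_ok P p) hJ h1 x hx j k,
      Matrix.smul_apply, harm_val (d5_gpos P p x hx.1) j k, smul_eq_mul]

/-- What is needed of the right hand side for Bach flat metrics. -/
def BachRhs (n N : ℕ) [NeZero n] (φ : Matrix (Fin n) (Fin n) ℝ →
    (Fin n → Fin n → Matrix (Fin n) (Fin n) ℝ) → Matrix (Fin n) (Fin n) ℝ) : Prop :=
  Natural4 (N := N) (fun G K _ _ _ => φ G K) ∧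
    ∀ (g : E n → Matrix (Fin n) (Fin n) ℝ) (x : E n), (g x).PosDef → ∀ j k,
      φ (g x) (fun i j b c => H.rm g i j b c x) j k =
        H.comR g j k x - ((n : ℝ) - 2) * H.pw g j k x

theorem sat_bach (hB : H.BachLap_statement) (hn : 3 ≤ n) {φ : Matrix (Fin n) (Fin n) ℝ →
    (Fin n → Fin n → Matrix (Fin n) (Fin n) ℝ) → Matrix (Fin n) (Fin n) ℝ}
    (hφ : BachRhs n N φ) {W : Set M} (hW : IsOpen W)
    {P : Pair (at_ n M) N} (hY : YMOn W P) (h : BachOn W P) :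
    Sat4 (fun G K _ _ _ => φ G K) W P :=
  sat4_of hW hY φ fun p x hx j k => by
    obtain ⟨s, hs⟩ := bach_loc hW h
    rw [hB n (tgW n W p) (gloc P p) s hn (d5_rel hW p) (d5_ok P p) (fun y hy => (hs p y hy).1)
      (fun y hy => (hs p y hy).2) x hx j k]
    exact (hφ.2 (gloc P p) x (d5_gpos P p x hx.1) j k).symm

/-- All the cases of `Same4` are natural fourth order systems. -/
theorem same4_ex' (hH : H.HarmLap_statement) (hK : H.KahLap_statement) (hB : H.BachLap_statement)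
    {φ : Matrix (Fin n) (Fin n) ℝ → (Fin n → Fin n → Matrix (Fin n) (Fin n) ℝ) →
      Matrix (Fin n) (Fin n) ℝ} (hφ : BachRhs n N φ) (hn : 3 ≤ n)
    {M₁ M₂ : Type u} [TopologicalSpace M₁] [ChartedSpace (EuclideanHalfSpace n) M₁]
    [IsManifold (𝓡∂ n) ∞ M₁] [TopologicalSpace M₂] [ChartedSpace (EuclideanHalfSpace n) M₂]
    [IsManifold (𝓡∂ n) ∞ M₂] {Z₁ : At n M₁} (hZ₁ : Z₁ = at_ n M₁) {Z₂ : At n M₂}
    (hZ₂ : Z₂ = at_ n M₂) {W₁ : Set M₁} {W₂ : Set M₂} (hW₁ : IsOpen W₁)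
    (hW₂ : IsOpen W₂) {P : Pair Z₁ N} {Q : Pair Z₂ N} (h : Same4 W₁ W₂ P Q) :
    ∃ Φ : Rhs n N, Natural4 Φ ∧ Sat4 Φ W₁ P ∧ Sat4 Φ W₂ Q := by
  subst hZ₁ hZ₂
  rcases h with h | ⟨hP, hQ, h | h | h⟩
  · obtain ⟨Φ, h1, h2, h3⟩ := h
    exact ⟨Φ, nat4_natural h1, h2, h3⟩
  · exact ⟨harmRhs, natural4_harm, sat_harm hH hW₁ hP h.1, sat_harm hH hW₂ hQ h.2⟩
  · exact ⟨_, natural4_smul natural4_harm 2, sat_kah hK hW₁ hP h.1, sat_kah hK hW₂ hQ h.2⟩
  · exact ⟨_, hφ.1, sat_bach hB hn hφ hW₁ hP h.1, sat_bach hB hn hφ hW₂ hQ h.2⟩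

end Vale.Agent.P088.B
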