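import Vale.Agent.P088.H4.Phi
import Vale.Agent.P088.H4.Same

/-!
# P088, fourth order class: the right hand side for Bach flat metrics
-/

open Manifold MeasureTheory Set Filter Topology
open scoped ContDiff Matrix

noncomputable section

namespace Vale.Agent.P088.B

variable {n N : ℕ}

/-- the right hand side for Bach flat metrics -/
def bachφ (G : Matrix (Fin n) (Fin n) ℝ) (K : Fin n → Fin n → Matrix (Fin n) (Fin n) ℝ) :
    Matrix (Fin n) (Fin n) ℝ := (1 : ℝ) • comΦ G K + (-((n : ℝ) - 2)) • pwΦ G K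

theorem bachRhs_ok [NeZero n] : BachRhs n N bachφ := by
  refine ⟨natural4_lin 1 (-((n : ℝ) - 2)), fun g x hx j k => ?_⟩
  rw [EYM.H.comR_eq hx, EYM.H.pw_eq hx]
  change 1 * comΦ (g x) (fun i j b c => EYM.H.rm g i j b c x) j k +
    -((n : ℝ) - 2) * pwΦ (g x) (fun i j b c => EYM.H.rm g i j b c x) j k = _
  ring

end Vale.Agent.P088.B
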