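import Vale.Agent.P088.H4.St4

/-!
# P088: natural right hand sides, the form used in the proofs
-/

open Manifold MeasureTheory Set
open scoped ContDiff Matrix

noncomputable section

namespace Vale.Agent.P088.B

variable {n N : ℕ}

/-- `Φ` is natural: covariant under changes of coordinates (with Jacobian matrix `J`), invariant
under unitary changes of frame, and locally Lipschitz. -/
structure Natural4 (Φ : Rhs n N) : Prop where
  cov : ∀ G K R F D J, G.PosDef → IsUnit J →
    Φ (Jᵀ * G * J) (fun i j => ∑ a, ∑ b, (J a i * J b j) • (Jᵀ * K a b * J))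
      (fun i => ∑ a, J a i • (Jᵀ * R a * J)) (fun i j => ∑ a, ∑ b, (J a i * J b j) • F a b)
      (fun k i j => ∑ c, ∑ a, ∑ b, (J c k * J a i * J b j) • D c a b) = Jᵀ * Φ G K R F D * J
  inv : ∀ G K R F D U, G.PosDef → Uᴴ * U = 1 →
    Φ G K R (fun i j => Uᴴ * F i j * U) (fun k i j => Uᴴ * D k i j * U) = Φ G K R F D
  lip : ∀ j k, LocallyLipschitzOn
    {x : Fin n → Fin n → ℝ × (Fin n → Fin n → ℝ) × (Fin n → ℝ) × (Fin N → Fin N → ℂ) ×
      (Fin n → Fin N → Fin N → ℂ) | Matrix.PosDef (fun i j => (x i j).1)}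
    (fun x => Φ (fun i j => (x i j).1) (fun i j => (x i j).2.1) (fun a i j => (x i j).2.2.1 a)
      (fun i j => (x i j).2.2.2.1) (fun a i j => (x i j).2.2.2.2 a) j k)

theorem nat4_natural {Φ : Rhs n N} (h : Nat4 Φ) : Natural4 Φ where
  cov G K R F D J hG hJ := by
    have h1 := h.cov G K R F D J hG hJ
    rw [← cgr4, ← cgr4, ← h1]
    congr 1
    · funext i j
      simp only [pr4, Finset.smul_sum, smul_smul, cgr4]
    · funext i j
      simp only [pc4, Finset.smul_sum, smul_smul]
    · funext k i j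
      simp only [pc4, Finset.smul_sum, smul_smul, mul_assoc]
  inv := h.inv
  lip := h.lip

end Vale.Agent.P088.B
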